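import Vale.Agent.P179.Allb.Defs

/-!
# KAP (ALLB, P179): stability of the simple module of the local quotient
-/

namespace Vale.P179.H300.Kap

open Module Vale.P179.Allb

/-- a surjective algebra endomorphism of a matrix algebra is inner -/
theorem inner_of_surj {k : Type} [Field k] {d : ℕ}
    (α : Matrix (Fin d) (Fin d) k →ₐ[k] Matrix (Fin d) (Fin d) k)
    (hα : Function.Surjective α) :
    ∃ κ : Matrix (Fin d) (Fin d) k, IsUnit κ ∧ ∀ M, κ * M = α M * κ := by
  have hinj : Function.Injective α :=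
    (LinearMap.injective_iff_surjective (f := α.toLinearMap)).2 hα
  let αe : Matrix (Fin d) (Fin d) k ≃ₐ[k] Matrix (Fin d) (Fin d) k :=
    AlgEquiv.ofBijective α ⟨hinj, hα⟩
  let E : ((Fin d → k) →ₗ[k] (Fin d → k)) ≃ₐ[k] Matrix (Fin d) (Fin d) k :=
    LinearMap.toMatrixAlgEquiv'
  obtain ⟨T, hT⟩ := AlgEquiv.eq_linearEquivConjAlgEquiv ((E.trans αe).trans E.symm)
  refine ⟨E T.toLinearMap, ?_, ?_⟩
  · refine IsUnit.map E ?_
    exact ⟨⟨T.toLinearMap, T.symm.toLinearMap, by ext; simp, by ext; simp⟩, rfl⟩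
  · intro M
    have h1 : E.symm (αe (E (E.symm M))) = (T.conjAlgEquiv k) (E.symm M) := by
      rw [← hT]; rfl
    rw [AlgEquiv.apply_symm_apply, LinearEquiv.conjAlgEquiv_apply] at h1
    have h2 : α M = E ((T.toLinearMap ∘ₗ E.symm M) ∘ₗ T.symm.toLinearMap) := by
      have := congrArg E h1
      rw [AlgEquiv.apply_symm_apply] at this
      exact this
    rw [h2, ← map_mul]
    have h3 : ((T.toLinearMap ∘ₗ E.symm M) ∘ₗ T.symm.toLinearMap : (Fin d → k) →ₗ[k] (Fin d → k)) *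
        T.toLinearMap = T.toLinearMap * E.symm M := by
      refine LinearMap.ext ?_
      intro v
      change T ((E.symm M) (T.symm (T v))) = T ((E.symm M) v)
      rw [LinearEquiv.symm_apply_apply]
    rw [h3, map_mul, AlgEquiv.apply_symm_apply]

/-- lifting through a surjection -/
theorem lift_surj {k R S T : Type} [Field k] [Ring R] [Algebra k R] [Ring S] [Algebra k S]
    [Ring T] [Algebra k T] (f : R →ₐ[k] S) (hf : Function.Surjective f) (g : R →ₐ[k] T)
    (h : ∀ a, f a = 0 → g a = 0) : ∃ α : S →ₐ[k] T, ∀ a, α (f a) = g a := by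
  have key : ∀ a, g (Function.surjInv hf (f a)) = g a := by
    intro a
    have := h (Function.surjInv hf (f a) - a) (by
      rw [map_sub, Function.surjInv_eq hf, sub_self])
    rwa [map_sub, sub_eq_zero] at this
  let α : S →ₗ[k] T :=
    { toFun := fun s => g (Function.surjInv hf s)
      map_add' := by
        intro x y
        obtain ⟨a, rfl⟩ := hf x
        obtain ⟨b, rfl⟩ := hf y
        rw [← map_add, key, key, key, map_add]
      map_smul' := by
        intro r x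
        obtain ⟨a, rfl⟩ := hf x
        rw [← map_smul, key, key, map_smul]; rfl }
  refine ⟨AlgHom.ofLinearMap α ?_ ?_, ?_⟩
  · change g (Function.surjInv hf 1) = 1
    rw [← map_one f, key, map_one]
  · intro x y
    obtain ⟨a, rfl⟩ := hf x
    obtain ⟨b, rfl⟩ := hf y
    change g (Function.surjInv hf (f a * f b)) =
      g (Function.surjInv hf (f a)) * g (Function.surjInv hf (f b))
    rw [← map_mul, key, key, key, map_mul]
  · intro a
    exact key a

/-- a nonzero matrix generates an idempotent -/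
theorem eq_zero_of_nil {k : Type} [Field k] {d : ℕ} (M : Matrix (Fin d) (Fin d) k)
    (h : ∀ X Y : Matrix (Fin d) (Fin d) k, IsNilpotent (X * M * Y)) : M = 0 := by
  by_contra hM
  obtain ⟨i, j, hij⟩ : ∃ i j, M i j ≠ 0 := by
    by_contra hc
    push Not at hc
    exact hM (by ext i j; simpa using hc i j)
  have h1 : Matrix.single i i (1 : k) * M * Matrix.single j i (M i j)⁻¹ = Matrix.single i i 1 := by
    rw [Matrix.single_mul_mul_single]
    simp [hij]
  have h2 := h (Matrix.single i i 1) (Matrix.single j i (M i j)⁻¹)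
  rw [h1] at h2
  have h3 : IsIdempotentElem (Matrix.single i i (1 : k)) := by
    unfold IsIdempotentElem
    simp
  obtain ⟨r, hr⟩ := h2
  rcases Nat.eq_zero_or_pos r with h0 | h0
  · subst h0
    rw [pow_zero] at hr
    have := congrFun (congrFun hr i) i
    simp at this
  · rw [h3.pow_eq (Nat.pos_iff_ne_zero.1 h0)] at hr
    have := congrFun (congrFun hr i) i
    simp at this

theorem mem_CA {k D Λ : Type} [Field k] [CommGroup D] [Ring Λ] [Algebra k Λ] (A : PX k D Λ)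
    (X : Subgroup D) (a : Λ) : a ∈ A.CA X ↔ ∀ x ∈ X, A.u x * a = a * A.u x := by
  unfold PX.CA
  rw [Subalgebra.mem_centralizer_iff]
  constructor
  · intro h x hx
    exact h _ ⟨x, hx, rfl⟩
  · rintro h _ ⟨x, hx, rfl⟩
    exact h x hx

theorem kap : KAP := by
  intro p _ k _ _ _ D _ _ τ e _ hTW Λ Λ₁ _ _ _ _ A Q A₁ π hB d φ hφ hnil m hm
  have he : e ≠ 0 := NeZero.ne e
  obtain ⟨N₀, hN₀⟩ : IsUnit A.n := IsUnit.of_pow_eq_one A.npow he
  let N : Λˣ := N₀ ^ m
  have hnpow : ∀ (r : ℕ) (x : D), A.n ^ r * A.u x = A.u ((τ ^ r) x) * A.n ^ r := by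
    intro r
    induction r with
    | zero => intro x; simp
    | succ r ih =>
      intro x
      rw [pow_succ, mul_assoc, A.nu, ← mul_assoc, ih, mul_assoc]
      rfl
  have hN : ∀ x : D, (N : Λ) * A.u x = A.u ((τ ^ m) x) * N := by
    intro x
    have : (N : Λ) = A.n ^ m := by
      rw [← hN₀]; simp [N]
    rw [this]
    exact hnpow m x
  have hN' : ∀ x : D, (↑N⁻¹ : Λ) * A.u ((τ ^ m) x) = A.u x * ↑N⁻¹ := by
    intro x
    have := hN x
    calc (↑N⁻¹ : Λ) * A.u ((τ ^ m) x) = ↑N⁻¹ * (A.u ((τ ^ m) x) * N) * ↑N⁻¹ := by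
          rw [mul_assoc, mul_assoc, Units.mul_inv, mul_one]
      _ = ↑N⁻¹ * (N * A.u x) * ↑N⁻¹ := by rw [this]
      _ = A.u x * ↑N⁻¹ := by rw [← mul_assoc, Units.inv_mul, one_mul]
  -- the permutation of `Q`
  have hQ : Function.Bijective (fun x : Q => (⟨(τ ^ m) x, hm x x.2⟩ : Q)) := by
    refine Finite.injective_iff_bijective.1 ?_
    intro x y hxy
    have := congrArg Subtype.val hxy
    exact Subtype.ext ((τ ^ m).injective this)
  -- `σ`
  have hmem : ∀ a ∈ A.CA Q, (N : Λ) * a * ↑N⁻¹ ∈ A.CA Q := by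
    intro a ha
    rw [mem_CA] at ha ⊢
    intro x hx
    obtain ⟨y, hy⟩ := hQ.2 ⟨x, hx⟩
    have hy' : (τ ^ m) (y : D) = x := congrArg Subtype.val hy
    rw [← hy']
    calc A.u ((τ ^ m) (y : D)) * ((N : Λ) * a * ↑N⁻¹)
        = (A.u ((τ ^ m) (y : D)) * N) * a * ↑N⁻¹ := by simp only [mul_assoc]
      _ = (N : Λ) * (A.u y * a) * ↑N⁻¹ := by rw [← hN]; simp only [mul_assoc]
      _ = (N : Λ) * a * (A.u y * ↑N⁻¹) := by rw [ha y y.2]; simp only [mul_assoc]
      _ = (N : Λ) * a * ↑N⁻¹ * A.u ((τ ^ m) (y : D)) := by rw [← hN']; simp only [mul_assoc]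
  have hmem' : ∀ a ∈ A.CA Q, (↑N⁻¹ : Λ) * a * N ∈ A.CA Q := by
    intro a ha
    rw [mem_CA] at ha ⊢
    intro x hx
    have h1 := ha ((τ ^ m) x) (hm x hx)
    calc A.u x * (↑N⁻¹ * a * N) = (A.u x * ↑N⁻¹) * a * N := by simp only [mul_assoc]
      _ = ↑N⁻¹ * (A.u ((τ ^ m) x) * a) * N := by rw [← hN']; simp only [mul_assoc]
      _ = ↑N⁻¹ * a * (A.u ((τ ^ m) x) * N) := by rw [h1]; simp only [mul_assoc]
      _ = ↑N⁻¹ * a * N * A.u x := by rw [← hN]; simp only [mul_assoc]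
  let σ : A.CA Q →ₐ[k] A.CA Q :=
    { toFun := fun a => ⟨(N : Λ) * a * ↑N⁻¹, hmem a a.2⟩
      map_one' := Subtype.ext (by simp)
      map_mul' := fun a b => Subtype.ext (by
        change (N : Λ) * ((a : Λ) * b) * ↑N⁻¹ = (N : Λ) * a * ↑N⁻¹ * ((N : Λ) * b * ↑N⁻¹)
        simp only [mul_assoc, Units.inv_mul_cancel_left])
      map_zero' := Subtype.ext (by simp)
      map_add' := fun a b => Subtype.ext (by
        change (N : Λ) * ((a : Λ) + b) * ↑N⁻¹ = (N : Λ) * a * ↑N⁻¹ + ((N : Λ) * b * ↑N⁻¹)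
        rw [mul_add, add_mul])
      commutes' := fun r => Subtype.ext (by
        change (N : Λ) * (algebraMap k Λ r) * ↑N⁻¹ = algebraMap k Λ r
        rw [← Algebra.commutes, mul_assoc, Units.mul_inv, mul_one]) }
  have hσ : ∀ a : A.CA Q, ((σ a : A.CA Q) : Λ) = (N : Λ) * a * ↑N⁻¹ := fun a => rfl
  have hσsurj : Function.Surjective σ := by
    intro a
    refine ⟨⟨↑N⁻¹ * a * N, hmem' a a.2⟩, Subtype.ext ?_⟩
    rw [hσ]
    change (N : Λ) * (↑N⁻¹ * a * N) * ↑N⁻¹ = a
    simp only [mul_assoc, Units.mul_inv_cancel_left, Units.mul_inv, mul_one]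
  -- the kernel of `π` is stable
  have hkerπ : ∀ a : A.CA Q, π a = 0 → π (σ a) = 0 := by
    intro a ha
    refine A₁.nd _ ?_
    intro y
    obtain ⟨c, rfl⟩ := hB.surj y
    obtain ⟨c', rfl⟩ := hσsurj c
    rw [← map_mul, ← map_mul, hB.map_t]
    have h1 : A₁.t (π (a * c')) = 0 := by rw [map_mul, ha, zero_mul, map_zero]
    rw [hB.map_t] at h1
    rw [← h1]
    rw [← finsum_comp_equiv (Equiv.ofBijective _ hQ)]
    refine finsum_congr ?_
    intro q
    change A.t (((σ (a * c') : A.CA Q) : Λ) * A.u ((τ ^ m) q)) = A.t (((a * c' : A.CA Q) : Λ) * A.u q)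
    rw [hσ, mul_assoc, hN', ← mul_assoc, A.tc, mul_assoc, ← mul_assoc, Units.inv_mul, one_mul]
  -- the composite
  have hψ : Function.Surjective (φ.comp π) := hφ.comp hB.surj
  have hψσ : Function.Surjective ((φ.comp π).comp σ) := hψ.comp hσsurj
  have hker : ∀ a : A.CA Q, (φ.comp π) a = 0 → ((φ.comp π).comp σ) a = 0 := by
    intro a ha
    refine eq_zero_of_nil _ ?_
    intro X Y
    obtain ⟨x, rfl⟩ := hψσ X
    obtain ⟨y, rfl⟩ := hψσ Y
    rw [← map_mul, ← map_mul]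
    have h1 : φ (π (x * a * y)) = 0 := by
      have h2 : φ (π a) = 0 := ha
      rw [map_mul, map_mul, map_mul, map_mul, h2, mul_zero, zero_mul]
    obtain ⟨r, hr⟩ := hnil _ h1
    refine ⟨r, ?_⟩
    rw [← map_pow] at hr ⊢
    have h3 := hkerπ _ hr
    change φ (π (σ ((x * a * y) ^ r))) = 0
    rw [h3, map_zero]
  obtain ⟨α, hα⟩ := lift_surj (φ.comp π) hψ ((φ.comp π).comp σ) hker
  have hαs : Function.Surjective α := by
    intro M
    obtain ⟨a, ha⟩ := hψσ M
    exact ⟨(φ.comp π) a, by rw [hα, ha]⟩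
  obtain ⟨κ, hκ, hκM⟩ := inner_of_surj α hαs
  refine ⟨κ, hκ, ?_⟩
  intro x
  have hx : ∀ x : D, A.u x ∈ A.CA Q := by
    intro x
    rw [mem_CA]
    intro y _
    rw [← map_mul, ← map_mul, mul_comm]
  have h1 : (φ.comp π) ⟨A.u x, hx x⟩ = φ (A₁.u (QuotientGroup.mk x)) := by
    change φ (π ⟨A.u x, hx x⟩) = _
    rw [hB.map_u]
  have h2 : ((φ.comp π).comp σ) ⟨A.u x, hx x⟩ = φ (A₁.u (QuotientGroup.mk ((τ ^ m) x))) := by
    change φ (π (σ ⟨A.u x, hx x⟩)) = _
    have : σ ⟨A.u x, hx x⟩ = ⟨A.u ((τ ^ m) x), hx _⟩ := by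
      refine Subtype.ext ?_
      rw [hσ]
      change (N : Λ) * A.u x * ↑N⁻¹ = A.u ((τ ^ m) x)
      rw [hN, mul_assoc, Units.mul_inv, mul_one]
    rw [this, hB.map_u]
  rw [← h1, hκM, hα, h2]

end Vale.P179.H300.Kap

/-- MODULE KAP -/
theorem Vale.P179.H300.kap : Vale.P179.Allb.KAP := Vale.P179.H300.Kap.kap
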