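import Vale.Agent.P179.H531.St0
import Vale.Agent.P179.H417.Perm2

/-!
# BAS (START, ALLB): the basis of the source algebra
-/

set_option autoImplicit false
set_option linter.unusedSectionVars false

namespace Vale.P179.H300.Bas

open Subgroup P179H46 P179H524 P179H364W Module Vale.P179.H531

open scoped Classical

section Std

variable {k : Type} [Field k] {G : Type} [Group G] [Fintype G]

/-- the standard basis -/
noncomputable def stdB (k G : Type) [Field k] [Group G] : Basis G k (MonoidAlgebra k G) :=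
  Basis.ofRepr (MonoidAlgebra.coeffLinearEquiv k)

omit [Fintype G] in
theorem stdB_repr (a : MonoidAlgebra k G) (g : G) : (stdB k G).repr a g = a.coeff g := rfl

omit [Fintype G] in
theorem stdB_apply (g : G) : stdB k G g = sg g := by
  apply (stdB k G).repr.injective
  rw [Basis.repr_self]
  rfl

/-- the action `a ↦ x a y(x)⁻¹` of a subgroup, for a homomorphism `y` -/
noncomputable def tw {H : Type} [Group H] (f g : H →* G) : H →* Module.End k (MonoidAlgebra k G) where
  toFun x := (LinearMap.mulLeft k (sg (f x))) * (LinearMap.mulRight k (sg (g x)⁻¹))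
  map_one' := by
    refine LinearMap.ext fun a => ?_
    simp [sg_one, Module.End.mul_apply]
  map_mul' x y := by
    refine LinearMap.ext fun a => ?_
    simp only [Module.End.mul_apply, LinearMap.mulLeft_apply, LinearMap.mulRight_apply, map_mul,
      mul_inv_rev, ← sg_mul, mul_assoc]

omit [Fintype G] in
theorem tw_apply {H : Type} [Group H] (f g : H →* G) (x : H) (a : MonoidAlgebra k G) :
    tw f g x a = sg (f x) * a * sg (g x)⁻¹ := by
  change sg (f x) * (a * sg (g x)⁻¹) = _
  rw [mul_assoc]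

/-- the passage between two permutation bases -/
theorem transfer {p : ℕ} [Fact p.Prime] [CharP k p] {H : Type} [Group H] (hH : IsPGroup p H)
    (rep : H →* Module.End k (MonoidAlgebra k G)) (b b' : Basis G k (MonoidAlgebra k G))
    (hb : ∀ h i, ∃ j, rep h (b i) = b j) (hb' : ∀ h i, ∃ j, rep h (b' i) = b' j)
    (v : MonoidAlgebra k G) (hv : ∀ h, rep h v = v)
    (h0 : ∀ i, (∀ h, rep h (b i) = b i) → b.repr v i = 0) (i : G)
    (hi : ∀ h, rep h (b' i) = b' i) : b'.repr v i = 0 := by
  have hT : IsPGroup p (⊤ : Subgroup H) := hH.to_subgroup ⊤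
  refine H417.repr_coinv rep ⊤ b' hb' i (fun s _ => hi s) v ?_
  refine H417.mem_coinv rep ⊤ hT b hb v (fun s _ => hv s) ?_
  intro j hj
  exact h0 j fun h => hj h (Subgroup.mem_top h)

end Std

section Main

variable {p : ℕ} [Fact p.Prime] {k : Type} [Field k] [IsAlgClosed k] [CharP k p] {G : Type}
  [Group G] [Fintype G] {D T : Subgroup G} {i : MonoidAlgebra k G}
  {E : Set G → MonoidAlgebra k G}

/-- first and second claim -/
theorem exists_basis (hD : IsPGroup p D) (hab : D ≤ centralizer (D : Set G)) (hi : i * i = i)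
    (hf : Fxd D i) :
    ∃ b : Basis G k (MonoidAlgebra k G),
      (∀ x ∈ D, ∀ y ∈ D, ∀ g, sg x * b g * sg y = b (x * g * y)) ∧
      (∀ g, i * b g * i = b g ∨ i * b g * i = 0) := by
  let _ : CommGroup D :=
    { (inferInstance : Group D) with
      mul_comm := fun x y => Subtype.ext (mem_centralizer_iff.1 (hab y.2) x x.2) }
  let u : D →* MonoidAlgebra k G :=
    { toFun := fun x => sg (x : G)
      map_one' := sg_one
      map_mul' := fun x y => (sg_mul (x : G) (y : G)).symm }
  have hu : ∀ x : D, u x = sg (x : G) := fun x => rfl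
  obtain ⟨b, h1, h2⟩ := H417.exchange_corner (p := p) hD u (stdB k G)
    (fun x y ω => ⟨x * ω * y, by
      rw [hu, hu, stdB_apply, stdB_apply, sg_mul, sg_mul]⟩) i hi
    (fun x => by
      have h3 := hf x x.2
      rw [cn] at h3
      rw [hu]
      calc i * sg (x : G) = (sg (x : G) * i * sg (x : G)⁻¹) * sg (x : G) := by rw [h3]
        _ = sg (x : G) * i := by rw [mul_assoc, sg_inv_mul, mul_one])
  refine ⟨b, ?_, h2⟩
  intro x hx y hy g
  exact (h1 ⟨x, hx⟩ ⟨y, hy⟩ g (x * g * y)).1 (by
    rw [hu, hu, stdB_apply, stdB_apply, sg_mul, sg_mul])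

variable {b : Basis G k (MonoidAlgebra k G)}

/-- third claim -/
theorem third (h : SD p D T i E)
    (hb1 : ∀ x ∈ D, ∀ y ∈ D, ∀ g, sg x * b g * sg y = b (x * g * y)) (g : G)
    (hg : i * b g * i = b g) :
    ∃ θ ∈ T, ∀ x ∈ D, g⁻¹ * x * g ∈ D → g⁻¹ * x * g = θ⁻¹ * x * θ := by
  -- `Q = D ∩ g D g⁻¹`
  let Q : Subgroup G := D ⊓ D.map (MulAut.conj g).toMonoidHom
  have hQ : ∀ x, x ∈ Q ↔ x ∈ D ∧ g⁻¹ * x * g ∈ D := by
    intro x
    refine and_congr Iff.rfl ?_
    constructor
    · rintro ⟨y, hy, rfl⟩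
      have : g⁻¹ * ((MulAut.conj g).toMonoidHom y) * g = y := by
        simp [mul_assoc]
      rw [this]; exact hy
    · intro hx
      exact ⟨g⁻¹ * x * g, hx, by simp [mul_assoc]⟩
  let Q' : Subgroup G := Q.map (MulAut.conj g⁻¹).toMonoidHom
  have hQ' : ∀ x, x ∈ Q' ↔ ∃ y ∈ Q, g⁻¹ * y * g = x := by
    intro x
    constructor
    · rintro ⟨y, hy, rfl⟩
      exact ⟨y, hy, by simp [MulAut.conj_apply]⟩
    · rintro ⟨y, hy, rfl⟩
      exact ⟨y, hy, by simp [MulAut.conj_apply]⟩
  have hQD : Q ≤ D := fun x hx => ((hQ x).1 hx).1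
  have hQ'D : Q' ≤ D := by
    intro x hx
    obtain ⟨y, hy, rfl⟩ := (hQ' x).1 hx
    exact ((hQ y).1 hy).2
  have himg : (fun s => g⁻¹ * s * g) '' (Q : Set G) = (Q' : Set G) := by
    ext x
    constructor
    · rintro ⟨y, hy, rfl⟩
      exact (hQ' _).2 ⟨y, hy, rfl⟩
    · intro hx
      obtain ⟨y, hy, rfl⟩ := (hQ' _).1 hx
      exact ⟨y, hy, rfl⟩
  rcases h.fus (Q : Set G) g (fun s hs => hQD hs) (fun s hs => ((hQ s).1 hs).2) with h1 | h1
  · obtain ⟨θ, hθ, h2⟩ := h1
    exact ⟨θ, hθ, fun x hx hx' => h2 x ((hQ x).2 ⟨hx, hx'⟩)⟩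
  exfalso
  rw [himg] at h1
  have hQp : IsPGroup p Q := h.pgr.to_le hQD
  -- `w = b_g g⁻¹`
  set w : MonoidAlgebra k G := b g * sg g⁻¹ with hw
  have hbg : ∀ x ∈ Q, sg x * b g = b g * sg (g⁻¹ * x * g) := by
    intro x hx
    have hx1 := ((hQ x).1 hx).1
    have hx2 := ((hQ x).1 hx).2
    have h2 := hb1 x hx1 (g⁻¹ * x * g)⁻¹ (D.inv_mem hx2) g
    have h3 : x * g * (g⁻¹ * x * g)⁻¹ = g := by group
    rw [h3] at h2
    calc sg x * b g = sg x * b g * (sg (g⁻¹ * x * g)⁻¹ * sg (g⁻¹ * x * g)) := by
          rw [sg_inv_mul, mul_one]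
      _ = (sg x * b g * sg (g⁻¹ * x * g)⁻¹) * sg (g⁻¹ * x * g) := by simp only [mul_assoc]
      _ = _ := by rw [h2]
  have hwQ : Fxd Q w := by
    intro x hx
    rw [cn, hw]
    calc sg x * (b g * sg g⁻¹) * sg x⁻¹ = (sg x * b g) * (sg g⁻¹ * sg x⁻¹) := by
          simp only [mul_assoc]
      _ = b g * (sg (g⁻¹ * x * g) * (sg g⁻¹ * sg x⁻¹)) := by rw [hbg x hx, mul_assoc]
      _ = b g * sg g⁻¹ := by
          rw [sg_mul, sg_mul]
          congr 2
          group
  have hiQ : Fxd Q i := h.fxd.mono hQD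
  have hiQ' : Fxd Q' i := h.fxd.mono hQ'D
  have hcQ : Fxd Q (cn g i) := by
    intro x hx
    have h2 := h.fxd (g⁻¹ * x * g) ((hQ x).1 hx).2
    rw [← cn_mul]
    have h3 : x * g = g * (g⁻¹ * x * g) := by group
    rw [h3, cn_mul, h2]
  have hwi : w = i * w * cn g i := by
    rw [hw, cn]
    calc b g * sg g⁻¹ = (i * b g * i) * sg g⁻¹ := by rw [hg]
      _ = i * (b g * (sg g⁻¹ * sg g)) * i * sg g⁻¹ := by rw [sg_inv_mul, mul_one]
      _ = _ := by simp only [mul_assoc]
  have hcen : ∀ x, x ∈ centralizer (Q : Set G) ↔ g⁻¹ * x * g ∈ centralizer (Q' : Set G) := by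
    intro x
    constructor
    · intro hx
      rw [mem_centralizer_iff]
      intro z hz
      obtain ⟨y, hy, rfl⟩ := (hQ' z).1 hz
      have := mem_centralizer_iff.1 hx y hy
      calc g⁻¹ * y * g * (g⁻¹ * x * g) = g⁻¹ * (y * x) * g := by group
        _ = g⁻¹ * (x * y) * g := by rw [this]
        _ = _ := by group
    · intro hx
      rw [mem_centralizer_iff]
      intro y hy
      have := mem_centralizer_iff.1 hx (g⁻¹ * y * g) ((hQ' _).2 ⟨y, hy, rfl⟩)
      calc y * x = g * (g⁻¹ * y * g * (g⁻¹ * x * g)) * g⁻¹ := by group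
        _ = g * (g⁻¹ * x * g * (g⁻¹ * y * g)) * g⁻¹ := by rw [this]
        _ = x * y := by group
  have hbrw : brk Q w = 0 := by
    have e1 : brk Q w = brk Q i * brk Q w * cn g (brk Q' i) := by
      conv_lhs => rw [hwi]
      rw [brk_mul hQp (hiQ.mul hwQ) hcQ, brk_mul hQp hiQ hwQ, brk_cn g Q hcen]
    have e2 : E (Q : Set G) * brk Q i = brk Q i := h.ei Q hQD
    have e3 : cn g (E (Q' : Set G)) * cn g (brk Q' i) = cn g (brk Q' i) := by
      rw [← cn_mul', h.ei Q' hQ'D]
    have e4 : Fxd (centralizer (Q : Set G)) (cn g (E (Q' : Set G))) := by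
      intro x hx
      have h2 := h.efx (Q' : Set G) (fun s hs => hQ'D hs) (g⁻¹ * x * g) ((hcen x).1 hx)
      rw [← cn_mul]
      have h3 : x * g = g * (g⁻¹ * x * g) := by group
      rw [h3, cn_mul, h2]
    have e5 : Sup (centralizer (Q : Set G)) (brk Q i * brk Q w) :=
      (brk_sup Q i).mul (brk_sup Q w)
    have e6 := comm_of_sup e4 e5
    rw [e1, ← e3, ← e2]
    calc E (Q : Set G) * brk Q i * brk Q w * (cn g (E (Q' : Set G)) * cn g (brk Q' i))
        = E (Q : Set G) * ((brk Q i * brk Q w) * cn g (E (Q' : Set G))) * cn g (brk Q' i) := by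
          simp only [mul_assoc]
      _ = (E (Q : Set G) * cn g (E (Q' : Set G))) * (brk Q i * brk Q w) * cn g (brk Q' i) := by
          rw [← e6]; simp only [mul_assoc]
      _ = 0 := by rw [h1, zero_mul, zero_mul]
  -- the twisted action of `Q`
  let f : Q →* G := Q.subtype
  let f' : Q →* G := (MulAut.conj g⁻¹).toMonoidHom.comp Q.subtype
  have hf : ∀ x : Q, f x = x := fun _ => rfl
  have hf' : ∀ x : Q, f' x = g⁻¹ * x * g := by
    intro x
    change (MulAut.conj g⁻¹) (x : G) = _
    simp
  have hrb : ∀ (x : Q) (j : G), tw (k := k) f f' x (b j) = b (x * j * (g⁻¹ * x * g)⁻¹) := by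
    intro x j
    rw [tw_apply, hf, hf', hb1 _ ((hQ x).1 x.2).1 _ (D.inv_mem ((hQ x).1 x.2).2)]
  have hrs : ∀ (x : Q) (j : G),
      tw (k := k) f f' x (stdB k G j) = stdB k G (x * j * (g⁻¹ * x * g)⁻¹) := by
    intro x j
    rw [tw_apply, hf, hf', stdB_apply, stdB_apply, sg_mul, sg_mul]
  have hfixg : ∀ x : Q, tw (k := k) f f' x (b g) = b g := by
    intro x
    rw [hrb]
    congr 1
    group
  have key := transfer (p := p) hQp (tw (k := k) f f') (stdB k G) b (fun h j => ⟨_, hrs h j⟩)
    (fun h j => ⟨_, hrb h j⟩) (b g) hfixg (by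
      intro j hj
      have hjc : j * g⁻¹ ∈ centralizer (Q : Set G) := by
        rw [mem_centralizer_iff]
        intro x hx
        have h2 := hj ⟨x, hx⟩
        rw [hrs] at h2
        have h3 : x * j * (g⁻¹ * x * g)⁻¹ = j := (stdB k G).injective h2
        calc x * (j * g⁻¹) = (x * j * (g⁻¹ * x * g)⁻¹) * g⁻¹ * x := by group
          _ = j * g⁻¹ * x := by rw [h3]
      rw [stdB_repr]
      have h4 : (brk Q w).coeff (j * g⁻¹) = 0 := by rw [hbrw]; rfl
      rw [coeff_brk, if_pos hjc, hw] at h4
      have h5 : (b g * sg g⁻¹).coeff (j * g⁻¹) = (b g).coeff j := by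
        unfold sg
        rw [MonoidAlgebra.coeff_mul_single_apply]
        simp
      rwa [h5] at h4) g hfixg
  rw [Basis.repr_self, Finsupp.single_eq_same] at key
  exact one_ne_zero key

/-- in a local corner over an algebraically closed field every element is scalar plus nilpotent -/
theorem scalar_nil (hne : i ≠ 0) (hi : i * i = i)
    (hloc : LocJ (fun a => Fxd D a) i) (hf : Fxd D i) {a : MonoidAlgebra k G} (ha : Fxd D a)
    (hl : i * a = a) (hr : a * i = a) : ∃ c : k, IsNilpotent (a - c • i) := by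
  -- an eigenvalue of left multiplication on `i A`
  let V : Submodule k (MonoidAlgebra k G) := LinearMap.range (LinearMap.mulLeft k i)
  have hV : ∀ v, v ∈ V ↔ i * v = v := by
    intro v
    constructor
    · rintro ⟨w, rfl⟩
      rw [LinearMap.mulLeft_apply, ← mul_assoc, hi]
    · intro h
      exact ⟨v, h⟩
  have : Nontrivial V := ⟨⟨⟨i, (hV i).2 hi⟩, 0, fun h => hne (congrArg Subtype.val h)⟩⟩
  have hst : ∀ v ∈ V, LinearMap.mulLeft k a v ∈ V := by
    intro v _
    rw [hV, LinearMap.mulLeft_apply, ← mul_assoc, hl]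
  let f : Module.End k V := (LinearMap.mulLeft k a).restrict hst
  obtain ⟨c, hc⟩ := Module.End.exists_eigenvalue f
  obtain ⟨v, hv⟩ := hc.exists_hasEigenvector
  refine ⟨c, ?_⟩
  have hv1 : a * (v : MonoidAlgebra k G) = c • (v : MonoidAlgebra k G) :=
    congrArg Subtype.val hv.apply_eq_smul
  have hv0 : (v : MonoidAlgebra k G) ≠ 0 := fun h => hv.2 (Subtype.ext h)
  have hvi : i * (v : MonoidAlgebra k G) = v := (hV v).1 v.2
  rcases hloc (a - c • i) (fun d hd => by rw [cn_sub, cn_smul, ha d hd, hf d hd])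
    (by rw [mul_sub, mul_smul_comm, hl, hi]) (by rw [sub_mul, smul_mul_assoc, hr, hi]) with h | h
  · exact h
  · exfalso
    obtain ⟨a', _, _, _, h4⟩ := h
    apply hv0
    have e1 : (a - c • i) * (v : MonoidAlgebra k G) = 0 := by
      rw [sub_mul, smul_mul_assoc, hv1, hvi, sub_self]
    calc (v : MonoidAlgebra k G) = i * v := hvi.symm
      _ = a' * ((a - c • i) * v) := by rw [← mul_assoc, h4]
      _ = 0 := by rw [e1, mul_zero]

/-- the elements `brk (b g)`, `g` in the centraliser, are linearly independent -/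
theorem brk_indep (hD : IsPGroup p D)
    (hb1 : ∀ x ∈ D, ∀ y ∈ D, ∀ g, sg x * b g * sg y = b (x * g * y)) (c : G → k)
    (hc : ∀ g, g ∉ centralizer (D : Set G) → c g = 0)
    (h0 : brk D (∑ g, c g • b g) = 0) : ∀ g, c g = 0 := by
  intro g
  by_cases hg : g ∈ centralizer (D : Set G)
  swap
  · exact hc g hg
  let f : D →* G := D.subtype
  have hrb : ∀ (x : D) (j : G), tw (k := k) f f x (b j) = b (x * j * (x : G)⁻¹) := by
    intro x j
    rw [tw_apply]
    exact hb1 _ x.2 _ (D.inv_mem x.2) j
  have hrs : ∀ (x : D) (j : G),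
      tw (k := k) f f x (stdB k G j) = stdB k G (x * j * (x : G)⁻¹) := by
    intro x j
    rw [tw_apply, stdB_apply, stdB_apply]
    change sg (x : G) * sg j * sg (x : G)⁻¹ = _
    rw [sg_mul, sg_mul]
  have hfx : ∀ g ∈ centralizer (D : Set G), ∀ x : D, (x : G) * g * (x : G)⁻¹ = g := by
    intro g hg x
    rw [mem_centralizer_iff.1 hg x x.2, mul_inv_cancel_right]
  have key := transfer (p := p) hD (tw (k := k) f f) (stdB k G) b (fun h j => ⟨_, hrs h j⟩)
    (fun h j => ⟨_, hrb h j⟩) (∑ g, c g • b g) (by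
      intro x
      rw [map_sum]
      refine Finset.sum_congr rfl fun g _ => ?_
      rw [map_smul, hrb]
      by_cases hg : g ∈ centralizer (D : Set G)
      · rw [hfx g hg]
      · rw [hc g hg, zero_smul, zero_smul]) (by
      intro j hj
      have hjc : j ∈ centralizer (D : Set G) := by
        rw [mem_centralizer_iff]
        intro x hx
        have h2 := hj ⟨x, hx⟩
        rw [hrs] at h2
        have h3 : x * j * x⁻¹ = j := (stdB k G).injective h2
        calc x * j = (x * j * x⁻¹) * x := by group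
          _ = j * x := by rw [h3]
      rw [stdB_repr]
      have h4 : (brk D (∑ g, c g • b g)).coeff j = 0 := by rw [h0]; rfl
      rwa [coeff_brk, if_pos hjc] at h4) g (by
      intro x
      rw [hrb, hfx g hg])
  rw [b.repr_sum_self] at key
  exact key

/-- fourth claim -/
theorem fourth (h : SD p D T i E)
    (hb1 : ∀ x ∈ D, ∀ y ∈ D, ∀ g, sg x * b g * sg y = b (x * g * y))
    (hb2 : ∀ g, i * b g * i = b g ∨ i * b g * i = 0) :
    Nat.card {g : G // g ∈ centralizer (D : Set G) ∧ i * b g * i = b g} = Nat.card D := by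
  have hi := h.idem
  have hne : i ≠ 0 := by
    intro h0
    apply h.ne
    rw [h0]
    ext x
    rw [coeff_brk]
    simp
  have hib : ∀ x ∈ D, i * sg x = sg x * i := by
    intro x hx
    have h3 := h.fxd x hx
    rw [cn] at h3
    calc i * sg x = (sg x * i * sg x⁻¹) * sg x := by rw [h3]
      _ = sg x * i := by rw [mul_assoc, sg_inv_mul, mul_one]
  have hDC : ∀ x ∈ D, x ∈ centralizer (D : Set G) := fun x hx => h.ab hx
  -- left translation
  have hlt : ∀ x ∈ D, ∀ g, sg x * b g = b (x * g) := by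
    intro x hx g
    have := hb1 x hx 1 D.one_mem g
    rwa [sg_one, mul_one, mul_one] at this
  have hcor : ∀ x ∈ D, ∀ g, i * b g * i = b g → i * b (x * g) * i = b (x * g) := by
    intro x hx g hg
    rw [← hlt x hx g]
    calc i * (sg x * b g) * i = (i * sg x) * b g * i := by simp only [mul_assoc]
      _ = sg x * (i * b g * i) := by rw [hib x hx]; simp only [mul_assoc]
      _ = sg x * b g := by rw [hg]
  -- fixed
  have hbf : ∀ g ∈ centralizer (D : Set G), Fxd D (b g) := by
    intro g hg x hx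
    rw [cn, hb1 x hx _ (D.inv_mem hx), mem_centralizer_iff.1 hg x hx, mul_inv_cancel_right]
  -- the sum over `D`
  have hND : ∀ g ∈ centralizer (D : Set G), i * b g * i = b g →
      ∃ c : k, ∑ d : D, brk D (b ((d : G) * g)) = c • ((∑ d : D, sg (d : G)) * brk D i) := by
    intro g hg hgi
    have hl : i * b g = b g := by
      rw [← hgi]; simp only [← mul_assoc]; rw [hi]
    have hr : b g * i = b g := by
      rw [← hgi]; simp only [mul_assoc]; rw [hi]
    obtain ⟨c, m, hm⟩ := scalar_nil hne hi h.loc h.fxd (hbf g hg) hl hr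
    refine ⟨c, ?_⟩
    have hν : Fxd D (b g - c • i) := fun d hd => by
      rw [cn_sub, cn_smul, hbf g hg d hd, h.fxd d hd]
    have hνl : i * (b g - c • i) = b g - c • i := by rw [mul_sub, mul_smul_comm, hl, hi]
    have hνr : (b g - c • i) * i = b g - c • i := by rw [sub_mul, smul_mul_assoc, hr, hi]
    have e1 : (∑ d : D, sg (d : G)) * brk D (b g - c • i) = 0 := by
      refine h.nil _ (brk_sup D _) ?_ ?_ ?_
      · rw [← brk_mul h.pgr h.fxd hν, hνl]
      · rw [← brk_mul h.pgr hν h.fxd, hνr]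
      · refine ⟨m, ?_⟩
        have h5 := (brk_aeval h.pgr hν (Polynomial.X ^ m)).2
        rw [map_pow, map_pow, Polynomial.aeval_X, Polynomial.aeval_X, hm] at h5
        rw [← h5]
        ext x
        rw [coeff_brk]
        simp
    have e2 : brk D (b g) = brk D (b g - c • i) + c • brk D i := by
      rw [← brk_smul, ← brk_add, sub_add_cancel]
    have e3 : ∀ d : D, brk D (b ((d : G) * g)) = sg (d : G) * brk D (b g) := by
      intro d
      rw [← hlt d d.2 g]
      have hs : Sup (centralizer (D : Set G)) (sg (d : G) : MonoidAlgebra k G) := by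
        intro y hy
        rw [sg, MonoidAlgebra.coeff_single, Finsupp.single_apply, if_neg]
        rintro rfl
        exact hy (h.ab d.2)
      rw [brk_mul h.pgr hs.fxd (hbf g hg), brk_of_sup hs]
    rw [Finset.sum_congr rfl fun d _ => e3 d, ← Finset.sum_mul, e2, mul_add, e1, zero_add,
      mul_smul_comm]
  -- existence
  have hex : ∃ g ∈ centralizer (D : Set G), i * b g * i = b g := by
    by_contra hcon
    push Not at hcon
    apply h.ne
    have hrep : ∀ g ∈ centralizer (D : Set G), b.repr i g = 0 := by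
      intro g hg
      have e1 : i = ∑ j, (b.repr i j) • (i * b j * i) := by
        conv_lhs => rw [← hi, ← hi]
        have e2 : i * (∑ j, b.repr i j • b j) * i = ∑ j, (b.repr i j) • (i * b j * i) := by
          rw [Finset.mul_sum, Finset.sum_mul]
          refine Finset.sum_congr rfl fun j _ => ?_
          rw [mul_smul_comm, smul_mul_assoc]
        rw [← e2, b.sum_repr]
        rw [hi]
      have e3 : i = ∑ j, (if i * b j * i = b j then b.repr i j else 0) • b j := by
        conv_lhs => rw [e1]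
        refine Finset.sum_congr rfl fun j _ => ?_
        by_cases hj : i * b j * i = b j
        · rw [if_pos hj, hj]
        · rw [if_neg hj, zero_smul]
          rcases hb2 j with h5 | h5
          · exact absurd h5 hj
          · rw [h5, smul_zero]
      have e4 := congrArg (fun v => b.repr v g) e3
      simp only [b.repr_sum_self] at e4
      rw [e4, if_neg (hcon g hg)]
    let f : D →* G := D.subtype
    have hrb : ∀ (x : D) (j : G), tw (k := k) f f x (b j) = b (x * j * (x : G)⁻¹) := by
      intro x j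
      rw [tw_apply]
      exact hb1 _ x.2 _ (D.inv_mem x.2) j
    have hrs : ∀ (x : D) (j : G),
        tw (k := k) f f x (stdB k G j) = stdB k G (x * j * (x : G)⁻¹) := by
      intro x j
      rw [tw_apply, stdB_apply, stdB_apply]
      change sg (x : G) * sg j * sg (x : G)⁻¹ = _
      rw [sg_mul, sg_mul]
    ext x
    rw [coeff_brk]
    split_ifs with hx
    swap
    · rfl
    have key := transfer (p := p) h.pgr (tw (k := k) f f) b (stdB k G) (fun h j => ⟨_, hrb h j⟩)
      (fun h j => ⟨_, hrs h j⟩) i (fun d => by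
        rw [tw_apply]; exact h.fxd d d.2) (by
        intro j hj
        refine hrep j ?_
        rw [mem_centralizer_iff]
        intro y hy
        have h2 := hj ⟨y, hy⟩
        rw [hrb] at h2
        have h3 : y * j * y⁻¹ = j := b.injective h2
        calc y * j = (y * j * y⁻¹) * y := by group
          _ = j * y := by rw [h3]) x (by
        intro d
        rw [hrs]
        congr 1
        rw [mem_centralizer_iff.1 hx d d.2, mul_inv_cancel_right])
    rw [stdB_repr] at key
    rw [key]
    rfl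
  obtain ⟨g₀, hg₀, hgi₀⟩ := hex
  -- the bijection
  have hmem : ∀ d : D, (d : G) * g₀ ∈ centralizer (D : Set G) ∧
      i * b ((d : G) * g₀) * i = b ((d : G) * g₀) := fun d =>
    ⟨mul_mem (hDC d d.2) hg₀, hcor d d.2 g₀ hgi₀⟩
  symm
  refine Nat.card_eq_of_bijective (fun d : D => (⟨(d : G) * g₀, hmem d⟩ :
    {g : G // g ∈ centralizer (D : Set G) ∧ i * b g * i = b g})) ⟨?_, ?_⟩
  · intro x y hxy
    have := congrArg Subtype.val hxy
    exact Subtype.ext (mul_right_cancel this)
  · rintro ⟨g₁, hg₁, hgi₁⟩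
    by_contra hcon
    have hdis : ∀ d : D, (d : G) * g₀ ≠ g₁ := by
      intro d hd
      exact hcon ⟨d, Subtype.ext hd⟩
    obtain ⟨c₀, h₀⟩ := hND g₀ hg₀ hgi₀
    obtain ⟨c₁, h₁⟩ := hND g₁ hg₁ hgi₁
    -- the general relation
    have hrel : ∀ a₀ a₁ : k, a₀ * c₀ + a₁ * c₁ = 0 → a₀ = 0 ∧ a₁ = 0 := by
      intro a₀ a₁ ha
      let c : G → k := fun g => (if ∃ d : D, (d : G) * g₀ = g then a₀ else 0) +
        (if ∃ d : D, (d : G) * g₁ = g then a₁ else 0)
      have hsum : ∀ (g' : G) (a : k), ∑ g, (if ∃ d : D, (d : G) * g' = g then a else 0) • b g =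
          a • ∑ d : D, b ((d : G) * g') := by
        intro g' a
        rw [Finset.smul_sum]
        have hinj : Function.Injective (fun d : D => (d : G) * g') := fun x y hxy =>
          Subtype.ext (mul_right_cancel hxy)
        rw [← Finset.sum_image (f := fun g => a • b g) (g := fun d : D => (d : G) * g')
          (s := Finset.univ) (fun x _ y _ hxy => hinj hxy)]
        symm
        refine Finset.sum_subset_zero_on_sdiff (Finset.subset_univ _) ?_ ?_ |>.trans rfl
        · intro x hx
          rw [Finset.mem_sdiff, Finset.mem_image] at hx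
          rw [if_neg, zero_smul]
          rintro ⟨d, hd⟩
          exact hx.2 ⟨d, Finset.mem_univ _, hd⟩
        · intro x hx
          rw [Finset.mem_image] at hx
          obtain ⟨d, _, hd⟩ := hx
          rw [if_pos ⟨d, hd⟩]
      have hc := brk_indep (b := b) h.pgr hb1 c (by
        intro g hg
        have e1 : ∀ g' ∈ centralizer (D : Set G), ¬ ∃ d : D, (d : G) * g' = g := by
          rintro g' hg' ⟨d, rfl⟩
          exact hg (mul_mem (hDC d d.2) hg')
        simp only [c]
        rw [if_neg (e1 g₀ hg₀), if_neg (e1 g₁ hg₁), add_zero]) (by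
        have e1 : ∑ g, c g • b g = a₀ • ∑ d : D, b ((d : G) * g₀) +
            a₁ • ∑ d : D, b ((d : G) * g₁) := by
          rw [← hsum, ← hsum, ← Finset.sum_add_distrib]
          exact Finset.sum_congr rfl fun g _ => add_smul _ _ _
        rw [e1, brk_add, brk_smul, brk_smul, brk_sum, brk_sum, h₀, h₁, smul_smul, smul_smul,
          ← add_smul, ha, zero_smul])
      constructor
      · have := hc g₀
        simp only [c] at this
        rw [if_pos ⟨1, by simp⟩, if_neg, add_zero] at this
        · exact this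
        · rintro ⟨d, hd⟩
          refine hdis d⁻¹ ?_
          rw [← hd]
          simp
      · have := hc g₁
        simp only [c] at this
        rw [if_pos (⟨1, by simp⟩ : ∃ d : D, (d : G) * g₁ = g₁), if_neg, zero_add] at this
        · exact this
        · rintro ⟨d, hd⟩
          exact hdis d hd
    have r1 := hrel c₁ (-c₀) (by ring)
    have r2 := hrel 1 0 (by rw [neg_eq_zero.1 r1.2]; ring)
    exact one_ne_zero r2.1

/-- MODULE BAS -/
theorem bas : BAS := by
  intro p _ k _ _ _ G _ _ D T i E h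
  obtain ⟨b, h1, h2⟩ := exists_basis (p := p) h.pgr h.ab h.idem h.fxd
  exact ⟨b, h1, h2, fun g hg => third h h1 g hg, fourth h h1 h2⟩


end Main

end Vale.P179.H300.Bas
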