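import Vale.Agent.P179.H300.EP7

/-!
# EP3 of the SIGNATURE project

`gd (ε_a B ε_b) = (C + C W C)_{ab}` with `C = (gd (ε_a A ε_b))` and a matrix `W` over the ring
of Laurent polynomials.
-/

namespace Vale.P179.H300

open Module Vale.P179.H175 Vale.P179.H904 Vale.P179.H815 Vale.P179.H445

section homog

variable {K B : Type*} [Field K] [Ring B] [Algebra K B] [FiniteDimensional K B]
  {W : ℚ → Submodule K B}

theorem exists_finset_cpt (hW : DirectSum.IsInternal W) :
    ∃ S : Finset ℚ, ∀ x, ∑ r ∈ S, cpt W r x = x := by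
  classical
  have hfin := finite_support (K := K) hW.submodule_iSupIndep
  refine ⟨hfin.toFinset, fun x => ?_⟩
  refine induction_gr hW (P := fun x => ∑ r ∈ hfin.toFinset, cpt W r x = x) ?_ ?_ x
  · intro s x hx
    by_cases hs : s ∈ hfin.toFinset
    · rw [Finset.sum_eq_single s]
      · rw [cpt_of_mem hW hx, if_pos rfl]
      · intro r _ hr
        rw [cpt_of_mem hW hx, if_neg (Ne.symm hr)]
      · exact fun h => absurd hs h
    · have h0 : x = 0 := by
        have : W s = ⊥ := by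
          by_contra h
          exact hs (hfin.mem_toFinset.mpr h)
        rw [this] at hx
        simpa using hx
      simp [h0]
  · intro x y hx hy
    simp only [map_add, Finset.sum_add_distrib, hx, hy]

end homog

section left

variable {K A B Γ I : Type*} [Field K] [Ring A] [Algebra K A] [FiniteDimensional K A] [Ring B]
  [Algebra K B] [FiniteDimensional K B] [Group Γ] [Fintype Γ] {γ : Γ →* A} {ι : A →ₐ[K] B}
  {ρ : B →ₗ[K] A} {θ : B →ₗ[K] B} {ρ0 : B →ₗ[K] A}
  {WA : ℚ → Submodule K A} {W : ℚ → Submodule K B} {J : Submodule K A} {ε : I → A}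

omit [FiniteDimensional K A] [FiniteDimensional K B] in
theorem SR_left (D : Ret0 ι ρ0 WA W) (a : A) {z : B} (hz : z ∈ SR ι ρ0 J) :
    ι a * z ∈ SR ι ρ0 J := by
  unfold SR at hz ⊢
  induction hz using Submodule.span_induction with
  | mem z hz =>
    obtain ⟨j, hj, b, hb, rfl⟩ := hz
    exact Submodule.subset_span ⟨j, hj, ι a * b, by rw [D.left, hb, mul_zero],
      (mul_assoc _ _ _).symm⟩
  | zero => rw [mul_zero]; exact zero_mem _
  | add y z _ _ hy hz => rw [mul_add]; exact add_mem hy hz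
  | smul c y _ hy => rw [mul_smul_comm]; exact Submodule.smul_mem _ _ hy

omit [FiniteDimensional K A] [FiniteDimensional K B] in
theorem SR_right (hb : Basic WA J ε) (a : A) {z : B} (hz : z ∈ SR ι ρ0 J) :
    z * ι a ∈ SR ι ρ0 J := by
  unfold SR at hz ⊢
  induction hz using Submodule.span_induction with
  | mem z hz =>
    obtain ⟨j, hj, b, hb', rfl⟩ := hz
    exact Submodule.subset_span ⟨j * a, hb.mulR _ _ hj, b, hb', by rw [map_mul, mul_assoc]⟩
  | zero => rw [zero_mul]; exact zero_mem _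
  | add y z _ _ hy hz => rw [add_mul]; exact add_mem hy hz
  | smul c y _ hy => rw [smul_mul_assoc]; exact Submodule.smul_mem _ _ hy

omit [FiniteDimensional K A] [FiniteDimensional K B] in
theorem SR_psi {ψ : B →ₗ[K] B} (h6 : ∀ a b, ψ (b * ι a) = ψ b * ι a)
    (h7 : ∀ b, ρ0 (ψ b) = 0) {z : B} (hz : z ∈ SR ι ρ0 J) : ψ z ∈ SR ι ρ0 J := by
  unfold SR at hz ⊢
  induction hz using Submodule.span_induction with
  | mem z hz =>
    obtain ⟨j, hj, b, hb', rfl⟩ := hz
    exact Submodule.subset_span ⟨j, hj, ψ b, h7 b, h6 j b⟩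
  | zero => rw [map_zero]; exact zero_mem _
  | add y z _ _ hy hz => rw [map_add]; exact add_mem hy hz
  | smul c y _ hy => rw [map_smul]; exact Submodule.smul_mem _ _ hy

omit [FiniteDimensional K A] [FiniteDimensional K B] in
theorem SR_rho (D : Ret0 ι ρ0 WA W) {z : B} (hz : z ∈ SR ι ρ0 J) : ρ0 z = 0 := by
  unfold SR at hz
  induction hz using Submodule.span_induction with
  | mem z hz =>
    obtain ⟨j, hj, b, hb', rfl⟩ := hz
    rw [D.right, hb', zero_mul]
  | zero => exact map_zero _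
  | add y z _ _ hy hz => rw [map_add, hy, hz, add_zero]
  | smul c y _ hy => rw [map_smul, hy, smul_zero]

omit [FiniteDimensional K B] in
theorem SR_homog (D : Ret0 ι ρ0 WA W) (hb : Basic WA J ε) (hB : H175.GrAlg W) :
    Homog W (SR ι ρ0 J) := by
  classical
  obtain ⟨S, hS⟩ := exists_finset_cpt hb.gr.int
  intro z hz
  unfold SR at hz
  induction hz using Submodule.span_induction with
  | mem z hz =>
    obtain ⟨j, hj, b, hb', rfl⟩ := hz
    intro r
    have h1 : b * ι j = ∑ s ∈ S, b * ι (cpt WA s j) := by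
      rw [← Finset.mul_sum, ← map_sum, hS]
    rw [h1, map_sum]
    refine Submodule.sum_mem _ fun s _ => ?_
    rw [cpt_mul_right hB (D.inj s _ (cpt_mem hb.gr.int s j))]
    refine Submodule.subset_span ⟨cpt WA s j, hb.hom j hj s, cpt W (r - s) b, ?_, rfl⟩
    rw [← cpt_map hB.int hb.gr.int ρ0 D.deg, hb', map_zero]
  | zero => intro r; rw [map_zero]; exact zero_mem _
  | add y z _ _ hy hz => intro r; rw [map_add]; exact add_mem (hy r) (hz r)
  | smul c y _ hy => intro r; rw [map_smul]; exact Submodule.smul_mem _ _ (hy r)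

/-- **(L2)** for the top of the complement as a left module. -/
theorem gd_left [Fintype I] [DecidableEq I] (R : Rel γ ι ρ θ)
    (hspan : Submodule.span K (Set.range γ) = ⊤)
    (D : Ret0 ι ρ0 WA W) (hb : Basic WA J ε) (hB : H175.GrAlg W) {y : A} (hy0 : y ∈ WA 0)
    (hy : y * y = y) :
    ∃ w : I → ZQ, ∀ x ∈ WA 0, x * x = x →
      gd W (Uab ι ρ0 x y) - gd W (SR ι ρ0 J ⊓ Uab ι ρ0 x y) =
        ∑ c, gd WA (cor2 K x (ε c)) * w c := by
  classical
  obtain ⟨ψ, h5, h6, h7⟩ := exists_psi R hspan D.ret D.left D.right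
  have hyy : ι y * ι y = ι y := by rw [← map_mul, hy]
  let _ : Module A B := Module.compHom B (ι : A →+* B)
  have hsm : ∀ (a : A) (b : B), a • b = ι a * b := fun _ _ => rfl
  have : IsScalarTower K A B := ⟨fun q a b => by rw [hsm, hsm, map_smul, smul_mul_assoc]⟩
  -- the submodule
  let N : Submodule A B :=
    { carrier := {b | cpl ι ρ0 b * ι y ∈ SR ι ρ0 J}
      add_mem' := fun {b c} hb hc => by
        change cpl ι ρ0 (b + c) * ι y ∈ SR ι ρ0 J
        rw [map_add, add_mul]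
        exact add_mem hb hc
      zero_mem' := by
        change cpl ι ρ0 0 * ι y ∈ SR ι ρ0 J
        rw [map_zero, zero_mul]
        exact zero_mem _
      smul_mem' := fun a b hb => by
        change cpl ι ρ0 (ι a * b) * ι y ∈ SR ι ρ0 J
        rw [D.cpl_left, mul_assoc]
        exact SR_left D a hb }
  have hN : ∀ b, b ∈ N ↔ cpl ι ρ0 b * ι y ∈ SR ι ρ0 J := fun _ => Iff.rfl
  let mk : B →ₗ[K] (B ⧸ N) := (N.mkQ).restrictScalars K
  have hmk : ∀ b, mk b = 0 ↔ cpl ι ρ0 b * ι y ∈ SR ι ρ0 J := fun b => by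
    change N.mkQ b = 0 ↔ _
    rw [Submodule.mkQ_apply, Submodule.Quotient.mk_eq_zero, hN]
  have hmks : Function.Surjective mk := N.mkQ_surjective
  have hmksm : ∀ (a : A) (b : B), a • mk b = mk (ι a * b) := fun a b => rfl
  have hmkeq : ∀ b c, mk b = mk c ↔ cpl ι ρ0 (b - c) * ι y ∈ SR ι ρ0 J := fun b c => by
    rw [← sub_eq_zero, ← map_sub, hmk]
  have hfd : FiniteDimensional K (B ⧸ N) := Module.Finite.of_surjective mk hmks
  have hfin : Module.Finite A (B ⧸ N) := Module.Finite.of_restrictScalars_finite K A _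
  -- the grading
  let V : ℚ → Submodule K (B ⧸ N) := fun r => (W r).map mk
  have hker : Homog W (LinearMap.ker mk) := by
    intro x hx r
    rw [LinearMap.mem_ker, hmk] at hx ⊢
    have h1 := SR_homog D hb hB _ hx r
    have h2 := cpt_mul_right hB (D.inj 0 y hy0) r (cpl ι ρ0 x)
    rw [sub_zero, cpt_map hB.int hB.int (cpl ι ρ0) D.cpl_deg] at h2
    rwa [h2] at h1
  have hV : GrMod WA V :=
    { int := internal_map hB.int mk hmks hker
      smul := fun {r s a x} ha hx => by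
        obtain ⟨b, hb', rfl⟩ := hx
        rw [hmksm]
        exact ⟨ι a * b, hB.mul (D.inj r a ha) hb', rfl⟩ }
  -- projectivity
  obtain ⟨σ, hσ⟩ := mk.exists_rightInverse_of_surjective (LinearMap.range_eq_top.mpr hmks)
  have hσ' : ∀ l, mk (σ l) = l := fun l => LinearMap.congr_fun hσ l
  let Ψ : B →ₗ[K] B := ψ ∘ₗ LinearMap.mulRight K (ι y) ∘ₗ cpl ι ρ0
  have hΨ : ∀ b, Ψ b = ψ (cpl ι ρ0 b * ι y) := fun _ => rfl
  have hΨ0 : ∀ b, mk b = 0 → mk (Ψ b) = 0 := by
    intro b hb'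
    rw [hmk] at hb' ⊢
    rw [hΨ]
    have h8 := SR_psi h6 h7 hb'
    rw [cpl_of_rho (SR_rho D h8)]
    exact SR_right hb y h8
  have hΨeq : ∀ b, mk (Ψ (σ (mk b))) = mk (Ψ b) := by
    intro b
    rw [← sub_eq_zero, ← map_sub, ← map_sub]
    exact hΨ0 _ (by rw [map_sub, hσ', sub_self])
  have hproj : Module.Projective A (B ⧸ N) := by
    refine projective_of_higman hspan 0 0 (mk ∘ₗ Ψ ∘ₗ σ) fun l => ?_
    obtain ⟨b, rfl⟩ := hmks l
    rw [LinearMap.zero_apply, zero_add]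
    have h9 : ∀ x : Γ, γ x • (mk ∘ₗ Ψ ∘ₗ σ) (γ x⁻¹ • mk b) =
        mk (ι (γ x) * ψ (ι (γ x⁻¹) * (cpl ι ρ0 b * ι y))) := by
      intro x
      rw [hmksm, LinearMap.comp_apply, LinearMap.comp_apply, hΨeq, hmksm, hΨ, D.cpl_left,
        mul_assoc]
    rw [Finset.sum_congr rfl fun x _ => h9 x, ← map_sum, h5, hmkeq]
    have h10 : cpl ι ρ0 b * ι y - ι (ρ0 (cpl ι ρ0 b * ι y)) = cpl ι ρ0 b * ι y := by
      rw [D.right, D.rho_cpl, zero_mul, map_zero, sub_zero]
    rw [h10, map_sub, D.cpl_right, D.cpl_cpl, sub_mul, mul_assoc, hyy, sub_self]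
    exact zero_mem _
  obtain ⟨n, i, r, x, F⟩ := exists_fam hb hV
  refine ⟨mult i r, fun x hx0 hx => ?_⟩
  rw [← sum_mult i r (fun c => gd WA (cor2 K x (ε c))), ← F.gd_cor1 hb.gr hV hb.deg hx0 hx]
  -- the dimension of the corner
  have hxx : ι x * ι x = ι x := by rw [← map_mul, hx]
  apply coeff_ext
  intro s
  rw [AddMonoidAlgebra.coeff_sub, Finsupp.sub_apply, coeff_gd hB.int.submodule_iSupIndep,
    coeff_gd hB.int.submodule_iSupIndep, coeff_gd hV.int.submodule_iSupIndep]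
  have h := finrank_map_add (Uab ι ρ0 x y ⊓ W s) mk
  have k1 : (Uab ι ρ0 x y ⊓ W s).map mk = cor1 K (B ⧸ N) x ⊓ V s := by
    ext l
    constructor
    · rintro ⟨b, ⟨hb1, hb2⟩, rfl⟩
      refine ⟨?_, b, hb2, rfl⟩
      change x • mk b = mk b
      rw [hmksm, hb1.1.1]
    · rintro ⟨hl, b, hb', rfl⟩
      have h1 : x • mk b = mk b := hl
      rw [hmksm] at h1
      refine ⟨ι x * (cpl ι ρ0 b * ι y), ⟨⟨⟨?_, ?_⟩, ?_⟩, ?_⟩, ?_⟩
      · rw [← mul_assoc, hxx]
      · rw [mul_assoc, mul_assoc, hyy]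
      · change ρ0 _ = 0
        rw [D.left, D.right, D.rho_cpl, zero_mul, mul_zero]
      · have h2 := hB.mul (D.inj 0 x hx0) (hB.mul (D.cpl_deg s b hb') (D.inj 0 y hy0))
        rwa [add_zero, zero_add] at h2
      · rw [← h1, hmkeq, map_sub, D.cpl_left, D.cpl_right, D.cpl_cpl, D.cpl_left, sub_mul,
          mul_assoc (ι x), mul_assoc (cpl ι ρ0 b), hyy, mul_assoc (ι x), sub_self]
        exact zero_mem _
  have k2 : (Uab ι ρ0 x y ⊓ W s) ⊓ LinearMap.ker mk =
      (SR ι ρ0 J ⊓ Uab ι ρ0 x y) ⊓ W s := by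
    ext b
    constructor
    · rintro ⟨⟨hb1, hb2⟩, hb3⟩
      have h1 := (hmk b).mp hb3
      rw [cpl_of_rho hb1.2, hb1.1.2] at h1
      exact ⟨⟨h1, hb1⟩, hb2⟩
    · rintro ⟨⟨hb1, hb2⟩, hb3⟩
      refine ⟨⟨hb2, hb3⟩, (hmk b).mpr ?_⟩
      rw [cpl_of_rho hb2.2, hb2.1.2]
      exact hb1
  rw [k1, k2] at h
  have h' : (finrank K ↥(cor1 K (B ⧸ N) x ⊓ V s) : ℤ) +
      (finrank K ↥((SR ι ρ0 J ⊓ Uab ι ρ0 x y) ⊓ W s) : ℤ) =
      (finrank K ↥(Uab ι ρ0 x y ⊓ W s) : ℤ) := by exact_mod_cast h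
  linarith

/-- **EP3.** -/
theorem ep3 [Fintype I] [DecidableEq I] (R : Rel γ ι ρ θ)
    (hspan : Submodule.span K (Set.range γ) = ⊤)
    (hb : Basic WA J ε) (hB : H175.GrAlg W) (hι : ∀ r, ∀ h ∈ WA r, ι h ∈ W r) :
    ∃ Wm : Matrix I I ZQ, ∀ a b, gd W (cor2 K (ι (ε a)) (ι (ε b))) =
      gd WA (cor2 K (ε a) (ε b)) + ∑ a', ∑ b', gd WA (cor2 K (ε a) (ε a')) * Wm a' b' *
        gd WA (cor2 K (ε b') (ε b)) := by
  obtain ⟨ρ0, h1, h2, h3, h4⟩ := exists_rho0 R hb.gr hB hι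
  have D : Ret0 ι ρ0 WA W := ⟨h1, h2, h3, h4, hι⟩
  choose w hw using fun d : I => gd_left R hspan D hb hB (hb.deg d) (hb.idem d)
  refine ⟨Matrix.of fun c d => w d c, fun a b => ?_⟩
  rw [gd_cor2_eq D hb.gr hB, gd_right R hspan D hb hB (hb.deg a) (hb.idem a) b]
  congr 1
  rw [Finset.sum_comm]
  refine Finset.sum_congr rfl fun d _ => ?_
  rw [hw d (ε a) (hb.deg a) (hb.idem a), Finset.sum_mul]
  rfl

end left

end Vale.P179.H300
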