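import Vale.Agent.P179.H300.EP4

/-!
# EP2 of the SIGNATURE project: homogeneous bases of `B E` over `A`

* `exists_psi` : the projection onto the complement of `ι A` is a one-sided trace of a
  right-linear map;
* `LFam` : homogeneous bases of `B E` as a left `A`-module;
* `exists_lfam`, `LFam.gd_eq`, `ep2`.
-/

namespace Vale.P179.H300

open Module Vale.P179.H175 Vale.P179.H904 Vale.P179.H815 Vale.P179.H445

section psi

variable {K A B Γ : Type*} [Field K] [Ring A] [Algebra K A] [Ring B]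
  [Algebra K B] [Group Γ] [Fintype Γ] {γ : Γ →* A} {ι : A →ₐ[K] B}
  {ρ : B →ₗ[K] A} {θ : B →ₗ[K] B}

/-- The complementary projection is a one-sided trace. -/
theorem exists_psi (R : Rel γ ι ρ θ) (hspan : Submodule.span K (Set.range γ) = ⊤)
    {ρ0 : B →ₗ[K] A} (h1 : ∀ h, ρ0 (ι h) = h) (h2 : ∀ h b, ρ0 (ι h * b) = h * ρ0 b)
    (h3 : ∀ h b, ρ0 (b * ι h) = ρ0 b * h) :
    ∃ ψ : B →ₗ[K] B, (∀ b, ∑ x : Γ, ι (γ x) * ψ (ι (γ x⁻¹) * b) = b - ι (ρ0 b)) ∧
      (∀ a b, ψ (b * ι a) = ψ b * ι a) ∧ (∀ b, ρ0 (ψ b) = 0) := by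
  classical
  let p : B →ₗ[K] B := LinearMap.id - ι.toLinearMap ∘ₗ ρ0
  have hp : ∀ b, p b = b - ι (ρ0 b) := fun b => rfl
  let t : B →ₗ[K] B :=
    { toFun := fun b => ∑ y : Γ, θ (b * ι (γ y)) * ι (γ y⁻¹)
      map_add' := fun b c => by simp [add_mul, Finset.sum_add_distrib]
      map_smul' := fun q b => by simp [Finset.smul_sum] }
  have ht : ∀ b, t b = ∑ y : Γ, θ (b * ι (γ y)) * ι (γ y⁻¹) := fun b => rfl
  have ht1 : ∀ (g : Γ) b, t (b * ι (γ g)) = t b * ι (γ g) := by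
    intro g b
    rw [ht, ht, Finset.sum_mul, ← Equiv.sum_comp (Equiv.mulLeft g) (fun y =>
      θ (b * ι (γ y)) * ι (γ y⁻¹) * ι (γ g))]
    refine Finset.sum_congr rfl fun y _ => ?_
    simp only [Equiv.coe_mulLeft, mul_inv_rev, map_mul, mul_assoc]
    congr 1
    rw [← map_mul ι, ← map_mul γ, inv_mul_cancel, map_one, map_one, mul_one]
  have ht2 : ∀ a b, t (b * ι a) = t b * ι a := by
    intro a b
    have ha : a ∈ Submodule.span K (Set.range γ) := by rw [hspan]; trivial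
    induction ha using Submodule.span_induction with
    | mem a ha => obtain ⟨y, rfl⟩ := ha; exact ht1 y b
    | zero => simp
    | add a c _ _ ha hc => rw [map_add, mul_add, map_add, ha, hc, mul_add]
    | smul q a _ ha => rw [map_smul, mul_smul_comm, map_smul, ha, mul_smul_comm]
  refine ⟨p ∘ₗ t, fun b => ?_, fun a b => ?_, fun b => ?_⟩
  · have h4 : ∑ x : Γ, ι (γ x) * t (ι (γ x⁻¹) * b) = b - ι (ρ b) := by
      rw [← R.hig b]
      refine Finset.sum_congr rfl fun x _ => ?_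
      rw [ht, Finset.mul_sum]
      exact Finset.sum_congr rfl fun y _ => (mul_assoc _ _ _).symm
    have h5 := congrArg p h4
    rw [map_sum, map_sub, hp (ι (ρ b)), h1, sub_self, sub_zero, hp b] at h5
    rw [← h5]
    refine Finset.sum_congr rfl fun x _ => ?_
    rw [LinearMap.comp_apply, hp, hp, h2, map_mul ι (γ x), mul_sub]
  · rw [LinearMap.comp_apply, LinearMap.comp_apply, ht2, hp, hp, h3, map_mul, sub_mul]
  · rw [LinearMap.comp_apply, hp, map_sub, h1, sub_self]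

end psi

section ep2

variable {K A B Γ I : Type*} [Field K] [Ring A] [Algebra K A] [FiniteDimensional K A] [Ring B]
  [Algebra K B] [FiniteDimensional K B] [Group Γ] [Fintype Γ] {γ : Γ →* A} {ι : A →ₐ[K] B}
  {ρ : B →ₗ[K] A} {θ : B →ₗ[K] B}
  {WA : ℚ → Submodule K A} {W : ℚ → Submodule K B} {J : Submodule K A} {ε : I → A}

omit [FiniteDimensional K A] in
/-- Right multiplication by an idempotent of degree zero is a graded retraction. -/
theorem retr_right (R : Rel γ ι ρ θ) (hspan : Submodule.span K (Set.range γ) = ⊤)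
    (hA : H175.GrAlg WA) (hB : H175.GrAlg W) (hι : ∀ r, ∀ h ∈ WA r, ι h ∈ W r)
    {E : B} (hE0 : E ∈ W 0) (hE : E * E = E) : Retr γ ι W (LinearMap.mulRight K E) := by
  obtain ⟨ρ0, h1, h2, h3, h4⟩ := exists_rho0 R hA hB hι
  obtain ⟨ψ, h5, h6, h7⟩ := exists_psi R hspan h1 h2 h3
  refine ⟨fun a b => ?_, fun b => ?_, fun r b hb => ?_, ρ0, E,
    LinearMap.mulRight K E ∘ₗ ψ, h2, ?_, fun b hb => ?_⟩
  · simp only [LinearMap.mulRight_apply, mul_assoc]
  · simp only [LinearMap.mulRight_apply, mul_assoc, hE]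
  · have := hB.mul hb hE0
    rwa [add_zero] at this
  · simp only [LinearMap.mulRight_apply, hE]
  · simp only [LinearMap.mulRight_apply, LinearMap.comp_apply] at hb ⊢
    have h8 : ∑ x : Γ, ι (γ x) * (ψ (ι (γ x⁻¹) * b) * E) = (b - ι (ρ0 b)) * E := by
      rw [← h5 b, Finset.sum_mul]
      exact Finset.sum_congr rfl fun x _ => (mul_assoc _ _ _).symm
    rw [h8, sub_mul, hb]
    abel

/-- A homogeneous basis of `B E` over `A`. -/
structure LFam (ι : A →ₐ[K] B) (W : ℚ → Submodule K B) (ε : I → A) (E : B) {n : ℕ}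
    (i : Fin n → I) (r : Fin n → ℚ) (x : Fin n → B) : Prop where
  mem : ∀ k, x k ∈ W (r k)
  left : ∀ k, ι (ε (i k)) * x k = x k
  right : ∀ k, x k * E = x k
  span : ∀ y, y * E = y → ∃ c : Fin n → A, (∀ k, c k * ε (i k) = c k) ∧
    ∑ k, ι (c k) * x k = y
  inj : ∀ c : Fin n → A, (∀ k, c k * ε (i k) = c k) → ∑ k, ι (c k) * x k = 0 → c = 0

/-- **EP2**, family form. -/
theorem exists_lfam (R : Rel γ ι ρ θ) (hspan : Submodule.span K (Set.range γ) = ⊤)
    (hb : Basic WA J ε) (hB : H175.GrAlg W) (hι : ∀ r, ∀ h ∈ WA r, ι h ∈ W r)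
    {E : B} (hE0 : E ∈ W 0) (hE : E * E = E) :
    ∃ (n : ℕ) (i : Fin n → I) (r : Fin n → ℚ) (x : Fin n → B), LFam ι W ε E i r x ∧
      ∀ η : A, η ∈ WA 0 → η * η = η →
        gd W (cor2 K (ι η) E) = ∑ k, gd WA (cor2 K η (ε (i k))) * tq (r k) := by
  obtain ⟨n, i, r, x, f1, f2, f3, f4, f5, f6, -⟩ :=
    fam_retract ι hspan hb hB hι (retr_right R hspan hb.gr hB hι hE0 hE)
  exact ⟨n, i, r, x, ⟨f1, f2, f3, f4, f5⟩, fun η hη0 hη => f6 η hη0 hη⟩

/-- The multiplicities of a family. -/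
noncomputable def mult [DecidableEq I] {n : ℕ} (i : Fin n → I) (r : Fin n → ℚ) (b : I) : ZQ :=
  ∑ k, if i k = b then tq (r k) else 0

theorem sum_mult [Fintype I] [DecidableEq I] {n : ℕ} (i : Fin n → I) (r : Fin n → ℚ)
    (f : I → ZQ) : ∑ k, f (i k) * tq (r k) = ∑ b, f b * mult i r b := by
  unfold mult
  simp_rw [Finset.mul_sum]
  rw [Finset.sum_comm]
  refine Finset.sum_congr rfl fun k _ => ?_
  rw [Finset.sum_eq_single (i k)]
  · rw [if_pos rfl]
  · intro b _ hb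
    rw [if_neg (Ne.symm hb), mul_zero]
  · simp

/-- **EP2**: families for all `E m` together with the matrix `u`. -/
theorem ep2 [Fintype I] [DecidableEq I] (R : Rel γ ι ρ θ)
    (hspan : Submodule.span K (Set.range γ) = ⊤)
    (hb : Basic WA J ε) (hB : H175.GrAlg W) (hι : ∀ r, ∀ h ∈ WA r, ι h ∈ W r)
    {M : Type*} (E : M → B) (hE0 : ∀ m, E m ∈ W 0) (hE : ∀ m, E m * E m = E m) :
    ∃ (n : M → ℕ) (i : ∀ m, Fin (n m) → I) (r : ∀ m, Fin (n m) → ℚ)
      (x : ∀ m, Fin (n m) → B),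
      (∀ m, LFam ι W ε (E m) (i m) (r m) (x m)) ∧
      ∀ a m, gd W (cor2 K (ι (ε a)) (E m)) =
        ∑ b, gd WA (cor2 K (ε a) (ε b)) * mult (i m) (r m) b := by
  choose n i r x h1 h2 using fun m => exists_lfam R hspan hb hB hι (hE0 m) (hE m)
  refine ⟨n, i, r, x, h1, fun a m => ?_⟩
  rw [h2 m (ε a) (hb.deg a) (hb.idem a)]
  exact sum_mult (i m) (r m) (fun b => gd WA (cor2 K (ε a) (ε b)))

end ep2

end Vale.P179.H300
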