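import Vale.Agent.P179.H300.W

/-!
# The braid group on four strands: the normal free subgroup of rank two

For `s1, s2, s3` satisfying the braid relations put `P = s2 s1 s3⁻¹ s2⁻¹`, `Q = s3 s1⁻¹`.
-/

namespace P179H300

/-- The braid relations. -/
structure IsB4 {G : Type*} [Group G] (s1 s2 s3 : G) : Prop where
  h12 : s1 * s2 * s1 = s2 * s1 * s2
  h23 : s2 * s3 * s2 = s3 * s2 * s3
  h13 : s1 * s3 = s3 * s1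

/-- First free generator. -/
def bP {G : Type*} [Group G] (s1 s2 s3 : G) : G := s2 * s1 * s3⁻¹ * s2⁻¹
/-- Second free generator. -/
def bQ {G : Type*} [Group G] (s1 s3 : G) : G := s3 * s1⁻¹

namespace IsB4

variable {G : Type*} [Group G] {s1 s2 s3 : G}

theorem inv23 (h : IsB4 s1 s2 s3) : s3⁻¹ * s2⁻¹ * s3 = s2 * s3⁻¹ * s2⁻¹ := by
  calc s3⁻¹ * s2⁻¹ * s3 = s3⁻¹ * s2⁻¹ * (s3 * s2 * s3) * s3⁻¹ * s2⁻¹ := by group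
    _ = s3⁻¹ * s2⁻¹ * (s2 * s3 * s2) * s3⁻¹ * s2⁻¹ := by rw [h.h23]
    _ = s2 * s3⁻¹ * s2⁻¹ := by group

theorem inv12 (h : IsB4 s1 s2 s3) : s2⁻¹ * s1⁻¹ * s2 = s1 * s2⁻¹ * s1⁻¹ := by
  calc s2⁻¹ * s1⁻¹ * s2 = s2⁻¹ * s1⁻¹ * (s2 * s1 * s2) * s2⁻¹ * s1⁻¹ := by group
    _ = s2⁻¹ * s1⁻¹ * (s1 * s2 * s1) * s2⁻¹ * s1⁻¹ := by rw [h.h12]
    _ = s1 * s2⁻¹ * s1⁻¹ := by group

theorem inv13 (h : IsB4 s1 s2 s3) : s1⁻¹ * s3 = s3 * s1⁻¹ := by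
  calc s1⁻¹ * s3 = s1⁻¹ * (s3 * s1) * s1⁻¹ := by group
    _ = s1⁻¹ * (s1 * s3) * s1⁻¹ := by rw [h.h13]
    _ = s3 * s1⁻¹ := by group

theorem inv31 (h : IsB4 s1 s2 s3) : s3⁻¹ * s1 = s1 * s3⁻¹ := by
  calc s3⁻¹ * s1 = s3⁻¹ * (s1 * s3) * s3⁻¹ := by group
    _ = s3⁻¹ * (s3 * s1) * s3⁻¹ := by rw [h.h13]
    _ = s1 * s3⁻¹ := by group

theorem inv33 (h : IsB4 s1 s2 s3) : s1⁻¹ * s3⁻¹ = s3⁻¹ * s1⁻¹ := by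
  have := congrArg (fun x => x⁻¹) h.h13
  simp only [mul_inv_rev] at this
  exact this.symm

/-- `s1 P = P s3`. -/
theorem P3 (h : IsB4 s1 s2 s3) : s1 * bP s1 s2 s3 = bP s1 s2 s3 * s3 := by
  unfold bP
  calc s1 * (s2 * s1 * s3⁻¹ * s2⁻¹) = (s1 * s2 * s1) * s3⁻¹ * s2⁻¹ := by group
    _ = (s2 * s1 * s2) * s3⁻¹ * s2⁻¹ := by rw [h.h12]
    _ = s2 * s1 * (s2 * s3⁻¹ * s2⁻¹) := by group
    _ = s2 * s1 * (s3⁻¹ * s2⁻¹ * s3) := by rw [h.inv23]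
    _ = _ := by group

/-- `s1 P = P Q s1`. -/
theorem s1P (h : IsB4 s1 s2 s3) : s1 * bP s1 s2 s3 = bP s1 s2 s3 * bQ s1 s3 * s1 := by
  rw [h.P3]; unfold bQ; group

theorem s1Q (h : IsB4 s1 s2 s3) : s1 * bQ s1 s3 = bQ s1 s3 * s1 := by
  unfold bQ
  calc s1 * (s3 * s1⁻¹) = (s1 * s3) * s1⁻¹ := by group
    _ = (s3 * s1) * s1⁻¹ := by rw [h.h13]
    _ = _ := by group

/-- `s2 P = P Q P s2`. -/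
theorem s2P (h : IsB4 s1 s2 s3) :
    s2 * bP s1 s2 s3 = bP s1 s2 s3 * bQ s1 s3 * bP s1 s2 s3 * s2 := by
  have h1 : bP s1 s2 s3 * bQ s1 s3 = s1 * bP s1 s2 s3 * s1⁻¹ := by rw [h.s1P]; group
  rw [h1]
  unfold bP
  symm
  calc s1 * (s2 * s1 * s3⁻¹ * s2⁻¹) * s1⁻¹ * (s2 * s1 * s3⁻¹ * s2⁻¹) * s2
      = s1 * s2 * s1 * s3⁻¹ * (s2⁻¹ * s1⁻¹ * s2) * s1 * s3⁻¹ := by group
    _ = s1 * s2 * s1 * s3⁻¹ * (s1 * s2⁻¹ * s1⁻¹) * s1 * s3⁻¹ := by rw [h.inv12]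
    _ = s1 * s2 * s1 * (s3⁻¹ * s1) * s2⁻¹ * s3⁻¹ := by group
    _ = s1 * s2 * s1 * (s1 * s3⁻¹) * s2⁻¹ * s3⁻¹ := by rw [h.inv31]
    _ = (s1 * s2 * s1) * s1 * (s3⁻¹ * s2⁻¹ * s3) * s3⁻¹ * s3⁻¹ := by group
    _ = (s2 * s1 * s2) * s1 * (s2 * s3⁻¹ * s2⁻¹) * s3⁻¹ * s3⁻¹ := by rw [h.inv23, h.h12]
    _ = s2 * (s1 * s2 * s1) * s2 * s3⁻¹ * s2⁻¹ * s3⁻¹ * s3⁻¹ := by group
    _ = s2 * (s2 * s1 * s2) * s2 * s3⁻¹ * s2⁻¹ * s3⁻¹ * s3⁻¹ := by rw [h.h12]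
    _ = s2 * s2 * s1 * (s2 * (s2 * s3⁻¹ * s2⁻¹)) * s3⁻¹ * s3⁻¹ := by group
    _ = s2 * s2 * s1 * (s2 * (s3⁻¹ * s2⁻¹ * s3)) * s3⁻¹ * s3⁻¹ := by rw [h.inv23]
    _ = s2 * s2 * s1 * (s2 * s3⁻¹ * s2⁻¹) * s3⁻¹ := by group
    _ = s2 * s2 * s1 * (s3⁻¹ * s2⁻¹ * s3) * s3⁻¹ := by rw [h.inv23]
    _ = s2 * (s2 * s1 * s3⁻¹ * s2⁻¹) := by group

/-- `s2 Q = P⁻¹ s2`. -/
theorem s2Q (h : IsB4 s1 s2 s3) : s2 * bQ s1 s3 = (bP s1 s2 s3)⁻¹ * s2 := by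
  unfold bP bQ
  rw [← h.inv13]
  calc s2 * (s1⁻¹ * s3) = s2 * (s3 * s1⁻¹) := by rw [h.inv13]
    _ = _ := by group

/-- The half twist on the first three strands, squared, times `s3 s2 s1 s1 s2 s3`, is the
fourth power of `s1 s2 s3`. -/
theorem four (h : IsB4 s1 s2 s3) :
    (s1 * s2 * s3) * (s1 * s2 * s3) * (s1 * s2 * s3) * (s1 * s2 * s3)
      = (s1 * s2 * s1) * (s1 * s2 * s1) * (s3 * s2 * s1 * s1 * s2 * s3) := by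
  calc (s1 * s2 * s3) * (s1 * s2 * s3) * (s1 * s2 * s3) * (s1 * s2 * s3)
      = s1 * s2 * (s3 * s1) * s2 * (s3 * s1) * s2 * s3 * (s1 * s2 * s3) := by group
    _ = s1 * s2 * (s1 * s3) * s2 * (s1 * s3) * s2 * s3 * (s1 * s2 * s3) := by rw [h.h13]
    _ = s1 * s2 * s1 * s3 * s2 * s1 * (s3 * s2 * s3) * (s1 * s2 * s3) := by group
    _ = s1 * s2 * s1 * s3 * s2 * s1 * (s2 * s3 * s2) * (s1 * s2 * s3) := by rw [h.h23]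
    _ = s1 * s2 * s1 * s3 * (s2 * s1 * s2) * s3 * s2 * (s1 * s2 * s3) := by group
    _ = s1 * s2 * s1 * s3 * (s1 * s2 * s1) * s3 * s2 * (s1 * s2 * s3) := by rw [h.h12]
    _ = s1 * s2 * s1 * (s3 * s1) * s2 * (s1 * s3) * s2 * (s1 * s2 * s3) := by group
    _ = s1 * s2 * s1 * (s1 * s3) * s2 * (s3 * s1) * s2 * (s1 * s2 * s3) := by rw [h.h13]
    _ = s1 * s2 * s1 * s1 * (s3 * s2 * s3) * s1 * s2 * (s1 * s2 * s3) := by group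
    _ = s1 * s2 * s1 * s1 * (s2 * s3 * s2) * s1 * s2 * (s1 * s2 * s3) := by rw [h.h23]
    _ = s1 * s2 * s1 * s1 * s2 * s3 * (s2 * s1 * s2) * (s1 * s2 * s3) := by group
    _ = s1 * s2 * s1 * s1 * s2 * s3 * (s1 * s2 * s1) * (s1 * s2 * s3) := by rw [h.h12]
    _ = s1 * s2 * s1 * s1 * s2 * (s3 * s1) * s2 * s1 * (s1 * s2 * s3) := by group
    _ = s1 * s2 * s1 * s1 * s2 * (s1 * s3) * s2 * s1 * (s1 * s2 * s3) := by rw [h.h13]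
    _ = _ := by group

/-- `s2 s1 s1 s2` commutes with `s1`, hence `s3 s2 s1 s1 s2 s3` does. -/
theorem comm1 (h : IsB4 s1 s2 s3) :
    s1 * (s3 * s2 * s1 * s1 * s2 * s3) = (s3 * s2 * s1 * s1 * s2 * s3) * s1 := by
  calc s1 * (s3 * s2 * s1 * s1 * s2 * s3) = (s1 * s3) * s2 * s1 * s1 * s2 * s3 := by group
    _ = (s3 * s1) * s2 * s1 * s1 * s2 * s3 := by rw [h.h13]
    _ = s3 * (s1 * s2 * s1) * s1 * s2 * s3 := by group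
    _ = s3 * (s2 * s1 * s2) * s1 * s2 * s3 := by rw [h.h12]
    _ = s3 * s2 * s1 * (s2 * s1 * s2) * s3 := by group
    _ = s3 * s2 * s1 * (s1 * s2 * s1) * s3 := by rw [h.h12]
    _ = s3 * s2 * s1 * s1 * s2 * (s1 * s3) := by group
    _ = s3 * s2 * s1 * s1 * s2 * (s3 * s1) := by rw [h.h13]
    _ = _ := by group

theorem comm2 (h : IsB4 s1 s2 s3) :
    s2 * (s3 * s2 * s1 * s1 * s2 * s3) = (s3 * s2 * s1 * s1 * s2 * s3) * s2 := by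
  calc s2 * (s3 * s2 * s1 * s1 * s2 * s3) = (s2 * s3 * s2) * s1 * s1 * s2 * s3 := by group
    _ = (s3 * s2 * s3) * s1 * s1 * s2 * s3 := by rw [h.h23]
    _ = s3 * s2 * (s3 * s1) * s1 * s2 * s3 := by group
    _ = s3 * s2 * (s1 * s3) * s1 * s2 * s3 := by rw [h.h13]
    _ = s3 * s2 * s1 * (s3 * s1) * s2 * s3 := by group
    _ = s3 * s2 * s1 * (s1 * s3) * s2 * s3 := by rw [h.h13]
    _ = s3 * s2 * s1 * s1 * (s3 * s2 * s3) := by group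
    _ = s3 * s2 * s1 * s1 * (s2 * s3 * s2) := by rw [h.h23]
    _ = _ := by group

/-- The full twist on the first three strands is the commutator times the full twist. -/
theorem full (h : IsB4 s1 s2 s3) :
    (s1 * s2 * s1) * (s1 * s2 * s1) * ((s1 * s2 * s1) * (s1 * s2 * s1))
      = bP s1 s2 s3 * bQ s1 s3 * (bP s1 s2 s3)⁻¹ * (bQ s1 s3)⁻¹
        * ((s1 * s2 * s3) * (s1 * s2 * s3) * (s1 * s2 * s3) * (s1 * s2 * s3)) := by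
  rw [h.four]
  have h1 : bP s1 s2 s3 * bQ s1 s3 = s1 * bP s1 s2 s3 * s1⁻¹ := by rw [h.s1P]; group
  have h2 : bP s1 s2 s3 * s1⁻¹ * (bP s1 s2 s3)⁻¹
      = s2 * s1 * s1 * s2 * s3⁻¹ * s2⁻¹ * s1⁻¹ * s1⁻¹ * s2⁻¹ := by
    unfold bP
    calc s2 * s1 * s3⁻¹ * s2⁻¹ * s1⁻¹ * (s2 * s1 * s3⁻¹ * s2⁻¹)⁻¹
        = s2 * s1 * s3⁻¹ * (s2⁻¹ * s1⁻¹ * s2) * s3 * s1⁻¹ * s2⁻¹ := by group
      _ = s2 * s1 * s3⁻¹ * (s1 * s2⁻¹ * s1⁻¹) * s3 * s1⁻¹ * s2⁻¹ := by rw [h.inv12]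
      _ = s2 * s1 * (s3⁻¹ * s1) * s2⁻¹ * (s1⁻¹ * s3) * s1⁻¹ * s2⁻¹ := by group
      _ = s2 * s1 * (s1 * s3⁻¹) * s2⁻¹ * (s3 * s1⁻¹) * s1⁻¹ * s2⁻¹ := by rw [h.inv31, h.inv13]
      _ = s2 * s1 * s1 * (s3⁻¹ * s2⁻¹ * s3) * s1⁻¹ * s1⁻¹ * s2⁻¹ := by group
      _ = s2 * s1 * s1 * (s2 * s3⁻¹ * s2⁻¹) * s1⁻¹ * s1⁻¹ * s2⁻¹ := by rw [h.inv23]
      _ = _ := by group
  have h3 : s2 * s1 * s1 * s2 * s3⁻¹ * s2⁻¹ * s1⁻¹ * s1⁻¹ * s2⁻¹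
      = s1⁻¹ * ((s1 * s2 * s1) * (s1 * s2 * s1)) * s1⁻¹ * s3⁻¹ * s2⁻¹ * s1⁻¹ * s1⁻¹ * s2⁻¹ := by
    group
  have h4 : s1⁻¹ * s3⁻¹ * s2⁻¹ * s1⁻¹ * s1⁻¹ * s2⁻¹ * (s1 * s3⁻¹)
      = (s3 * s2 * s1 * s1 * s2 * s3)⁻¹ := by
    have h5 := h.comm1
    calc s1⁻¹ * s3⁻¹ * s2⁻¹ * s1⁻¹ * s1⁻¹ * s2⁻¹ * (s1 * s3⁻¹)
        = s1⁻¹ * s3⁻¹ * s2⁻¹ * s1⁻¹ * s1⁻¹ * s2⁻¹ * (s3⁻¹ * s1) := by rw [h.inv31]
      _ = s1⁻¹ * (s3 * s2 * s1 * s1 * s2 * s3)⁻¹ * s1 := by group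
      _ = s1⁻¹ * (s3 * s2 * s1 * s1 * s2 * s3)⁻¹ * (s1 * (s3 * s2 * s1 * s1 * s2 * s3))
          * (s3 * s2 * s1 * s1 * s2 * s3)⁻¹ := by group
      _ = s1⁻¹ * (s3 * s2 * s1 * s1 * s2 * s3)⁻¹ * ((s3 * s2 * s1 * s1 * s2 * s3) * s1)
          * (s3 * s2 * s1 * s1 * s2 * s3)⁻¹ := by rw [h5]
      _ = _ := by group
  have h6 : bP s1 s2 s3 * bQ s1 s3 * (bP s1 s2 s3)⁻¹ * (bQ s1 s3)⁻¹
      = (s1 * s2 * s1) * (s1 * s2 * s1) * (s3 * s2 * s1 * s1 * s2 * s3)⁻¹ := by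
    rw [h1]
    calc s1 * bP s1 s2 s3 * s1⁻¹ * (bP s1 s2 s3)⁻¹ * (bQ s1 s3)⁻¹
        = s1 * (bP s1 s2 s3 * s1⁻¹ * (bP s1 s2 s3)⁻¹) * (s1 * s3⁻¹) := by unfold bQ; group
      _ = s1 * (s1⁻¹ * ((s1 * s2 * s1) * (s1 * s2 * s1)) * s1⁻¹ * s3⁻¹ * s2⁻¹ * s1⁻¹ * s1⁻¹
            * s2⁻¹) * (s1 * s3⁻¹) := by rw [h2, h3]
      _ = (s1 * s2 * s1) * (s1 * s2 * s1)
            * (s1⁻¹ * s3⁻¹ * s2⁻¹ * s1⁻¹ * s1⁻¹ * s2⁻¹ * (s1 * s3⁻¹)) := by group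
      _ = _ := by rw [h4]
  have c2 : ((s3 * s2 * s1 * s1 * s2 * s3)⁻¹) * ((s1 * s2 * s1) * (s1 * s2 * s1))
      = ((s1 * s2 * s1) * (s1 * s2 * s1)) * (s3 * s2 * s1 * s1 * s2 * s3)⁻¹ := by
    have e1 : Commute s1 (s3 * s2 * s1 * s1 * s2 * s3) := h.comm1
    have e2 : Commute s2 (s3 * s2 * s1 * s1 * s2 * s3) := h.comm2
    have e3 := (e1.mul_left e2).mul_left e1
    exact (e3.mul_left e3).symm.inv_left.eq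
  rw [h6]
  calc (s1 * s2 * s1) * (s1 * s2 * s1) * ((s1 * s2 * s1) * (s1 * s2 * s1))
      = ((s1 * s2 * s1) * (s1 * s2 * s1)) * (((s1 * s2 * s1) * (s1 * s2 * s1))
          * (s3 * s2 * s1 * s1 * s2 * s3)⁻¹) * (s3 * s2 * s1 * s1 * s2 * s3) := by group
    _ = ((s1 * s2 * s1) * (s1 * s2 * s1)) * (((s3 * s2 * s1 * s1 * s2 * s3)⁻¹)
          * ((s1 * s2 * s1) * (s1 * s2 * s1))) * (s3 * s2 * s1 * s1 * s2 * s3) := by rw [c2]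
    _ = _ := by group

end IsB4

end P179H300
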