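import Vale.Agent.P179.H300.Core
import Vale.Agent.P179.H300.Grp

/-!
# The second order relation for cocycles on the braid group on four strands

`relation`: for two cocycles modulo `p` on the braid group on four strands with values in the
functions on a finite weighted set, whose values at the full twist are constants `α`, `β`, and whose
values at the full twist `T` of the first three strands are invariant under `s1, s2`, the sum
`S (Φ₁ Φ₂) - α β S 1` is twelve times the local term `locq` of `s1` modulo `p ^ 2`.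
-/

set_option linter.unusedSectionVars false

namespace P179H300

open Equiv

/-- Reduction modulo `p`. -/
structure Red (R K : Type*) [CommRing R] [CommRing K] where
  /-- the modulus -/
  p : R
  /-- the reduction -/
  π : R →+* K
  surj : Function.Surjective π
  ker : ∀ r, π r = 0 → p ∣ r
  πp : π p = 0

section maps

variable {X R K : Type*} [CommRing R] [CommRing K] (π : R →+* K)

/-- Reduction of elements. -/
def mapW : W X R →* W X K where
  toFun a := ⟨a.perm, fun x => π (a.val x)⟩
  map_one' := by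
    apply W.ext
    · rfl
    · funext x; simp
  map_mul' a b := by
    apply W.ext
    · rfl
    · funext x; simp

/-- Reduction of cocycles. -/
def mapZ (a : Z X R) : Z X K := (fun x => π (a.1 x), fun x => π (a.2 x))

theorem map_ev (P Q : Perm X) (a : Z X R) (w : F2) (x : X) :
    π (ev P Q a w x) = ev P Q (mapZ π a) w x := by
  have h : (mapW π).comp (Phi P Q a) = Phi P Q (mapZ π a) := by
    apply hom_ext
    · simp only [MonoidHom.comp_apply, Phi, sub_P]; rfl
    · simp only [MonoidHom.comp_apply, Phi, sub_Q]; rfl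
  have := DFunLike.congr_fun h w
  have h2 := congrArg (fun a : W X K => a.val x) this
  exact h2

theorem Red.sub_dvd {R K : Type*} [CommRing R] [CommRing K] (ρ : Red R K) {a b : R}
    (h : ρ.π a = ρ.π b) : ∃ s, a = b + ρ.p * s := by
  obtain ⟨s, hs⟩ := ρ.ker (a - b) (by rw [map_sub, h, sub_self])
  exact ⟨s, by rw [← hs]; ring⟩

end maps

/-- Two cocycles on the braid group on four strands with values in functions. -/
structure Coc4 (X K : Type*) [CommRing K] where
  /-- value at the first generator -/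
  a1 : W X K
  /-- value at the second generator -/
  a2 : W X K
  /-- value at the third generator -/
  a3 : W X K
  /-- value at the first generator -/
  b1 : W X K
  /-- value at the second generator -/
  b2 : W X K
  /-- value at the third generator -/
  b3 : W X K
  /-- value of the first cocycle at the full twist -/
  α : K
  /-- value of the second cocycle at the full twist -/
  β : K
  ha : IsB4 a1 a2 a3
  hb : IsB4 b1 b2 b3
  p1 : b1.perm = a1.perm
  p2 : b2.perm = a2.perm
  p3 : b3.perm = a3.perm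
  hα : (a1 * a2 * a3) * (a1 * a2 * a3) * (a1 * a2 * a3) * (a1 * a2 * a3) = ⟨1, fun _ => α⟩
  hβ : (b1 * b2 * b3) * (b1 * b2 * b3) * (b1 * b2 * b3) * (b1 * b2 * b3) = ⟨1, fun _ => β⟩
  ia1 : ∀ x, ((a1 * a2 * a1) * (a1 * a2 * a1) * ((a1 * a2 * a1) * (a1 * a2 * a1))).val (a1.perm x)
    = ((a1 * a2 * a1) * (a1 * a2 * a1) * ((a1 * a2 * a1) * (a1 * a2 * a1))).val x
  ia2 : ∀ x, ((a1 * a2 * a1) * (a1 * a2 * a1) * ((a1 * a2 * a1) * (a1 * a2 * a1))).val (a2.perm x)
    = ((a1 * a2 * a1) * (a1 * a2 * a1) * ((a1 * a2 * a1) * (a1 * a2 * a1))).val x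
  ib1 : ∀ x, ((b1 * b2 * b1) * (b1 * b2 * b1) * ((b1 * b2 * b1) * (b1 * b2 * b1))).val (a1.perm x)
    = ((b1 * b2 * b1) * (b1 * b2 * b1) * ((b1 * b2 * b1) * (b1 * b2 * b1))).val x
  ib2 : ∀ x, ((b1 * b2 * b1) * (b1 * b2 * b1) * ((b1 * b2 * b1) * (b1 * b2 * b1))).val (a2.perm x)
    = ((b1 * b2 * b1) * (b1 * b2 * b1) * ((b1 * b2 * b1) * (b1 * b2 * b1))).val x

/-- The full twist of the first three strands. -/
def tw {G : Type*} [Group G] (s t : G) : G := (s * t * s) * (s * t * s) * ((s * t * s) * (s * t * s))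

/-- The commutator of the free generators. -/
def cm {G : Type*} [Group G] (s1 s2 s3 : G) : G :=
  bP s1 s2 s3 * bQ s1 s3 * (bP s1 s2 s3)⁻¹ * (bQ s1 s3)⁻¹

section one

variable {X K : Type*} [CommRing K] {a1 a2 a3 : W X K} {α : K}

theorem tw_val (ha : IsB4 a1 a2 a3)
    (hα : (a1 * a2 * a3) * (a1 * a2 * a3) * (a1 * a2 * a3) * (a1 * a2 * a3) = ⟨1, fun _ => α⟩)
    (x : X) : (tw a1 a2).val x = (cm a1 a2 a3).val x + α := by
  have := ha.full
  rw [hα] at this
  have h2 := congrArg (fun a : W X K => a.val x) this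
  exact h2

theorem tw_perm (ha : IsB4 a1 a2 a3)
    (hα : (a1 * a2 * a3) * (a1 * a2 * a3) * (a1 * a2 * a3) * (a1 * a2 * a3) = ⟨1, fun _ => α⟩) :
    (tw a1 a2).perm = (cm a1 a2 a3).perm := by
  have := ha.full
  rw [hα] at this
  have h2 := congrArg (fun a : W X K => a.perm) this
  exact h2

theorem tw_comm1 {G : Type*} [Group G] {s t : G} (h : s * t * s = t * s * t) :
    s * tw s t = tw s t * s := by
  have e1 : s * ((s * t * s) * (s * t * s)) = ((s * t * s) * (s * t * s)) * s := by
    calc s * ((s * t * s) * (s * t * s)) = s * ((s * t * s) * (t * s * t)) := by rw [h]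
      _ = s * (s * t * s) * t * s * t := by group
      _ = s * (t * s * t) * t * s * t := by rw [h]
      _ = (s * t * s) * t * (t * s * t) := by group
      _ = (t * s * t) * t * (s * t * s) := by rw [← h]
      _ = t * (s * t) * (t * s * t) * s := by group
      _ = t * (s * t) * (s * t * s) * s := by rw [h]
      _ = (t * s * t) * (s * t * s) * s := by group
      _ = _ := by rw [← h]
  have e2 : Commute s ((s * t * s) * (s * t * s)) := e1
  exact (e2.mul_right e2).eq

theorem tw_symm {G : Type*} [Group G] {s t : G} (h : s * t * s = t * s * t) :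
    tw s t = tw t s := by
  unfold tw; rw [h]

theorem tw_comm2 {G : Type*} [Group G] {s t : G} (h : s * t * s = t * s * t) :
    t * tw s t = tw s t * t := by
  rw [tw_symm h]; exact tw_comm1 h.symm

/-- Values at a braid generator are invariant under the full twist of three strands, if the value
at the latter is invariant. -/
theorem val_inv {a t : W X K} (h : a * t = t * a) (hi : ∀ x, t.val (a.perm x) = t.val x) (x : X) :
    a.val (t.perm x) = a.val x := by
  have h2 := congrArg (fun a : W X K => a.val x) h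
  simp only [mul_val, hi] at h2
  linear_combination h2

variable {R : Type*} [CommRing R] (ρ : Red R K)

/-- The values of the lifted cocycle modulo `p`. -/
theorem map_ev_cm {A : Z X R} {P Q : Perm X} (hP : P = (bP a1 a2 a3).perm)
    (hQ : Q = (bQ a1 a3).perm) (h1 : ∀ x, ρ.π (A.1 x) = (bP a1 a2 a3).val x)
    (h2 : ∀ x, ρ.π (A.2 x) = (bQ a1 a3).val x) (w : F2) (x : X) :
    ρ.π (ev P Q A w x) = (sub (bP a1 a2 a3) (bQ a1 a3) w).val x := by
  rw [map_ev]
  have h3 : mapZ ρ.π A = ((bP a1 a2 a3).val, (bQ a1 a3).val) := by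
    refine Prod.ext ?_ ?_
    · funext x; exact h1 x
    · funext x; exact h2 x
  rw [h3, hP, hQ]
  rfl

theorem sub_cm {G : Type*} [Group G] (s1 s2 s3 : G) :
    sub (bP s1 s2 s3) (bQ s1 s3) gc = cm s1 s2 s3 := by
  simp only [gc, cm, map_mul, map_inv, sub_P, sub_Q]

theorem sub_perm (w : F2) :
    (sub (bP a1 a2 a3) (bQ a1 a3) w).perm
      = rep (bP a1 a2 a3).perm (bQ a1 a3).perm w := by
  have h : permHom.comp (sub (bP a1 a2 a3) (bQ a1 a3))
      = rep (bP a1 a2 a3).perm (bQ a1 a3).perm := by
    apply hom_ext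
    · simp only [MonoidHom.comp_apply, sub_P, rep_P]; rfl
    · simp only [MonoidHom.comp_apply, sub_Q, rep_Q]; rfl
  exact DFunLike.congr_fun h w

/-- Twisted naturality in a group. -/
theorem th_nat {G : Type*} [Group G] {P Q s : G} {th : F2 →* F2}
    (hP : s * P = sub P Q (th gP) * s) (hQ : s * Q = sub P Q (th gQ) * s) (w : F2) :
    s * sub P Q w = sub P Q (th w) * s := by
  have h : (MulAut.conj s).toMonoidHom.comp (sub P Q) = (sub P Q).comp th := by
    apply hom_ext
    · simp only [MonoidHom.comp_apply, sub_P, MulEquiv.coe_toMonoidHom, MulAut.conj_apply, hP]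
      group
    · simp only [MonoidHom.comp_apply, sub_Q, MulEquiv.coe_toMonoidHom, MulAut.conj_apply, hQ]
      group
  have := DFunLike.congr_fun h w
  simp only [MonoidHom.comp_apply, MulEquiv.coe_toMonoidHom, MulAut.conj_apply] at this
  rw [← this]; group

theorem nat1 {G : Type*} [Group G] {s1 s2 s3 : G} (h : IsB4 s1 s2 s3) (w : F2) :
    s1 * sub (bP s1 s2 s3) (bQ s1 s3) w = sub (bP s1 s2 s3) (bQ s1 s3) (th1 w) * s1 := by
  refine th_nat ?_ ?_ w
  · simp only [th1_P, map_mul, sub_P, sub_Q]; exact h.s1P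
  · simp only [th1_Q, sub_Q]; exact h.s1Q

theorem nat2 {G : Type*} [Group G] {s1 s2 s3 : G} (h : IsB4 s1 s2 s3) (w : F2) :
    s2 * sub (bP s1 s2 s3) (bQ s1 s3) w = sub (bP s1 s2 s3) (bQ s1 s3) (th2 w) * s2 := by
  refine th_nat ?_ ?_ w
  · simp only [th2_P, map_mul, sub_P, sub_Q]; exact h.s2P
  · simp only [th2_Q, map_inv, sub_P]; exact h.s2Q

/-- The first order transformation rule. -/
theorem lift_rule {A : Z X R} {P Q : Perm X} (hP : P = (bP a1 a2 a3).perm)
    (hQ : Q = (bQ a1 a3).perm) (h1 : ∀ x, ρ.π (A.1 x) = (bP a1 a2 a3).val x)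
    (h2 : ∀ x, ρ.π (A.2 x) = (bQ a1 a3).val x) {th : F2 →* F2} {s : W X K}
    (hs : ∀ w, s * sub (bP a1 a2 a3) (bQ a1 a3) w = sub (bP a1 a2 a3) (bQ a1 a3) (th w) * s)
    {h : X → R} (hh : ∀ x, ρ.π (h x) = s.val x) :
    ∃ k : Z X R, LL P Q th s.perm A = A + dd P Q h + ρ.p • k := by
  have key : ∀ (w : F2) (x : X), ρ.π (ev P Q A (th w) (s.perm x))
      = ρ.π (ev P Q A w x + (h (rep P Q w x) - h x)) := by
    intro w x
    rw [map_ev_cm ρ hP hQ h1 h2, map_add, map_ev_cm ρ hP hQ h1 h2, map_sub, hh, hh]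
    have h3 := congrArg (fun a : W X K => a.val x) (hs w)
    simp only [mul_val] at h3
    rw [sub_perm, ← hP, ← hQ] at h3
    linear_combination -h3
  choose k1 hk1 using fun x => ρ.sub_dvd (key gP x)
  choose k2 hk2 using fun x => ρ.sub_dvd (key gQ x)
  refine ⟨(k1, k2), Prod.ext ?_ ?_⟩
  · funext x
    change ev P Q A (th gP) (s.perm x) = A.1 x + (h (P x) - h x) + ρ.p * k1 x
    rw [hk1, ev_P, rep_P]
  · funext x
    change ev P Q A (th gQ) (s.perm x) = A.2 x + (h (Q x) - h x) + ρ.p * k2 x
    rw [hk2, ev_Q, rep_Q]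

end one

end P179H300
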