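import Vale.Agent.P179.H300.W

/-!
# Cocycles on the free group of rank two and the pairing of the punctured torus
-/

namespace P179H300

open Equiv

variable {X R : Type*} [CommRing R]

/-- Cocycles on `F2` are given by their values on the generators. -/
abbrev Z (X R : Type*) := (X → R) × (X → R)

section basic

variable (P Q : Perm X)

/-- The permutation representation. -/
def rep : F2 →* Perm X := sub P Q

@[simp] theorem rep_P : rep P Q gP = P := sub_P _ _
@[simp] theorem rep_Q : rep P Q gQ = Q := sub_Q _ _

/-- The lifted representation. -/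
def Phi (a : Z X R) : F2 →* W X R := sub ⟨P, a.1⟩ ⟨Q, a.2⟩

theorem Phi_perm (a : Z X R) (w : F2) : (Phi P Q a w).perm = rep P Q w := by
  have : permHom.comp (Phi P Q a) = rep P Q := by
    apply hom_ext
    · simp [Phi, rep]
    · simp [Phi, rep]
  exact DFunLike.congr_fun this w

/-- The value of a cocycle. -/
def ev (a : Z X R) (w : F2) : X → R := (Phi P Q a w).val

@[simp] theorem ev_P (a : Z X R) : ev P Q a gP = a.1 := by simp [ev, Phi]
@[simp] theorem ev_Q (a : Z X R) : ev P Q a gQ = a.2 := by simp [ev, Phi]

theorem ev_mul (a : Z X R) (v w : F2) (x : X) :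
    ev P Q a (v * w) x = ev P Q a v (rep P Q w x) + ev P Q a w x := by
  simp only [ev, map_mul, mul_val, Phi_perm]

theorem ev_one (a : Z X R) (x : X) : ev P Q a 1 x = 0 := by simp [ev]

theorem ev_inv (a : Z X R) (v : F2) (x : X) :
    ev P Q a v⁻¹ x = - ev P Q a v ((rep P Q v)⁻¹ x) := by
  simp only [ev, map_inv, inv_val, Phi_perm]

/-- A function satisfying the cocycle rule is determined by its values on generators. -/
theorem ev_unique {f : F2 → X → R} (hf : ∀ v w x, f (v * w) x = f v (rep P Q w x) + f w x)
    {a : Z X R} (hP : f gP = a.1) (hQ : f gQ = a.2) (w : F2) : f w = ev P Q a w := by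
  have h1 : ∀ x, f 1 x = 0 := by
    intro x
    have := hf 1 1 x
    simp only [mul_one, map_one, Perm.coe_one, id_eq] at this
    exact left_eq_add.1 this
  let ψ : F2 →* W X R :=
    { toFun := fun w => ⟨rep P Q w, f w⟩
      map_one' := by
        apply W.ext
        · simp
        · funext x; simp [h1]
      map_mul' := by
        intro v w
        apply W.ext
        · simp
        · funext x; simp [hf] }
  have : ψ = Phi P Q a := by
    apply hom_ext
    · apply W.ext
      · simp [ψ, Phi]
      · simp [ψ, Phi, hP]
    · apply W.ext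
      · simp [ψ, Phi]
      · simp [ψ, Phi, hQ]
  have h2 := congrArg (fun F : F2 →* W X R => (F w).val) this
  exact h2

theorem ev_add (a b : Z X R) (w : F2) : ev P Q (a + b) w = ev P Q a w + ev P Q b w := by
  symm
  refine ev_unique P Q (f := fun w => ev P Q a w + ev P Q b w) ?_ ?_ ?_ w
  · intro v w x
    simp only [Pi.add_apply, ev_mul]; ring
  · simp
  · simp

theorem ev_smul (r : R) (a : Z X R) (w : F2) : ev P Q (r • a) w = r • ev P Q a w := by
  symm
  refine ev_unique P Q (f := fun w => r • ev P Q a w) ?_ ?_ ?_ w
  · intro v w x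
    simp only [Pi.smul_apply, ev_mul, smul_eq_mul]; ring
  · simp
  · simp

theorem ev_sub (a b : Z X R) (w : F2) : ev P Q (a - b) w = ev P Q a w - ev P Q b w := by
  have := ev_add P Q (a - b) b w
  rw [sub_add_cancel] at this
  rw [this, add_sub_cancel_right]

/-- The coboundary of a function. -/
def dd (m : X → R) : Z X R := (fun x => m (P x) - m x, fun x => m (Q x) - m x)

theorem ev_dd (m : X → R) (w : F2) (x : X) : ev P Q (dd P Q m) w x = m (rep P Q w x) - m x := by
  have := ev_unique P Q (f := fun w x => m (rep P Q w x) - m x) (a := dd P Q m) ?_ ?_ ?_ w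
  · exact (congrFun this x).symm
  · intro v w x
    simp
  · funext x; simp [dd]
  · funext x; simp [dd]

theorem dd_add (m n : X → R) : dd P Q (m + n) = dd P Q m + dd P Q n := by
  refine Prod.ext ?_ ?_ <;> funext x <;> simp [dd] <;> ring

theorem dd_smul (r : R) (m : X → R) : dd P Q (r • m) = r • dd P Q m := by
  refine Prod.ext ?_ ?_ <;> funext x <;> simp [dd] <;> ring

/-- The pull back of a cocycle. -/
def LL (th : F2 →* F2) (g : Perm X) (a : Z X R) : Z X R :=
  (fun x => ev P Q a (th gP) (g x), fun x => ev P Q a (th gQ) (g x))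

theorem LL_add (th : F2 →* F2) (g : Perm X) (a b : Z X R) :
    LL P Q th g (a + b) = LL P Q th g a + LL P Q th g b := by
  refine Prod.ext ?_ ?_ <;> funext x <;> simp [LL, ev_add]

theorem LL_smul (th : F2 →* F2) (g : Perm X) (r : R) (a : Z X R) :
    LL P Q th g (r • a) = r • LL P Q th g a := by
  refine Prod.ext ?_ ?_ <;> funext x <;> simp [LL, ev_smul]

theorem LL_sub (th : F2 →* F2) (g : Perm X) (a b : Z X R) :
    LL P Q th g (a - b) = LL P Q th g a - LL P Q th g b := by
  have := LL_add P Q th g (a - b) b
  rw [sub_add_cancel] at this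
  rw [this, add_sub_cancel_right]

/-- Compatibility of an endomorphism with a permutation. -/
def Compat (th : F2 →* F2) (g : Perm X) : Prop := ∀ w, g * rep P Q w = rep P Q (th w) * g

variable {P Q}

theorem Compat.apply {th : F2 →* F2} {g : Perm X} (h : Compat P Q th g) (w : F2) (x : X) :
    rep P Q (th w) (g x) = g (rep P Q w x) := by
  have := congrArg (fun s : Perm X => s x) (h w)
  simpa using this.symm

theorem compat_of {th : F2 →* F2} {g : Perm X} (hP : g * P = rep P Q (th gP) * g)
    (hQ : g * Q = rep P Q (th gQ) * g) : Compat P Q th g := by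
  have h : (MulAut.conj g).toMonoidHom.comp (rep P Q) = (rep P Q).comp th := by
    apply hom_ext
    · simp only [MonoidHom.comp_apply, rep_P, MulEquiv.coe_toMonoidHom, MulAut.conj_apply, hP]
      group
    · simp only [MonoidHom.comp_apply, rep_Q, MulEquiv.coe_toMonoidHom, MulAut.conj_apply, hQ]
      group
  intro w
  have := DFunLike.congr_fun h w
  simp only [MonoidHom.comp_apply, MulEquiv.coe_toMonoidHom, MulAut.conj_apply] at this
  rw [← this]; group

theorem Compat.comp {th th' : F2 →* F2} {g g' : Perm X} (h : Compat P Q th g)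
    (h' : Compat P Q th' g') : Compat P Q (th.comp th') (g * g') := by
  intro w
  rw [mul_assoc, h' w, ← mul_assoc, h (th' w), mul_assoc]
  rfl

theorem ev_LL {th : F2 →* F2} {g : Perm X} (h : Compat P Q th g) (a : Z X R) (w : F2) (x : X) :
    ev P Q (LL P Q th g a) w x = ev P Q a (th w) (g x) := by
  have := ev_unique P Q (f := fun w x => ev P Q a (th w) (g x)) (a := LL P Q th g a) ?_ ?_ ?_ w
  · exact (congrFun this x).symm
  · intro v w x
    simp only [map_mul, ev_mul, h.apply]
  · rfl
  · rfl

theorem LL_comp {th th' : F2 →* F2} {g g' : Perm X} (h : Compat P Q th g) (a : Z X R) :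
    LL P Q th' g' (LL P Q th g a) = LL P Q (th.comp th') (g * g') a := by
  refine Prod.ext ?_ ?_
  · funext x
    change ev P Q (LL P Q th g a) (th' gP) (g' x) = ev P Q a (th (th' gP)) ((g * g') x)
    rw [ev_LL h]; rfl
  · funext x
    change ev P Q (LL P Q th g a) (th' gQ) (g' x) = ev P Q a (th (th' gQ)) ((g * g') x)
    rw [ev_LL h]; rfl

theorem LL_dd {th : F2 →* F2} {g : Perm X} (h : Compat P Q th g) (m : X → R) :
    LL P Q th g (dd P Q m) = dd P Q (fun x => m (g x)) := by
  refine Prod.ext ?_ ?_ <;> funext x
  · change ev P Q (dd P Q m) (th gP) (g x) = m (g (P x)) - m (g x)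
    rw [ev_dd, h.apply, rep_P]
  · change ev P Q (dd P Q m) (th gQ) (g x) = m (g (Q x)) - m (g x)
    rw [ev_dd, h.apply, rep_Q]

end basic

/-! ### the pairing -/

section pairing

variable [Fintype X] (e : X → R) (P Q : Perm X)

/-- Weighted sum. -/
def S (m : X → R) : R := ∑ x, e x * m x

variable {e}

theorem S_comp {g : Perm X} (hg : ∀ x, e (g x) = e x) (m : X → R) :
    S e (fun x => m (g x)) = S e m := by
  unfold S
  rw [← Equiv.sum_comp g (fun x => e x * m x)]
  exact Finset.sum_congr rfl fun x _ => by rw [hg]

theorem S_comp' {g : Perm X} (hg : ∀ x, e (g x) = e x) {m m' : X → R}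
    (h : ∀ x, m x = m' (g x)) : S e m = S e m' := by
  rw [← S_comp hg m']
  exact congrArg (S e) (funext h)

variable (e)

theorem S_add (m n : X → R) : S e (m + n) = S e m + S e n := by
  unfold S
  rw [← Finset.sum_add_distrib]
  exact Finset.sum_congr rfl fun x _ => by simp only [Pi.add_apply]; ring

theorem S_smul (r : R) (m : X → R) : S e (r • m) = r * S e m := by
  unfold S
  rw [Finset.mul_sum]
  exact Finset.sum_congr rfl fun x _ => by simp only [Pi.smul_apply, smul_eq_mul]; ring

theorem S_congr {m m' : X → R} (h : ∀ x, m x = m' x) : S e m = S e m' :=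
  congrArg (S e) (funext h)

/-- The pairing of two cocycles (cup product, integrated over the punctured torus). -/
def om (a b : Z X R) : R :=
  S e (fun x => (a.1 (Q x) + a.2 x - a.2 (P x) - a.1 x) * (b.2 (P x) + b.1 x)
    + a.2 (P x) * b.1 x - a.1 (Q x) * b.2 x)

theorem om_add_left (a a' b : Z X R) : om e P Q (a + a') b = om e P Q a b + om e P Q a' b := by
  unfold om
  rw [← S_add]
  exact S_congr e fun x => by simp only [Prod.fst_add, Prod.snd_add, Pi.add_apply]; ring

theorem om_add_right (a b b' : Z X R) : om e P Q a (b + b') = om e P Q a b + om e P Q a b' := by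
  unfold om
  rw [← S_add]
  exact S_congr e fun x => by simp only [Prod.fst_add, Prod.snd_add, Pi.add_apply]; ring

theorem om_smul_left (r : R) (a b : Z X R) : om e P Q (r • a) b = r * om e P Q a b := by
  unfold om
  rw [← S_smul]
  exact S_congr e fun x => by
    simp only [Prod.smul_fst, Prod.smul_snd, Pi.smul_apply, smul_eq_mul]; ring

theorem om_smul_right (r : R) (a b : Z X R) : om e P Q a (r • b) = r * om e P Q a b := by
  unfold om
  rw [← S_smul]
  exact S_congr e fun x => by
    simp only [Prod.smul_fst, Prod.smul_snd, Pi.smul_apply, smul_eq_mul]; ring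

theorem om_sub_right (a b b' : Z X R) : om e P Q a (b - b') = om e P Q a b - om e P Q a b' := by
  have := om_add_right e P Q a (b - b') b'
  rw [sub_add_cancel] at this
  rw [this, add_sub_cancel_right]

end pairing

end P179H300
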