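import Vale.Agent.P179.H300.El

/-!
# The second order relation

`twelve`: the second order transfer of the full twist is twelve times the one of a braid
generator modulo `p ^ 2`, and its value is `S (Φ₁ Φ₂) - a₁ a₂ S 1`.
-/

set_option linter.unusedSectionVars false

namespace P179H300

open Equiv

variable {X R : Type*} [CommRing R] [Fintype X] {D : Dat X R}

/-- The transfer only depends on the gauge functions modulo `p`. -/
theorem qq_congr {s t : El (X := X) (R := R)}
    (hL : LL D.P D.Q s.th s.g D.B = LL D.P D.Q t.th t.g D.B) (hg : s.g = t.g)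
    {m1 m2 : X → R} (h1 : ∀ x, s.h1 x = t.h1 x + D.p * m1 x)
    (h2 : ∀ x, s.h2 x = t.h2 x + D.p * m2 x) : D.p ^ 2 ∣ qq D s - qq D t := by
  refine ⟨- (S D.e (fun x => m1 x * D.n2 (t.g x)) + S D.e (fun x => D.n1 x * m2 x)), ?_⟩
  have e1 : S D.e (fun x => s.h1 x * D.n2 (s.g x))
      = S D.e (fun x => t.h1 x * D.n2 (t.g x)) + D.p * S D.e (fun x => m1 x * D.n2 (t.g x)) := by
    rw [← S_smul, ← S_add]
    exact S_congr D.e fun x => by
      simp only [Pi.add_apply, Pi.smul_apply, smul_eq_mul]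
      rw [h1, hg]; ring
  have e2 : S D.e (fun x => D.n1 x * s.h2 x)
      = S D.e (fun x => D.n1 x * t.h2 x) + D.p * S D.e (fun x => D.n1 x * m2 x) := by
    rw [← S_smul, ← S_add]
    exact S_congr D.e fun x => by
      simp only [Pi.add_apply, Pi.smul_apply, smul_eq_mul]
      rw [h2]; ring
  unfold qq
  rw [hL, e1, e2]
  ring

theorem dvd_qq_mul {s t : El (X := X) (R := R)} (hs : Good D s) (ht : Good D t) :
    D.p ^ 2 ∣ qq D (s.mul D t) - (qq D s + qq D t) := by
  rw [qq_mul hs ht]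
  exact ⟨- om D.e D.P D.Q t.k1 (LL D.P D.Q t.th t.g s.k2), by ring⟩

/-- The half twist. -/
def hd (D : Dat X R) (s t : El (X := X) (R := R)) : El (X := X) (R := R) :=
  (s.mul D t).mul D s

theorem Good.hd {s t : El (X := X) (R := R)} (hs : Good D s) (ht : Good D t) :
    Good D (hd D s t) := (hs.mul ht).mul hs

theorem dvd_qq_hd {s t : El (X := X) (R := R)} (hs : Good D s) (ht : Good D t) :
    D.p ^ 2 ∣ qq D (hd D s t) - (2 * qq D s + qq D t) := by
  have h1 := dvd_qq_mul (hs.mul ht) hs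
  have h2 := dvd_qq_mul hs ht
  have := dvd_add h1 h2
  convert this using 1
  unfold P179H300.hd
  ring

/-- The data of a braid relation. -/
structure Braid (D : Dat X R) (s t : El (X := X) (R := R)) : Prop where
  hs : Good D s
  ht : Good D t
  ths : s.th = th1
  tht : t.th = th2
  perm : s.g * t.g * s.g = t.g * s.g * t.g
  full : (s.g * t.g * s.g) * (s.g * t.g * s.g) * ((s.g * t.g * s.g) * (s.g * t.g * s.g)) = D.c
  b1 : ∃ m : X → R, ∀ x, (hd D s t).h1 x = (hd D t s).h1 x + D.p * m x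
  b2 : ∃ m : X → R, ∀ x, (hd D s t).h2 x = (hd D t s).h2 x + D.p * m x

variable {s t : El (X := X) (R := R)}

theorem Braid.eq (h : Braid D s t) : D.p ^ 2 ∣ qq D s - qq D t := by
  obtain ⟨m1, hm1⟩ := h.b1
  obtain ⟨m2, hm2⟩ := h.b2
  have hL : LL D.P D.Q (hd D s t).th (hd D s t).g D.B = LL D.P D.Q (hd D t s).th (hd D t s).g D.B := by
    change LL D.P D.Q ((s.th.comp t.th).comp s.th) (s.g * t.g * s.g) D.B
      = LL D.P D.Q ((t.th.comp s.th).comp t.th) (t.g * s.g * t.g) D.B
    rw [h.ths, h.tht, th_braid, h.perm]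
  have h0 := qq_congr hL h.perm hm1 hm2
  have h1 := dvd_qq_hd h.hs h.ht
  have h2 := dvd_qq_hd h.ht h.hs
  have := dvd_add (dvd_sub h0 h1) h2
  convert this using 1
  ring

/-- The full twist. -/
def ft (D : Dat X R) (s t : El (X := X) (R := R)) : El (X := X) (R := R) :=
  ((hd D s t).mul D (hd D s t)).mul D ((hd D s t).mul D (hd D s t))

theorem Braid.twelve (h : Braid D s t) : D.p ^ 2 ∣ qq D (ft D s t) - 12 * qq D s := by
  have hd' := h.hs.hd h.ht
  have h1 := dvd_qq_mul (hd'.mul hd') (hd'.mul hd')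
  have h2 := dvd_qq_mul hd' hd'
  have h3 := dvd_qq_hd h.hs h.ht
  have h4 := h.eq
  have := dvd_add (dvd_add (dvd_add h1 (dvd_mul_of_dvd_right h2 2)) (dvd_mul_of_dvd_right h3 4))
    (dvd_mul_of_dvd_right h4 (-4))
  convert this using 1
  unfold ft
  ring

theorem S_one_mul (e : X → R) (r : R) : S e (fun _ => r) = r * S e (fun _ => 1) := by
  rw [← S_smul]
  exact S_congr e fun x => by simp

theorem S_ev_c (a : Z X R) (D : Dat X R) : S D.e (ev D.P D.Q a gc) = 0 := by
  have h := om_dd_right D.heP D.heQ a (fun _ => (1 : R))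
  have h2 : dd D.P D.Q (fun _ => (1 : R)) = 0 := by
    refine Prod.ext ?_ ?_ <;> funext x <;> simp [dd]
  rw [h2] at h
  have h3 : om D.e D.P D.Q a 0 = 0 := by
    have := om_smul_right D.e D.P D.Q 0 a 0
    rw [zero_mul, smul_zero] at this
    exact this
  rw [h3] at h
  rw [h]
  exact S_congr D.e fun x => by rw [mul_one]

/-- The value of the second order transfer at the full twist. -/
theorem Braid.value (h : Braid D s t) {a1 a2 : R} {m1 m2 : X → R}
    (h1 : ∀ x, (ft D s t).h1 x = D.r1 x + a1 + D.p * m1 x)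
    (h2 : ∀ x, (ft D s t).h2 x = D.r2 x + a2 + D.p * m2 x) :
    D.p ^ 2 ∣ qq D (ft D s t)
      - (S D.e (fun x => (D.r1 x + a1) * (D.r2 x + a2)) - a1 * a2 * S D.e (fun _ => 1)) := by
  have hd' := h.hs.hd h.ht
  have hf : Good D (ft D s t) := (hd'.mul hd').mul (hd'.mul hd')
  have hec : ∀ x, D.e (D.c x) = D.e x := by
    have := hf.he
    intro x
    have h3 : (ft D s t).g = D.c := h.full
    rw [← h3]; exact this x
  have hg : (ft D s t).g = D.c := h.full
  have hth : (hd D s t).th = thd := by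
    change (s.th.comp t.th).comp s.th = thd
    rw [h.ths, h.tht]; rfl
  -- the variation of `B`
  have hvar : LL D.P D.Q (ft D s t).th (ft D s t).g D.B - D.B
      = dd D.P D.Q (ev D.P D.Q D.B gc) := by
    have hP : (ft D s t).th gP = gc * gP * gc⁻¹ := by
      change ((hd D s t).th.comp (hd D s t).th).comp ((hd D s t).th.comp (hd D s t).th) gP = _
      simp only [MonoidHom.comp_apply, hth]
      exact thd4_P
    have hQ : (ft D s t).th gQ = gc * gQ * gc⁻¹ := by
      change ((hd D s t).th.comp (hd D s t).th).comp ((hd D s t).th.comp (hd D s t).th) gQ = _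
      simp only [MonoidHom.comp_apply, hth]
      exact thd4_Q
    have key : ∀ (w : F2) (x : X), ev D.P D.Q D.B (gc * w * gc⁻¹) (D.c x)
        = ev D.P D.Q D.B w x + (ev D.P D.Q D.B gc (rep D.P D.Q w x) - ev D.P D.Q D.B gc x) := by
      intro w x
      rw [ev_mul, ev_mul, ev_inv]
      have e2 : (rep D.P D.Q gc)⁻¹ (D.c x) = x := by
        change (rep D.P D.Q gc)⁻¹ (rep D.P D.Q gc x) = x
        simp
      have e1 : rep D.P D.Q gc⁻¹ (D.c x) = x := by
        rw [map_inv]; exact e2
      rw [e1, e2]; ring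
    refine Prod.ext ?_ ?_
    · funext x
      change ev D.P D.Q D.B ((ft D s t).th gP) ((ft D s t).g x) - D.B.1 x = _
      rw [hP, hg, key, ev_P, rep_P]
      simp only [dd]; ring
    · funext x
      change ev D.P D.Q D.B ((ft D s t).th gQ) ((ft D s t).g x) - D.B.2 x = _
      rw [hQ, hg, key, ev_Q, rep_Q]
      simp only [dd]; ring
  have hom' : om D.e D.P D.Q D.A (LL D.P D.Q (ft D s t).th (ft D s t).g D.B - D.B)
      = S D.e (fun x => (D.r1 x + D.p * D.n1 x) * (D.r2 x + D.p * D.n2 x)) := by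
    rw [hvar, om_dd_right D.heP D.heQ]
    exact S_congr D.e fun x => by rw [D.hA, D.hB]
  have hn2 : S D.e (fun x => (ft D s t).h1 x * D.n2 ((ft D s t).g x))
      = S D.e (fun x => (D.r1 x + a1 + D.p * m1 x) * D.n2 x) := by
    have e1 : (fun x => (ft D s t).h1 x * D.n2 ((ft D s t).g x))
        = fun x => (fun y => (ft D s t).h1 y * D.n2 y) (D.c x) := by
      funext x
      rw [hg]
      change (ft D s t).h1 x * D.n2 (D.c x) = (ft D s t).h1 (D.c x) * D.n2 (D.c x)
      rw [hf.inv1]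
    rw [e1, S_comp hec (fun y => (ft D s t).h1 y * D.n2 y)]
    exact S_congr D.e fun x => by rw [h1]
  have hn1 : S D.e (fun x => D.n1 x * (ft D s t).h2 x)
      = S D.e (fun x => D.n1 x * (D.r2 x + a2 + D.p * m2 x)) :=
    S_congr D.e fun x => by rw [h2]
  have hz1 : S D.e D.r1 + D.p * S D.e D.n1 = 0 := by
    rw [← S_smul, ← S_add, ← S_ev_c D.A D]
    exact S_congr D.e fun x => by
      simp only [Pi.add_apply, Pi.smul_apply, smul_eq_mul]; rw [D.hA]
  have hz2 : S D.e D.r2 + D.p * S D.e D.n2 = 0 := by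
    rw [← S_smul, ← S_add, ← S_ev_c D.B D]
    exact S_congr D.e fun x => by
      simp only [Pi.add_apply, Pi.smul_apply, smul_eq_mul]; rw [D.hB]
  refine ⟨S D.e (fun x => D.n1 x * D.n2 x - m1 x * D.n2 x - D.n1 x * m2 x), ?_⟩
  unfold qq
  rw [hom', hn2, hn1]
  -- expand all sums
  have x1 : S D.e (fun x => (D.r1 x + D.p * D.n1 x) * (D.r2 x + D.p * D.n2 x))
      = S D.e (fun x => D.r1 x * D.r2 x) + D.p * S D.e (fun x => D.r1 x * D.n2 x)
        + D.p * S D.e (fun x => D.n1 x * D.r2 x)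
        + D.p ^ 2 * S D.e (fun x => D.n1 x * D.n2 x) := by
    rw [← S_smul, ← S_smul, ← S_smul, ← S_add, ← S_add, ← S_add]
    exact S_congr D.e fun x => by
      simp only [Pi.add_apply, Pi.smul_apply, smul_eq_mul]; ring
  have x2 : S D.e (fun x => (D.r1 x + a1 + D.p * m1 x) * D.n2 x)
      = S D.e (fun x => D.r1 x * D.n2 x) + a1 * S D.e D.n2
        + D.p * S D.e (fun x => m1 x * D.n2 x) := by
    rw [← S_smul, ← S_smul, ← S_add, ← S_add]
    exact S_congr D.e fun x => by
      simp only [Pi.add_apply, Pi.smul_apply, smul_eq_mul]; ring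
  have x3 : S D.e (fun x => D.n1 x * (D.r2 x + a2 + D.p * m2 x))
      = S D.e (fun x => D.n1 x * D.r2 x) + a2 * S D.e D.n1
        + D.p * S D.e (fun x => D.n1 x * m2 x) := by
    rw [← S_smul, ← S_smul, ← S_add, ← S_add]
    exact S_congr D.e fun x => by
      simp only [Pi.add_apply, Pi.smul_apply, smul_eq_mul]; ring
  have x4 : S D.e (fun x => (D.r1 x + a1) * (D.r2 x + a2))
      = S D.e (fun x => D.r1 x * D.r2 x) + a2 * S D.e D.r1 + a1 * S D.e D.r2
        + (a1 * a2) * S D.e (fun _ => 1) := by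
    rw [← S_smul, ← S_smul, ← S_smul, ← S_add, ← S_add, ← S_add]
    exact S_congr D.e fun x => by
      simp only [Pi.add_apply, Pi.smul_apply, smul_eq_mul]; ring
  have x5 : S D.e (fun x => D.n1 x * D.n2 x - m1 x * D.n2 x - D.n1 x * m2 x)
      = S D.e (fun x => D.n1 x * D.n2 x) + (-1) * S D.e (fun x => m1 x * D.n2 x)
        + (-1) * S D.e (fun x => D.n1 x * m2 x) := by
    rw [← S_smul, ← S_smul, ← S_add, ← S_add]
    exact S_congr D.e fun x => by
      simp only [Pi.add_apply, Pi.smul_apply, smul_eq_mul]; ring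
  rw [x1, x2, x3, x4, x5]
  linear_combination (-a2) * hz1 - a1 * hz2

/-- **The second order relation**: the defect is twelve times the local term `qq D s`. -/
theorem Braid.relation (h : Braid D s t) {a1 a2 : R} {m1 m2 : X → R}
    (h1 : ∀ x, (ft D s t).h1 x = D.r1 x + a1 + D.p * m1 x)
    (h2 : ∀ x, (ft D s t).h2 x = D.r2 x + a2 + D.p * m2 x) :
    D.p ^ 2 ∣ (S D.e (fun x => (D.r1 x + a1) * (D.r2 x + a2)) - a1 * a2 * S D.e (fun _ => 1))
      - 12 * qq D s := by
  have := dvd_sub h.twelve (h.value h1 h2)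
  convert this using 1
  ring

/-- The local term vanishes in the regular case. -/
theorem qq_regular (hs : Good D s) {v : X → R} (hv : ∀ x, v (D.c x) = v x)
    (h1 : ∀ x, s.h1 x = v (s.g x) - v x)
    (h2 : LL D.P D.Q s.th s.g D.B = D.B + dd D.P D.Q s.h2)
    (h3 : S D.e (fun x => D.r1 x * s.h2 x) = 0) (hec : ∀ x, D.e (D.c x) = D.e x) :
    qq D s = 0 := by
  have hvar : LL D.P D.Q s.th s.g D.B - D.B = dd D.P D.Q s.h2 := by rw [h2]; abel
  have hBc : ∀ x, ev D.P D.Q D.B gc (s.g x) = ev D.P D.Q D.B gc x + (s.h2 (D.c x) - s.h2 x) := by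
    intro x
    have h := congrArg (fun a : Z X R => ev D.P D.Q a gc x) h2
    simp only [ev_add, Pi.add_apply, ev_dd] at h
    rw [ev_LL hs.compat, hs.fix] at h
    exact h
  unfold qq
  rw [hvar, om_dd_right D.heP D.heQ]
  have x1 : S D.e (fun x => ev D.P D.Q D.A gc x * s.h2 x)
      = S D.e (fun x => D.r1 x * s.h2 x) + D.p * S D.e (fun x => D.n1 x * s.h2 x) := by
    rw [← S_smul, ← S_add]
    exact S_congr D.e fun x => by
      simp only [Pi.add_apply, Pi.smul_apply, smul_eq_mul]; rw [D.hA]; ring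
  -- `p S (h1 n2.g) = S (h1 (B(c).g - r2))`
  have x2 : D.p * S D.e (fun x => s.h1 x * D.n2 (s.g x))
      = S D.e (fun x => s.h1 x * ev D.P D.Q D.B gc (s.g x)) - S D.e (fun x => s.h1 x * D.r2 x) := by
    have : S D.e (fun x => s.h1 x * ev D.P D.Q D.B gc (s.g x))
        = D.p * S D.e (fun x => s.h1 x * D.n2 (s.g x)) + S D.e (fun x => s.h1 x * D.r2 x) := by
      rw [← S_smul, ← S_add]
      exact S_congr D.e fun x => by
        simp only [Pi.add_apply, Pi.smul_apply, smul_eq_mul]; rw [D.hB, hs.hr2]; ring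
    rw [this]; ring
  have x3 : S D.e (fun x => s.h1 x * D.r2 x) = 0 := by
    have : S D.e (fun x => s.h1 x * D.r2 x)
        = S D.e (fun x => v (s.g x) * D.r2 (s.g x)) + (-1) * S D.e (fun x => v x * D.r2 x) := by
      rw [← S_smul, ← S_add]
      exact S_congr D.e fun x => by
        simp only [Pi.add_apply, Pi.smul_apply, smul_eq_mul]; rw [h1, hs.hr2]; ring
    rw [this, S_comp hs.he (fun x => v x * D.r2 x)]; ring
  have x4 : S D.e (fun x => s.h1 x * ev D.P D.Q D.B gc (s.g x)) = 0 := by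
    have e1 : S D.e (fun x => s.h1 x * ev D.P D.Q D.B gc (s.g x))
        = S D.e (fun x => v (s.g x) * ev D.P D.Q D.B gc (s.g x))
          + (-1) * S D.e (fun x => v x * ev D.P D.Q D.B gc (s.g x)) := by
      rw [← S_smul, ← S_add]
      exact S_congr D.e fun x => by
        simp only [Pi.add_apply, Pi.smul_apply, smul_eq_mul]; rw [h1]; ring
    have e2 : S D.e (fun x => v x * ev D.P D.Q D.B gc (s.g x))
        = S D.e (fun x => v x * ev D.P D.Q D.B gc x)
          + (S D.e (fun x => v (D.c x) * s.h2 (D.c x)) + (-1) * S D.e (fun x => v x * s.h2 x)) := by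
      rw [← S_smul, ← S_add, ← S_add]
      exact S_congr D.e fun x => by
        simp only [Pi.add_apply, Pi.smul_apply, smul_eq_mul]; rw [hBc, hv]; ring
    rw [e1, e2, S_comp hs.he (fun x => v x * ev D.P D.Q D.B gc x),
      S_comp hec (fun x => v x * s.h2 x)]
    ring
  rw [x1, mul_add, x2, x3, x4, h3]
  ring

end P179H300
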