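import Vale.Agent.P179.H580.Tate

/-!
# Module DIM (Lemma L of REL)

`Q` a finite `p`-group, `N` an abelian group of order prime to `p` acting on `Q`, `Z` a module of
`Q ⋊ N` which is free over `Q`: the multiplicity of a character of `N` in `Z` in terms of the
multiplicities of the characters in the fixed points `Z^Q`.
-/

namespace Vale.P179.H300.Dim

open Module

/-- injectivity may be tested on fixed vectors -/
theorem inj_of_fixed {p : ℕ} [Fact p.Prime] {K Q M M' : Type*} [Field K] [CharP K p] [Group Q]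
    [Finite Q] (hQ : IsPGroup p Q) [AddCommGroup M] [Module K M] [AddCommGroup M'] [Module K M']
    (ρ : Q →* Module.End K M) (Φ : M →ₗ[K] M') (h1 : ∀ x m, Φ m = 0 → Φ (ρ x m) = 0)
    (h2 : ∀ m, (∀ x, ρ x m = m) → Φ m = 0 → m = 0) : Function.Injective Φ := by
  rw [← LinearMap.ker_eq_bot]
  by_contra hne
  have hnt : Nontrivial (LinearMap.ker Φ) := (Submodule.nontrivial_iff_ne_bot).2 hne
  let C1 : Representation K Q (LinearMap.ker Φ) :=
    { toFun := fun g => (ρ g).restrict (fun c hc => h1 g c hc)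
      map_one' := by ext c; simp
      map_mul' := fun g h => by
        apply LinearMap.ext
        intro c
        apply Subtype.ext
        show ρ (g * h) (c : M) = ρ g (ρ h (c : M))
        rw [map_mul, Module.End.mul_apply] }
  obtain ⟨c, hc0, hc⟩ := H580.exists_fixed_vector hQ C1
  exact hc0 (Subtype.ext (h2 c (fun g => congrArg Subtype.val (hc g)) c.2))

section Eqv

variable {K N Q : Type*} [Field K] [CommGroup N] [MulAction N Q]

/-- functions `f : Q → W` with `ψ(t) f(x) = χ(t) f(t x)` -/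
def E (Q : Type*) [MulAction N Q] (W : Type*) [AddCommGroup W] [Module K W] (χ ψ : N →* Kˣ) :
    Submodule K (Q → W) where
  carrier := {f | ∀ (t : N) (x : Q), (ψ t : K) • f x = (χ t : K) • f (t • x)}
  add_mem' := fun {f g} hf hg t x => by
    rw [Pi.add_apply, Pi.add_apply, smul_add, smul_add, hf, hg]
  zero_mem' := fun t x => by simp
  smul_mem' := fun c f hf t x => by
    rw [Pi.smul_apply, Pi.smul_apply, smul_comm, hf, smul_comm]

/-- the orbits on whose stabilisers `χ` and `ψ` agree -/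
abbrev Orb (Q : Type*) [MulAction N Q] (χ ψ : N →* Kˣ) : Type _ :=
  {O : MulAction.orbitRel.Quotient N Q //
    ∀ t : N, t • (Quotient.out O : Q) = Quotient.out O → χ t = ψ t}

theorem exists_shift (x : Q) : ∃ t : N,
    t • (Quotient.out (Quotient.mk'' x : MulAction.orbitRel.Quotient N Q) : Q) = x := by
  have h : MulAction.orbitRel N Q
      (Quotient.out (Quotient.mk'' x : MulAction.orbitRel.Quotient N Q)) x :=
    Quotient.exact' (Quotient.out_eq' _)
  rw [MulAction.orbitRel_apply] at h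
  obtain ⟨t, ht⟩ := h
  exact ⟨t⁻¹, by rw [← ht]; exact inv_smul_smul t x⟩

theorem mk_smul (t : N) (x : Q) : (Quotient.mk'' (t • x) : MulAction.orbitRel.Quotient N Q) =
    Quotient.mk'' x :=
  Quotient.sound' ⟨t, rfl⟩

/-- the values at the representatives -/
noncomputable def evO (W : Type*) [AddCommGroup W] [Module K W] (χ ψ : N →* Kˣ) :
    E Q W χ ψ →ₗ[K] (Orb Q χ ψ → W) where
  toFun f O := f.1 (Quotient.out O.1)
  map_add' _ _ := rfl
  map_smul' _ _ := rfl

theorem evO_injective (W : Type*) [AddCommGroup W] [Module K W] (χ ψ : N →* Kˣ) :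
    Function.Injective (evO (Q := Q) W χ ψ) := by
  rw [injective_iff_map_eq_zero]
  intro f hf
  apply Subtype.ext
  funext x
  show f.1 x = 0
  obtain ⟨t, ht⟩ := exists_shift (N := N) x
  have h0 : f.1 (Quotient.out (Quotient.mk'' x : MulAction.orbitRel.Quotient N Q) : Q) = 0 := by
    by_cases h : ∀ t : N, t • (Quotient.out (Quotient.mk'' x :
        MulAction.orbitRel.Quotient N Q) : Q) = Quotient.out (Quotient.mk'' x :
        MulAction.orbitRel.Quotient N Q) → χ t = ψ t
    · exact congrFun hf ⟨_, h⟩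
    · push Not at h
      obtain ⟨s, hs1, hs2⟩ := h
      have h1 := f.2 s (Quotient.out (Quotient.mk'' x : MulAction.orbitRel.Quotient N Q))
      rw [hs1, ← sub_eq_zero, ← sub_smul, smul_eq_zero] at h1
      refine h1.resolve_left fun h2 => hs2 ?_
      rw [sub_eq_zero] at h2
      exact (Units.ext h2).symm
  have h1 := f.2 t (Quotient.out (Quotient.mk'' x : MulAction.orbitRel.Quotient N Q))
  rw [ht, h0, smul_zero, eq_comm, smul_eq_zero] at h1
  exact h1.resolve_left (χ t).ne_zero

theorem evO_surjective (W : Type*) [AddCommGroup W] [Module K W] (χ ψ : N →* Kˣ) :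
    Function.Surjective (evO (Q := Q) W χ ψ) := by
  classical
  intro g
  choose σ hσ using exists_shift (N := N) (Q := Q)
  let g' : MulAction.orbitRel.Quotient N Q → W := fun O =>
    if h : ∀ t : N, t • (Quotient.out O : Q) = Quotient.out O → χ t = ψ t then g ⟨O, h⟩ else 0
  have hst : ∀ (O : MulAction.orbitRel.Quotient N Q) (s t : N), s • (Quotient.out O : Q) =
      t • (Quotient.out O : Q) → (ψ s / χ s : Kˣ) • g' O = (ψ t / χ t : Kˣ) • g' O := by
    intro O s t hst
    by_cases h : ∀ t : N, t • (Quotient.out O : Q) = Quotient.out O → χ t = ψ t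
    · have h1 : χ (t⁻¹ * s) = ψ (t⁻¹ * s) := h _ (by rw [mul_smul, hst, inv_smul_smul])
      rw [map_mul, map_mul, map_inv, map_inv] at h1
      have h2 : ψ s / χ s = ψ t / χ t := by
        rw [div_eq_div_iff_mul_eq_mul]
        calc ψ s * χ t = ψ t * ((ψ t)⁻¹ * ψ s) * χ t := by rw [mul_inv_cancel_left]
          _ = ψ t * ((χ t)⁻¹ * χ s) * χ t := by rw [h1]
          _ = ψ t * χ s := by rw [mul_assoc, mul_comm _ (χ t), mul_inv_cancel_left]
      rw [h2]
    · have : g' O = 0 := dif_neg h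
      rw [this, smul_zero, smul_zero]
  let f : Q → W := fun x => (ψ (σ x) / χ (σ x) : Kˣ) • g' (Quotient.mk'' x)
  have hf : f ∈ E Q W χ ψ := by
    intro t x
    show (ψ t : K) • (ψ (σ x) / χ (σ x) : Kˣ) • g' (Quotient.mk'' x)
      = (χ t : K) • (ψ (σ (t • x)) / χ (σ (t • x)) : Kˣ) • g' (Quotient.mk'' (t • x))
    have h1 := hσ (t • x)
    rw [mk_smul t x] at h1 ⊢
    have h2 : (σ (t • x)) • (Quotient.out (Quotient.mk'' x : MulAction.orbitRel.Quotient N Q) : Q)
        = (t * σ x) • (Quotient.out (Quotient.mk'' x : MulAction.orbitRel.Quotient N Q) : Q) := by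
      rw [h1, mul_smul, hσ x]
    rw [hst _ _ _ h2]
    change (ψ t : Kˣ) • (ψ (σ x) / χ (σ x) : Kˣ) • g' (Quotient.mk'' x)
      = (χ t : Kˣ) • (ψ (t * σ x) / χ (t * σ x) : Kˣ) • g' (Quotient.mk'' x)
    rw [smul_smul, smul_smul]
    congr 1
    rw [map_mul, map_mul, mul_div_mul_comm, ← mul_assoc, mul_div_cancel]
  refine ⟨⟨f, hf⟩, ?_⟩
  funext O
  show f (Quotient.out O.1) = g O
  have h1 : (Quotient.mk'' (Quotient.out O.1 : Q) : MulAction.orbitRel.Quotient N Q) = O.1 :=
    Quotient.out_eq' _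
  show (ψ (σ (Quotient.out O.1)) / χ (σ (Quotient.out O.1)) : Kˣ) •
    g' (Quotient.mk'' (Quotient.out O.1 : Q)) = g O
  have h2 := hσ (Quotient.out O.1 : Q)
  rw [h1] at h2 ⊢
  rw [hst O.1 _ 1 (by rw [h2, one_smul]), map_one, map_one, div_one, one_smul]
  exact dif_pos O.2

theorem finrank_E [Finite Q] (W : Type*) [AddCommGroup W] [Module K W] [FiniteDimensional K W]
    (χ ψ : N →* Kˣ) : finrank K (E Q W χ ψ) = Nat.card (Orb Q χ ψ) * finrank K W := by
  classical
  have : Finite (MulAction.orbitRel.Quotient N Q) := Quotient.finite _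
  have : Fintype (Orb Q χ ψ) := Fintype.ofFinite _
  have h1 : finrank K (E Q W χ ψ) = finrank K (Orb Q χ ψ → W) :=
    (LinearEquiv.ofBijective (evO (Q := Q) W χ ψ)
      ⟨evO_injective W χ ψ, evO_surjective W χ ψ⟩).finrank_eq
  rw [h1, Module.finrank_pi_fintype, Finset.sum_const, Finset.card_univ, smul_eq_mul,
    Nat.card_eq_fintype_card]

end Eqv

section Char

variable {K N Z : Type*} [Field K] [CommGroup N] [Fintype N] [AddCommGroup Z] [Module K Z]
  (n : N →* Module.End K Z)

/-- the projection to the isotypic part -/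
noncomputable def pr (ψ : N →* Kˣ) : Module.End K Z :=
  (Fintype.card N : K)⁻¹ • ∑ t : N, (((ψ t)⁻¹ : Kˣ) : K) • n t

theorem pr_apply (ψ : N →* Kˣ) (v : Z) :
    pr n ψ v = (Fintype.card N : K)⁻¹ • ∑ t : N, (((ψ t)⁻¹ : Kˣ) : K) • n t v := by
  rw [pr, LinearMap.smul_apply, LinearMap.sum_apply]
  rfl

theorem pr_eig (ψ : N →* Kˣ) (s : N) (v : Z) : n s (pr n ψ v) = (ψ s : K) • pr n ψ v := by
  rw [pr_apply, map_smul, map_sum, smul_comm (ψ s : K)]
  congr 1
  rw [Finset.smul_sum]
  refine Fintype.sum_equiv (Equiv.mulLeft s) _ _ fun t => ?_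
  rw [Equiv.coe_mulLeft, map_smul, ← Module.End.mul_apply, ← map_mul, smul_smul, ← Units.val_mul,
    map_mul ψ, mul_inv, mul_inv_cancel_left]

theorem pr_comm (ψ : N →* Kˣ) (s : N) (v : Z) : pr n ψ (n s v) = n s (pr n ψ v) := by
  rw [pr_apply, pr_apply, map_smul, map_sum]
  congr 1
  refine Finset.sum_congr rfl fun t _ => ?_
  rw [map_smul, ← Module.End.mul_apply, ← Module.End.mul_apply, ← map_mul, ← map_mul, mul_comm]

theorem pr_of_eig (hN : (Fintype.card N : K) ≠ 0) (ψ : N →* Kˣ) {v : Z}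
    (hv : ∀ t, n t v = (ψ t : K) • v) : pr n ψ v = v := by
  rw [pr_apply]
  have h1 : ∀ t : N, (((ψ t)⁻¹ : Kˣ) : K) • n t v = v := by
    intro t
    rw [hv, smul_smul, ← Units.val_mul, inv_mul_cancel, Units.val_one, one_smul]
  rw [Finset.sum_congr rfl fun t _ => h1 t, Finset.sum_const, Finset.card_univ,
    ← Nat.cast_smul_eq_nsmul K, smul_smul, inv_mul_cancel₀ hN, one_smul]

theorem pr_of_eig_ne (ψ ψ' : N →* Kˣ) (h : ψ' ≠ ψ) {v : Z}
    (hv : ∀ t, n t v = (ψ' t : K) • v) : pr n ψ v = 0 := by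
  classical
  rw [pr_apply]
  have h1 : ∀ t : N, (((ψ t)⁻¹ : Kˣ) : K) • n t v = ((Units.coeHom K).comp (ψ' / ψ)) t • v := by
    intro t
    rw [hv, smul_smul, ← Units.val_mul, mul_comm]
    congr 2
  rw [Finset.sum_congr rfl fun t _ => h1 t, ← Finset.sum_smul, sum_hom_units, if_neg, Nat.cast_zero,
    zero_smul, smul_zero]
  intro h2
  apply h
  rw [← div_eq_one]
  ext t
  exact congrArg (fun f => f t) h2

theorem sum_pr [IsAlgClosed K] [Fintype (N →* Kˣ)] (hN : (Fintype.card N : K) ≠ 0) (v : Z) :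
    ∑ ψ : N →* Kˣ, pr n ψ v = v := by
  classical
  have hex : NeZero ((Monoid.exponent N : ℕ) : K) := ⟨fun h => hN (by
    obtain ⟨c, hc⟩ := Group.exponent_dvd_card (G := N)
    rw [hc, Nat.cast_mul, h, zero_mul])⟩
  simp only [pr_apply]
  rw [← Finset.smul_sum, Finset.sum_comm]
  have h1 : ∀ t : N, ∑ ψ : N →* Kˣ, (((ψ t)⁻¹ : Kˣ) : K) • n t v
      = if t = 1 then (Fintype.card N : K) • v else 0 := by
    intro t
    let ev : (N →* Kˣ) →* K :=
      { toFun := fun ψ => (((ψ t)⁻¹ : Kˣ) : K)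
        map_one' := by simp
        map_mul' := fun a b => by
          rw [MonoidHom.mul_apply, mul_inv, Units.val_mul] }
    have h2 : ∑ ψ : N →* Kˣ, (((ψ t)⁻¹ : Kˣ) : K) • n t v = (∑ ψ : N →* Kˣ, ev ψ) • n t v := by
      rw [Finset.sum_smul]
      rfl
    rw [h2, sum_hom_units]
    by_cases ht : t = 1
    · subst ht
      have h3 : ev = 1 := by
        ext ψ
        show (((ψ 1)⁻¹ : Kˣ) : K) = 1
        simp
      rw [if_pos h3, if_pos rfl, map_one, Module.End.one_apply, ← Nat.card_eq_fintype_card,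
        CommGroup.card_monoidHom_of_hasEnoughRootsOfUnity, Nat.card_eq_fintype_card]
    · have h3 : ev ≠ 1 := by
        obtain ⟨φ, hφ⟩ := CommGroup.exists_apply_ne_one_of_hasEnoughRootsOfUnity N K ht
        intro h
        apply hφ
        have h4 : (((φ t)⁻¹ : Kˣ) : K) = 1 := congrArg (fun f => f φ) h
        rw [Units.val_eq_one, inv_eq_one] at h4
        exact h4
      rw [if_neg h3, if_neg ht, Nat.cast_zero, zero_smul]
  rw [Finset.sum_congr rfl fun t _ => h1 t, Finset.sum_ite_eq' Finset.univ, if_pos (Finset.mem_univ _),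
    smul_smul, inv_mul_cancel₀ hN, one_smul]

end Char

/-- **module DIM** -/
theorem dim (p : ℕ) [Fact p.Prime] (K : Type) [Field K] [IsAlgClosed K] [CharP K p] (Q : Type)
    [CommGroup Q] [Fintype Q] (N : Type) [CommGroup N] [Finite N] [MulDistribMulAction N Q]
    (hQ : IsPGroup p Q) (hN : ((Nat.card N : ℕ) : K) ≠ 0) (Z : Type) [AddCommGroup Z] [Module K Z]
    [FiniteDimensional K Z] (r : Q →* Module.End K Z) (n : N →* Module.End K Z)
    (hnr : ∀ t x v, n t (r x v) = r (t • x) (n t v))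
    (hfix : ∀ v, (∀ x, r x v = v) → ∃ w, v = ∑ x, r x w) (χ : N →* Kˣ) (U : Submodule K Z)
    (S : (N →* Kˣ) → Submodule K Z) (hU : ∀ v, v ∈ U ↔ ∀ t, n t v = (χ t : K) • v)
    (hS : ∀ ψ v, v ∈ S ψ ↔ (∀ x, r x v = v) ∧ ∀ t, n t v = (ψ t : K) • v) :
    finrank K U = ∑ᶠ ψ : N →* Kˣ, Nat.card {O : MulAction.orbitRel.Quotient N Q //
      ∀ t : N, t • (Quotient.out O : Q) = Quotient.out O → χ t = ψ t} * finrank K (S ψ) := by
  classical
  have : Fintype N := Fintype.ofFinite N
  have hN' : (Fintype.card N : K) ≠ 0 := by rwa [← Nat.card_eq_fintype_card]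
  have : Finite (N →* Kˣ) := inferInstance
  have : Fintype (N →* Kˣ) := Fintype.ofFinite _
  rw [finsum_eq_sum_of_fintype]
  -- the fixed vectors
  let V : Submodule K Z :=
    { carrier := {v | ∀ x, r x v = v}
      add_mem' := fun {a b} ha hb x => by rw [map_add, ha x, hb x]
      zero_mem' := fun x => map_zero _
      smul_mem' := fun c v hv x => by rw [map_smul, hv x] }
  have hV : ∀ v, v ∈ V ↔ ∀ x, r x v = v := fun v => Iff.rfl
  have hnV : ∀ t, ∀ v ∈ V, n t v ∈ V := by
    intro t v hv x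
    have h1 := hnr t (t⁻¹ • x) v
    rw [smul_inv_smul, hv] at h1
    exact h1.symm
  have hpV : ∀ ψ, ∀ v ∈ V, pr n ψ v ∈ V := by
    intro ψ v hv
    rw [pr_apply]
    exact V.smul_mem _ (V.sum_mem fun t _ => V.smul_mem _ (hnV t v hv))
  -- the norm and its section
  let Nm : Z →ₗ[K] Z := ∑ x : Q, r x
  have hNm : ∀ v, Nm v = ∑ x, r x v := fun v => by
    simp only [Nm, LinearMap.sum_apply]
  obtain ⟨g0, hg0⟩ := LinearMap.exists_rightInverse_of_surjective Nm.rangeRestrict
    (LinearMap.range_rangeRestrict Nm)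
  obtain ⟨s0, hs0⟩ := LinearMap.exists_extend g0
  have hs0' : ∀ v ∈ V, Nm (s0 v) = v := by
    intro v hv
    obtain ⟨w, hw⟩ := hfix v hv
    have hmem : v ∈ LinearMap.range Nm := ⟨w, by rw [hNm]; exact hw.symm⟩
    have h1 : s0 v = g0 ⟨v, hmem⟩ := congrArg (fun f => f ⟨v, hmem⟩) hs0
    have h2 := congrArg (fun f => (f ⟨v, hmem⟩ : Z)) hg0
    rw [h1]
    exact h2
  let s : Z →ₗ[K] Z := (Fintype.card N : K)⁻¹ • ∑ t : N, n t ∘ₗ s0 ∘ₗ n t⁻¹
  have hs : ∀ v, s v = (Fintype.card N : K)⁻¹ • ∑ t : N, n t (s0 (n t⁻¹ v)) := fun v => by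
    simp only [s, LinearMap.smul_apply, LinearMap.sum_apply, LinearMap.comp_apply]
  have hNmn : ∀ t v, Nm (n t v) = n t (Nm v) := by
    intro t v
    rw [hNm, hNm, map_sum]
    symm
    refine Fintype.sum_equiv (MulAction.toPerm t) _ _ fun x => ?_
    rw [MulAction.toPerm_apply, hnr]
  have hcan : ∀ t v, n t (n t⁻¹ v) = v := fun t v => by
    rw [← Module.End.mul_apply, ← map_mul, mul_inv_cancel, map_one, Module.End.one_apply]
  have hsV : ∀ v ∈ V, ∑ x, r x (s v) = v := by
    intro v hv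
    rw [← hNm, hs, map_smul, map_sum]
    have h1 : ∀ t : N, Nm (n t (s0 (n t⁻¹ v))) = v := by
      intro t
      rw [hNmn, hs0' _ (hnV _ _ hv), hcan]
    rw [Finset.sum_congr rfl fun t _ => h1 t, Finset.sum_const, Finset.card_univ,
      ← Nat.cast_smul_eq_nsmul K, smul_smul, inv_mul_cancel₀ hN', one_smul]
  have hsn : ∀ t v, n t (s v) = s (n t v) := by
    intro t v
    rw [hs, hs, map_smul, map_sum]
    congr 1
    refine Fintype.sum_equiv (Equiv.mulLeft t) _ _ fun u => ?_
    rw [Equiv.coe_mulLeft, mul_inv_rev, map_mul n u⁻¹ t⁻¹, map_mul n t u, Module.End.mul_apply,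
      Module.End.mul_apply]
    congr 3
    rw [← Module.End.mul_apply (n t⁻¹), ← map_mul, inv_mul_cancel, map_one, Module.End.one_apply]
  -- the isomorphism with functions
  let F : (Q → V) →ₗ[K] Z :=
    { toFun := fun f => ∑ x, r x (s (f x))
      map_add' := fun f g => by
        rw [← Finset.sum_add_distrib]
        refine Finset.sum_congr rfl fun x _ => ?_
        rw [Pi.add_apply, Submodule.coe_add, map_add, map_add]
      map_smul' := fun c f => by
        rw [RingHom.id_apply, Finset.smul_sum]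
        refine Finset.sum_congr rfl fun x _ => ?_
        rw [Pi.smul_apply, Submodule.coe_smul, map_smul, map_smul] }
  have hF : ∀ f, F f = ∑ x, r x (s (f x)) := fun f => rfl
  let T : Q →* Module.End K (Q → V) :=
    { toFun := fun y => LinearMap.funLeft K V (fun x => y⁻¹ * x)
      map_one' := by
        apply LinearMap.ext
        intro f
        funext x
        simp [LinearMap.funLeft_apply]
      map_mul' := fun y z => by
        apply LinearMap.ext
        intro f
        funext x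
        simp [LinearMap.funLeft_apply, mul_assoc] }
  have hT : ∀ y f x, T y f x = f (y⁻¹ * x) := fun y f x => rfl
  have hFinj : Function.Injective F := by
    refine inj_of_fixed hQ T F (fun y f hf => ?_) fun f hf1 hf2 => ?_
    · have h1 : F (T y f) = r y (F f) := by
        rw [hF, hF, map_sum]
        symm
        refine Fintype.sum_equiv (Equiv.mulLeft y) _ _ fun x => ?_
        rw [Equiv.coe_mulLeft, hT, inv_mul_cancel_left, map_mul, Module.End.mul_apply]
      rw [h1, hf, map_zero]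
    · have h1 : ∀ x, f x = f 1 := by
        intro x
        have := congrFun (hf1 x) x
        rw [hT, inv_mul_cancel] at this
        exact this.symm
      rw [hF] at hf2
      simp only [h1] at hf2
      rw [hsV _ (f 1).2] at hf2
      funext x
      rw [h1 x]
      exact Subtype.ext hf2
  obtain ⟨q, hq⟩ := V.exists_isCompl
  let lam : Z →ₗ[K] V := V.projectionOnto q hq
  have hlam : ∀ v (hv : v ∈ V), lam v = ⟨v, hv⟩ := fun v hv =>
    Submodule.projectionOnto_apply_left hq ⟨v, hv⟩
  let G : Z →ₗ[K] (Q → V) := LinearMap.pi fun x => lam ∘ₗ r x⁻¹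
  have hG : ∀ v x, G v x = lam (r x⁻¹ v) := fun v x => rfl
  have hGinj : Function.Injective G := by
    refine inj_of_fixed hQ r G (fun y v hv => ?_) fun v hv1 hv2 => ?_
    · funext x
      have h1 := congrFun hv (y⁻¹ * x)
      rw [hG] at h1 ⊢
      rw [← Module.End.mul_apply, ← map_mul]
      rw [mul_inv_rev, inv_inv] at h1
      exact h1
    · have h1 := congrFun hv2 1
      rw [hG, hv1, hlam v hv1] at h1
      exact congrArg Subtype.val h1
  have hFsurj : Function.Surjective F := by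
    have h1 : finrank K (Q → V) = finrank K Z :=
      le_antisymm (LinearMap.finrank_le_finrank_of_injective hFinj)
        (LinearMap.finrank_le_finrank_of_injective hGinj)
    exact (LinearMap.injective_iff_surjective_of_finrank_eq_finrank h1).1 hFinj
  -- the comparison map
  have hSV : ∀ ψ, ∀ v ∈ S ψ, v ∈ V := fun ψ v hv => ((hS ψ v).1 hv).1
  let I : (∀ ψ : N →* Kˣ, E Q (S ψ) χ ψ) →ₗ[K] (Q → V) :=
    { toFun := fun f x => ∑ ψ, ⟨((f ψ).1 x : Z), hSV ψ _ ((f ψ).1 x).2⟩
      map_add' := fun f g => by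
        funext x
        rw [Pi.add_apply, ← Finset.sum_add_distrib]
        exact Finset.sum_congr rfl fun ψ _ => rfl
      map_smul' := fun c f => by
        funext x
        rw [Pi.smul_apply, Finset.smul_sum]
        exact Finset.sum_congr rfl fun ψ _ => rfl }
  have hI : ∀ f x, ((I f x : V) : Z) = ∑ ψ, ((f ψ).1 x : Z) := by
    intro f x
    simp only [I, LinearMap.coe_mk, AddHom.coe_mk, AddSubmonoidClass.coe_finsetSum]
  have hpr : ∀ f ψ x, pr n ψ (I f x : V) = ((f ψ).1 x : Z) := by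
    intro f ψ x
    rw [hI, map_sum, Finset.sum_eq_single ψ]
    · exact pr_of_eig n hN' ψ ((hS ψ _).1 ((f ψ).1 x).2).2
    · intro ψ' _ hne
      exact pr_of_eig_ne n ψ ψ' hne ((hS ψ' _).1 ((f ψ').1 x).2).2
    · intro h
      exact absurd (Finset.mem_univ ψ) h
  have hIU : ∀ f, F (I f) ∈ U := by
    intro f
    rw [hU]
    intro t
    rw [hF, map_sum, Finset.smul_sum]
    refine Fintype.sum_equiv (MulAction.toPerm t) _ _ fun x => ?_
    rw [MulAction.toPerm_apply, hnr, hsn, ← map_smul, ← map_smul]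
    congr 2
    rw [hI, hI, map_sum, Finset.smul_sum]
    refine Finset.sum_congr rfl fun ψ _ => ?_
    rw [((hS ψ _).1 ((f ψ).1 x).2).2 t]
    exact congrArg Subtype.val ((f ψ).2 t x)
  let A : (∀ ψ : N →* Kˣ, E Q (S ψ) χ ψ) →ₗ[K] U := (F ∘ₗ I).codRestrict U hIU
  have hA : ∀ f, ((A f : U) : Z) = F (I f) := fun f => rfl
  have hAinj : Function.Injective A := by
    intro f g hfg
    have h1 : I f = I g := hFinj (congrArg Subtype.val hfg)
    funext ψ
    apply Subtype.ext
    funext x
    apply Subtype.ext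
    rw [← hpr f, ← hpr g, h1]
  have hAsurj : Function.Surjective A := by
    intro u
    obtain ⟨f, hf⟩ := hFsurj u
    have hft : ∀ t x, n t (f x) = (χ t : K) • (f (t • x) : Z) := by
      intro t x
      let f' : Q → V := fun x => ⟨n t (f (t⁻¹ • x)), hnV t _ (f _).2⟩
      have h1 : F f' = F ((χ t : K) • f) := by
        rw [map_smul, hf, ← (hU u).1 u.2 t, ← hf, hF, hF, map_sum]
        symm
        refine Fintype.sum_equiv (MulAction.toPerm t) _ _ fun x => ?_
        rw [MulAction.toPerm_apply, hnr, hsn]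
        show _ = r (t • x) (s (n t (f (t⁻¹ • t • x))))
        rw [inv_smul_smul]
      have h2 := congrArg Subtype.val (congrFun (hFinj h1) (t • x))
      have h3 : n t (f (t⁻¹ • t • x)) = (χ t : K) • (f (t • x) : Z) := h2
      rwa [inv_smul_smul] at h3
    let g : ∀ ψ : N →* Kˣ, E Q (S ψ) χ ψ := fun ψ =>
      ⟨fun x => ⟨pr n ψ (f x), (hS ψ _).2 ⟨hpV ψ _ (f x).2, fun t => pr_eig n ψ t _⟩⟩, by
        intro t x
        apply Subtype.ext
        show (ψ t : K) • pr n ψ (f x : Z) = (χ t : K) • pr n ψ (f (t • x) : Z)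
        rw [← pr_eig, ← pr_comm, hft, map_smul]⟩
    refine ⟨g, ?_⟩
    apply Subtype.ext
    rw [hA, ← hf]
    congr 1
    funext x
    apply Subtype.ext
    rw [hI]
    exact sum_pr n hN' (f x : Z)
  rw [← (LinearEquiv.ofBijective A ⟨hAinj, hAsurj⟩).finrank_eq, Module.finrank_pi_fintype]
  exact Finset.sum_congr rfl fun ψ _ => finrank_E (S ψ) χ ψ

end Vale.P179.H300.Dim
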