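import Mathlib

/-!
# Components of graded spaces, homogeneous generating families of graded modules

Basic facts on a family `V : Γ → Submodule K X` with `DirectSum.IsInternal V`, on graded modules
over a graded algebra, and the existence of a minimal homogeneous generating family.
-/

namespace Vale.P179.H300

open Module

section Comp

variable {K : Type*} [Field K] {Γ : Type*} [DecidableEq Γ] {X : Type*} [AddCommGroup X]
  [Module K X]

theorem bij {V : Γ → Submodule K X} (hV : DirectSum.IsInternal V) :
    Function.Bijective (DirectSum.coeLinearMap V) := hV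

/-- The linear equivalence of an internal direct sum. -/
noncomputable def eqv {V : Γ → Submodule K X} (hV : DirectSum.IsInternal V) :
    (DirectSum Γ fun s => V s) ≃ₗ[K] X :=
  LinearEquiv.ofBijective (DirectSum.coeLinearMap V) (bij hV)

theorem eqv_lof {V : Γ → Submodule K X} (hV : DirectSum.IsInternal V) (s : Γ) (x : V s) :
    eqv hV (DirectSum.lof K Γ (fun s => V s) s x) = x := by
  simp [eqv]

/-- The component of degree `s`. -/
noncomputable def comp {V : Γ → Submodule K X} (hV : DirectSum.IsInternal V) (s : Γ) :
    X →ₗ[K] X :=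
  (V s).subtype ∘ₗ (DirectSum.component K Γ (fun s => V s) s) ∘ₗ (eqv hV).symm.toLinearMap

variable {V : Γ → Submodule K X} (hV : DirectSum.IsInternal V)

include hV in
theorem comp_mem (s : Γ) (x : X) : comp hV s x ∈ V s := by
  simp [comp]

theorem comp_of_mem {s : Γ} {x : X} (hx : x ∈ V s) : comp hV s x = x := by
  have h : (eqv hV).symm x = DirectSum.lof K Γ (fun s => V s) s ⟨x, hx⟩ := by
    rw [LinearEquiv.symm_apply_eq, eqv_lof]
  simp [comp, h]

theorem comp_of_mem_ne {s t : Γ} {x : X} (hx : x ∈ V t) (hst : t ≠ s) : comp hV s x = 0 := by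
  have h : (eqv hV).symm x = DirectSum.lof K Γ (fun s => V s) t ⟨x, hx⟩ := by
    rw [LinearEquiv.symm_apply_eq, eqv_lof]
  simp only [comp, LinearMap.coe_comp, Function.comp_apply, LinearEquiv.coe_coe, h]
  rw [DirectSum.component.of]
  simp [hst]

include hV in
theorem iSup_top : ⨆ s, V s = ⊤ := hV.submodule_iSup_eq_top

include hV in
/-- Induction on homogeneous elements. -/
theorem hom_induction {p : X → Prop} (x : X) (hom : ∀ s, ∀ v ∈ V s, p v) (zero : p 0)
    (add : ∀ v w, p v → p w → p (v + w)) : p x := by
  have hx : x ∈ ⨆ s, V s := by rw [iSup_top hV]; trivial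
  exact Submodule.iSup_induction V (motive := p) hx hom zero add

include hV in
theorem comp_ext {x y : X} (h : ∀ s, comp hV s x = comp hV s y) : x = y := by
  rw [← sub_eq_zero]
  set z := x - y with hz
  have hz' : ∀ s, comp hV s z = 0 := fun s => by rw [hz, map_sub, h s, sub_self]
  have h2 : (eqv hV).symm z = 0 := by
    apply DFinsupp.ext
    intro s
    have := hz' s
    simp only [comp, LinearMap.coe_comp, Function.comp_apply, LinearEquiv.coe_coe,
      Submodule.subtype_apply, ZeroMemClass.coe_eq_zero] at this
    exact this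
  simpa using h2

/-- The (finite) support of an element. -/
theorem exists_support (x : X) : ∃ S : Finset Γ, ∀ T, S ⊆ T → ∑ s ∈ T, comp hV s x = x := by
  classical
  refine hom_induction hV (p := fun x => ∃ S : Finset Γ, ∀ T, S ⊆ T →
    ∑ s ∈ T, comp hV s x = x) x ?_ ⟨∅, fun T _ => by simp⟩ ?_
  · intro s v hv
    refine ⟨{s}, fun T hT => ?_⟩
    rw [Finset.sum_eq_single s]
    · exact comp_of_mem hV hv
    · intro t _ hts
      exact comp_of_mem_ne hV hv (Ne.symm hts)
    · intro h
      exact absurd (hT (Finset.mem_singleton_self s)) h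
  · rintro v w ⟨S, hS⟩ ⟨S', hS'⟩
    refine ⟨S ∪ S', fun T hT => ?_⟩
    simp only [map_add, Finset.sum_add_distrib]
    rw [hS T (Finset.union_subset_left hT), hS' T (Finset.union_subset_right hT)]

end Comp

section Graded

variable {K : Type*} [Field K] {Γ : Type*} [AddCommGroup Γ] [DecidableEq Γ]
  {R : Type*} [Ring R] [Algebra K R]
  {X : Type*} [AddCommGroup X] [Module K X] [Module R X] [IsScalarTower K R X]
  {A : Γ → Submodule K R} {V : Γ → Submodule K X}

/-- Component of a product with a homogeneous module element. -/
theorem comp_smul_hom (hA : DirectSum.IsInternal A) (hV : DirectSum.IsInternal V)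
    (hAV : ∀ r s, ∀ a ∈ A r, ∀ v ∈ V s, a • v ∈ V (r + s))
    (s t : Γ) (a : R) {v : X} (hv : v ∈ V t) :
    comp hV s (a • v) = comp hA (s - t) a • v := by
  refine hom_induction hA (p := fun a => comp hV s (a • v) = comp hA (s - t) a • v) a ?_
    (by simp) ?_
  · intro r b hb
    by_cases h : r = s - t
    · subst h
      rw [comp_of_mem hA hb]
      have := hAV _ _ b hb v hv
      rw [sub_add_cancel] at this
      exact comp_of_mem hV this
    · rw [comp_of_mem_ne hA hb h, zero_smul]
      refine comp_of_mem_ne hV (hAV _ _ b hb v hv) ?_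
      intro h'
      exact h (by rw [← h', add_sub_cancel_right])
  · intro b c hb hc
    simp only [add_smul, map_add, hb, hc]

/-- Component of a product with a homogeneous algebra element. -/
theorem comp_hom_smul (hV : DirectSum.IsInternal V)
    (hAV : ∀ r s, ∀ a ∈ A r, ∀ v ∈ V s, a • v ∈ V (r + s))
    (s r : Γ) {a : R} (ha : a ∈ A r) (v : X) :
    comp hV s (a • v) = a • comp hV (s - r) v := by
  refine hom_induction hV (p := fun v => comp hV s (a • v) = a • comp hV (s - r) v) v ?_
    (by simp) ?_
  · intro t w hw
    by_cases h : t = s - r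
    · subst h
      rw [comp_of_mem hV hw]
      have := hAV _ _ a ha w hw
      rw [add_sub_cancel] at this
      exact comp_of_mem hV this
    · rw [comp_of_mem_ne hV hw h, smul_zero]
      refine comp_of_mem_ne hV (hAV _ _ a ha w hw) ?_
      intro h'
      exact h (by rw [← h', add_sub_cancel_left])
  · intro b c hb hc
    simp only [smul_add, map_add, hb, hc]

end Graded

end Vale.P179.H300
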