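import Vale.Agent.P179.H300.EP1

/-!
# Homogeneous bases of graded projective modules

`R` is a graded algebra with a nilpotent two-sided ideal `J` and idempotents `e i` of degree `0`
such that `e i R e j` lies in `J` for different `i`, `j`, `e i R e i` in `K (e i) + J`, and
`R = R e R + J`. A graded projective module is a direct sum of shifts of the modules `R (e i)`.
-/

namespace Vale.P179.H300

open Module

/-- A graded algebra with a nilpotent ideal and idempotents of degree zero. -/
structure GrAlg {K : Type*} [Field K] {Γ : Type*} [AddCommGroup Γ] [DecidableEq Γ]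
    {R : Type*} [Ring R] [Algebra K R] {ι : Type*}
    (A : Γ → Submodule K R) (J : Ideal R) (e : ι → R) : Prop where
  int : DirectSum.IsInternal A
  one : (1 : R) ∈ A 0
  mul : ∀ r s, ∀ a ∈ A r, ∀ b ∈ A s, a * b ∈ A (r + s)
  two : J.IsTwoSided
  nil : ∃ n : ℕ, J ^ n = ⊥
  deg : ∀ i, e i ∈ A 0
  idem : ∀ i, e i * e i = e i
  orth : ∀ i j a, i ≠ j → e i * a * e j ∈ J
  diag : ∀ i a, ∃ c : K, e i * a * e i - c • e i ∈ J
  full : (1 : R) ∈ Ideal.span (Set.range fun p : ι × R => e p.1 * p.2) ⊔ J

section Nak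

variable {R : Type*} [Ring R] {J : Ideal R} {X : Type*} [AddCommGroup X] [Module R X]

theorem nak_sup (hJ : ∃ n : ℕ, J ^ n = ⊥) {N : Submodule R X}
    (h : N ⊔ J • (⊤ : Submodule R X) = ⊤) : N = ⊤ := by
  obtain ⟨n, hn⟩ := hJ
  have key : ∀ m : ℕ, N ⊔ (J ^ m) • (⊤ : Submodule R X) = ⊤ := by
    intro m
    induction m with
    | zero => rw [Submodule.pow_zero, Ideal.one_eq_top, Submodule.top_smul]; simp
    | succ m ih =>
      have h1 : (J ^ m) • (N ⊔ J • (⊤ : Submodule R X))
          ≤ N ⊔ (J ^ (m + 1)) • (⊤ : Submodule R X) := by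
        rw [Submodule.smul_sup]
        refine sup_le (le_trans Submodule.smul_le_right le_sup_left) ?_
        rw [Submodule.pow_succ, Submodule.mul_smul]
        exact le_sup_right
      rw [h] at h1
      refine top_le_iff.mp ?_
      calc (⊤ : Submodule R X) = N ⊔ (J ^ m) • (⊤ : Submodule R X) := ih.symm
        _ ≤ _ := sup_le le_sup_left h1
  have := key n
  rwa [hn, Submodule.bot_smul, sup_bot_eq] at this

theorem nak_bot (hJ : ∃ n : ℕ, J ^ n = ⊥) {N : Submodule R X}
    (h : N ≤ J • N) : N = ⊥ := by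
  obtain ⟨n, hn⟩ := hJ
  have key : ∀ m : ℕ, N ≤ (J ^ m) • N := by
    intro m
    induction m with
    | zero => rw [Submodule.pow_zero, Ideal.one_eq_top, Submodule.top_smul]
    | succ m ih =>
      refine le_trans ih ?_
      rw [Submodule.pow_succ, Submodule.mul_smul]
      exact Submodule.smul_mono le_rfl h
  have := key n
  rwa [hn, Submodule.bot_smul, le_bot_iff] at this

end Nak

section Basis

variable {K : Type*} [Field K] {Γ : Type*} [AddCommGroup Γ] [DecidableEq Γ]
  {R : Type*} [Ring R] [Algebra K R] {ι : Type*}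
  {A : Γ → Submodule K R} {J : Ideal R} {e : ι → R}
  {X : Type*} [AddCommGroup X] [Module K X] [Module R X] [IsScalarTower K R X]
  {V : Γ → Submodule K X}

/-- Homogeneous elements of type `R (e i)`. -/
def gen (e : ι → R) (V : Γ → Submodule K X) : Set X :=
  {x | ∃ i s, x ∈ V s ∧ e i • x = x}

omit [IsScalarTower K R X] in
theorem full_smul_mem (h : GrAlg A J e) (hV : DirectSum.IsInternal V)
    (hAV : ∀ r s, ∀ a ∈ A r, ∀ v ∈ V s, a • v ∈ V (r + s)) (x : X) {a : R}
    (ha : a ∈ Ideal.span (Set.range fun p : ι × R => e p.1 * p.2)) :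
    a • x ∈ Submodule.span R (gen e V) := by
  induction ha using Submodule.span_induction with
  | mem y hy =>
    obtain ⟨⟨i, c⟩, rfl⟩ := hy
    simp only
    rw [mul_smul]
    refine hom_induction hV (p := fun y => e i • y ∈ Submodule.span R (gen e V)) (c • x)
      ?_ (by simp) ?_
    · intro s v hv
      refine Submodule.subset_span ⟨i, s, ?_, ?_⟩
      · have := hAV _ _ _ (h.deg i) v hv
        rwa [zero_add] at this
      · rw [← mul_smul, h.idem]
    · intro v w hv hw
      rw [smul_add]
      exact add_mem hv hw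
  | zero => simp
  | add y z _ _ hy hz => rw [add_smul]; exact add_mem hy hz
  | smul c y _ hy => rw [smul_assoc]; exact Submodule.smul_mem _ _ hy

omit [IsScalarTower K R X] in
theorem span_gen (h : GrAlg A J e) (hV : DirectSum.IsInternal V)
    (hAV : ∀ r s, ∀ a ∈ A r, ∀ v ∈ V s, a • v ∈ V (r + s)) :
    Submodule.span R (gen e V) = ⊤ := by
  refine nak_sup h.nil (top_le_iff.mp ?_)
  intro x _
  have h1 : (1 : R) • x ∈ Submodule.span R (gen e V) ⊔ J • (⊤ : Submodule R X) := by
    obtain ⟨a, ha, b, hb, hab⟩ := Submodule.mem_sup.mp h.full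
    rw [← hab, add_smul]
    exact add_mem (Submodule.mem_sup_left (full_smul_mem h hV hAV x ha))
      (Submodule.mem_sup_right (Submodule.smul_mem_smul hb trivial))
  rwa [one_smul] at h1

omit [IsScalarTower K R X] in
/-- A minimal homogeneous generating set. -/
theorem exists_min (h : GrAlg A J e) (hV : DirectSum.IsInternal V)
    (hAV : ∀ r s, ∀ a ∈ A r, ∀ v ∈ V s, a • v ∈ V (r + s)) [Module.Finite R X] :
    ∃ t : Finset X, (↑t ⊆ gen e V) ∧ Submodule.span R (t : Set X) = ⊤ ∧
      ∀ x ∈ t, Submodule.span R ((t : Set X) \ {x}) ≠ ⊤ := by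
  classical
  have hfin : ∃ n : ℕ, ∃ t : Finset X, t.card = n ∧ (↑t ⊆ gen e V) ∧
      Submodule.span R (t : Set X) = ⊤ := by
    obtain ⟨t, ht, hts⟩ := Submodule.fg_span_iff_fg_span_finset_subset (gen e V) |>.mp
      (by rw [span_gen h hV hAV]; exact Module.Finite.fg_top)
    exact ⟨_, t, rfl, ht, by rw [← hts, span_gen h hV hAV]⟩
  obtain ⟨t, ht1, ht2, ht3⟩ := Nat.find_spec hfin
  refine ⟨t, ht2, ht3, fun x hx hx' => ?_⟩
  refine Nat.find_min hfin (m := (t.erase x).card) ?_ ⟨t.erase x, rfl, ?_, ?_⟩
  · rw [← ht1]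
    exact Finset.card_erase_lt_of_mem hx
  · refine subset_trans ?_ ht2
    exact_mod_cast Finset.erase_subset _ _
  · rw [Finset.coe_erase]
    exact hx'

omit [IsScalarTower K R X] in
/-- In a minimal family the coefficients of an element of `J X` lie in `J`. -/
theorem coef_mem (h : GrAlg A J e) [IsScalarTower K R X] {t : Finset X}
    (ht : Submodule.span R (t : Set X) = ⊤)
    (hmin : ∀ x ∈ t, Submodule.span R ((t : Set X) \ {x}) ≠ ⊤)
    (i : t → ι) (hi : ∀ k, e (i k) • (k : X) = k)
    (c : t → R) (hc : ∀ k, c k * e (i k) = c k)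
    (hJ : ∑ k, c k • (k : X) ∈ J • (⊤ : Submodule R X)) (k : t) : c k ∈ J := by
  classical
  have := h.two
  by_contra hk
  -- step 1
  obtain ⟨j, a, hja⟩ : ∃ j a, e j * a * c k ∉ J := by
    by_contra hcon
    push Not at hcon
    apply hk
    have h2 : ∀ a ∈ Ideal.span (Set.range fun p : ι × R => e p.1 * p.2), a * c k ∈ J := by
      intro a ha
      induction ha using Submodule.span_induction with
      | mem y hy =>
        obtain ⟨⟨i', b⟩, rfl⟩ := hy
        exact hcon i' b
      | zero => simp
      | add y z _ _ hy hz => rw [add_mul]; exact add_mem hy hz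
      | smul b y _ hy => rw [smul_eq_mul, mul_assoc]; exact J.mul_mem_left _ hy
    obtain ⟨a, ha, b, hb, hab⟩ := Submodule.mem_sup.mp h.full
    rw [← one_mul (c k), ← hab, add_mul]
    exact add_mem (h2 a ha) (J.mul_mem_right _ hb)
  have hjk : j = i k := by
    by_contra hne
    apply hja
    rw [← hc k, ← mul_assoc, mul_assoc (e j) a (c k)]
    exact h.orth _ _ _ hne
  subst hjk
  obtain ⟨q, hq⟩ := h.diag (i k) (a * c k)
  have hq' : e (i k) * a * c k - q • e (i k) ∈ J := by
    have : e (i k) * (a * c k) * e (i k) = e (i k) * a * c k := by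
      rw [← mul_assoc, mul_assoc _ (c k), hc k]
    rwa [this] at hq
  have hq0 : q ≠ 0 := by
    rintro rfl
    rw [zero_smul, sub_zero] at hq'
    exact hja hq'
  -- step 2
  have h3 : (e (i k) * a) • ∑ l, c l • (l : X) ∈ J • (⊤ : Submodule R X) :=
    Submodule.smul_mem _ _ hJ
  rw [Finset.smul_sum, ← Finset.add_sum_erase _ _ (Finset.mem_univ k)] at h3
  have h4 : ∑ l ∈ Finset.univ.erase k, (e (i k) * a) • c l • (l : X)
      ∈ Submodule.span R ((t : Set X) \ {(k : X)}) := by
    refine Submodule.sum_mem _ fun l hl => ?_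
    refine Submodule.smul_mem _ _ (Submodule.smul_mem _ _ (Submodule.subset_span ⟨l.2, ?_⟩))
    intro hlk
    exact (Finset.ne_of_mem_erase hl) (Subtype.ext hlk)
  have h5 : (e (i k) * a) • c k • (k : X) ∈
      Submodule.span R ((t : Set X) \ {(k : X)}) ⊔ J • (⊤ : Submodule R X) := by
    have : (e (i k) * a) • c k • (k : X) =
        -(∑ l ∈ Finset.univ.erase k, (e (i k) * a) • c l • (l : X)) +
        ((e (i k) * a) • c k • (k : X) +
          ∑ l ∈ Finset.univ.erase k, (e (i k) * a) • c l • (l : X)) := by abel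
    rw [this]
    exact add_mem (Submodule.mem_sup_left (neg_mem h4)) (Submodule.mem_sup_right h3)
  have h6 : q • (k : X) ∈
      Submodule.span R ((t : Set X) \ {(k : X)}) ⊔ J • (⊤ : Submodule R X) := by
    have : q • (k : X) = (e (i k) * a) • c k • (k : X)
        - (e (i k) * a * c k - q • e (i k)) • (k : X) := by
      rw [sub_smul, smul_assoc q, hi k, mul_smul _ (c k)]
      abel
    rw [this]
    exact sub_mem h5 (Submodule.mem_sup_right (Submodule.smul_mem_smul hq' trivial))
  have h7 : (k : X) ∈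
      Submodule.span R ((t : Set X) \ {(k : X)}) ⊔ J • (⊤ : Submodule R X) := by
    have h8 := Submodule.smul_mem _ (algebraMap K R q⁻¹) h6
    rwa [algebraMap_smul, smul_smul, inv_mul_cancel₀ hq0, one_smul] at h8
  refine hmin k k.2 (nak_sup h.nil (top_le_iff.mp ?_))
  have h9 : Submodule.span R (t : Set X) ≤
      Submodule.span R ((t : Set X) \ {(k : X)}) ⊔ J • (⊤ : Submodule R X) := by
    rw [Submodule.span_le]
    intro x hx
    by_cases hxk : x = k
    · rw [hxk]; exact h7
    · exact Submodule.mem_sup_left (Submodule.subset_span ⟨hx, hxk⟩)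
  rwa [ht] at h9

/-- **Homogeneous bases of graded projective modules.** -/
theorem exists_basis (h : GrAlg A J e) (hV : DirectSum.IsInternal V)
    (hAV : ∀ r s, ∀ a ∈ A r, ∀ v ∈ V s, a • v ∈ V (r + s)) [Module.Finite R X]
    [Module.Projective R X] :
    ∃ (n : ℕ) (i : Fin n → ι) (r : Fin n → Γ) (x : Fin n → X),
      (∀ k, x k ∈ V (r k)) ∧ (∀ k, e (i k) • x k = x k) ∧
      (∀ y : X, ∃ c : Fin n → R, (∀ k, c k * e (i k) = c k) ∧ ∑ k, c k • x k = y) ∧
      (∀ c : Fin n → R, (∀ k, c k * e (i k) = c k) → ∑ k, c k • x k = 0 → c = 0) := by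
  classical
  have := h.two
  obtain ⟨t, ht1, ht2, ht3⟩ := exists_min h hV hAV
  have hch : ∀ k : t, ∃ i s, (k : X) ∈ V s ∧ e i • (k : X) = k := fun k => ht1 k.2
  choose i r hr hi using hch
  -- the free cover
  let F : Submodule R (t → R) :=
    { carrier := {c | ∀ k, c k * e (i k) = c k}
      add_mem' := fun {a b} ha hb k => by
        rw [Pi.add_apply, add_mul, ha k, hb k]
      zero_mem' := fun k => by simp
      smul_mem' := fun a c hc k => by
        rw [Pi.smul_apply, smul_eq_mul, mul_assoc, hc k] }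
  let Φ : F →ₗ[R] X :=
    { toFun := fun c => ∑ k, (c : t → R) k • (k : X)
      map_add' := fun a b => by
        simp [add_smul, Finset.sum_add_distrib]
      map_smul' := fun a b => by
        simp [mul_smul, Finset.smul_sum] }
  have hΦs : Function.Surjective Φ := by
    intro y
    have hy : y ∈ Submodule.span R (t : Set X) := by rw [ht2]; trivial
    obtain ⟨c, hc⟩ := (Submodule.mem_span_finset (R := R)).mp hy
    refine ⟨⟨fun k => c k * e (i k), fun k => ?_⟩, ?_⟩
    · rw [mul_assoc, h.idem]
    · change ∑ k : t, (c k * e (i k)) • (k : X) = y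
      have h1 : ∀ k : t, (c k * e (i k)) • (k : X) = c k • (k : X) := fun k => by
        rw [mul_smul, hi]
      rw [Finset.sum_congr rfl fun k _ => h1 k, ← hc.2]
      exact Finset.sum_coe_sort t (fun a => c a • a)
  have hJ : ∀ c : F, Φ c ∈ J • (⊤ : Submodule R X) → ∀ k, (c : t → R) k ∈ J :=
    fun c hc k => coef_mem h ht2 ht3 i hi c c.2 hc k
  obtain ⟨s, hs⟩ := Module.projective_lifting_property Φ LinearMap.id hΦs
  have hs' : ∀ x, Φ (s x) = x := fun x => by
    have := LinearMap.congr_fun hs x
    simpa using this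
  have hker : LinearMap.ker Φ = ⊥ := by
    refine nak_bot h.nil ?_
    intro y hy
    have hy0 : Φ y = 0 := hy
    let π : F →ₗ[R] F := LinearMap.id - s ∘ₗ Φ
    have hπ : ∀ c, π c ∈ LinearMap.ker Φ := fun c => by
      rw [LinearMap.mem_ker]
      simp [π, hs']
    have hE : ∀ k : t, (Pi.single k (e (i k)) : t → R) ∈ F := by
      intro k l
      by_cases hkl : l = k
      · subst hkl; simp [h.idem]
      · simp [Pi.single_eq_of_ne hkl]
    have hsum : y = ∑ k, ((y : t → R) k) • (⟨Pi.single k (e (i k)), hE k⟩ : F) := by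
      apply Subtype.ext
      funext l
      simp only [Submodule.coe_sum, Submodule.coe_smul, Finset.sum_apply, Pi.smul_apply,
        smul_eq_mul]
      rw [Finset.sum_eq_single l]
      · rw [Pi.single_eq_same]; exact (y.2 l).symm
      · intro k _ hkl
        rw [Pi.single_eq_of_ne (Ne.symm hkl), mul_zero]
      · simp
    have hyπ : y = π y := by simp [π, hy0]
    rw [hyπ, hsum, map_sum]
    refine Submodule.sum_mem _ fun k _ => ?_
    rw [map_smul]
    exact Submodule.smul_mem_smul (hJ y (by rw [hy0]; exact zero_mem _) k) (hπ _)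
  have hinj : Function.Injective Φ := LinearMap.ker_eq_bot.mp hker
  let eq := t.equivFin
  refine ⟨t.card, fun k => i (eq.symm k), fun k => r (eq.symm k), fun k => (eq.symm k : X),
    fun k => hr _, fun k => hi _, fun y => ?_, fun c hc hc0 => ?_⟩
  · obtain ⟨c, hc⟩ := hΦs y
    refine ⟨fun k => (c : t → R) (eq.symm k), fun k => c.2 _, ?_⟩
    rw [← hc]
    exact Equiv.sum_comp eq.symm (fun k => (c : t → R) k • (k : X))
  · have hc' : (⟨fun k => c (eq k), fun k => by simpa using hc (eq k)⟩ : F) = 0 := by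
      apply hinj
      rw [map_zero]
      change ∑ k : t, c (eq k) • (k : X) = 0
      rw [← hc0, ← Equiv.sum_comp eq]
      exact Finset.sum_congr rfl fun k _ => by simp
    funext k
    have := congrFun (congrArg Subtype.val hc') (eq.symm k)
    simpa using this

end Basis

end Vale.P179.H300
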