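import Vale.Agent.P179.H300.EP2
import Vale.Agent.P179.H815.Num1

/-!
# Homogeneous bases in the letters of `H175`, and the graded dimensions of corners

* `Fam` : homogeneous families `x k` in `e (i k) X` such that `X` is the direct sum of the
  modules `A (e (i k))`;
* `Basic.exists_fam` : graded projective modules have such a family;
* `Fam.gd_cor1` : `gd (ε X) = ∑ k, gd (ε A (e (i k))) * T ^ (r k)`;
* `Fam.gd_top` : the number of elements of type `j` is `gd (e j X) - gd (e j J X)`.
-/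

namespace Vale.P179.H300

open Module Vale.P179.H175 Vale.P179.H904 Vale.P179.H815

section conv

variable {K : Type*} [Field K] {A : Type*} [Ring A] [Algebra K A]
  {W : ℚ → Submodule K A} {J : Submodule K A} {I : Type*} {e : I → A}

/-- `J` as a left ideal. -/
def jid (J : Submodule K A) (hJ : ∀ a : A, ∀ j ∈ J, a * j ∈ J) : Ideal A where
  carrier := J
  add_mem' := fun {_ _} hx hy => J.add_mem hx hy
  zero_mem' := J.zero_mem
  smul_mem' := fun a x hx => hJ a x hx

theorem mem_jid {hJ : ∀ a : A, ∀ j ∈ J, a * j ∈ J} {x : A} : x ∈ jid J hJ ↔ x ∈ J := Iff.rfl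

theorem jid_pow_le (hJ : ∀ a : A, ∀ j ∈ J, a * j ∈ J) (n : ℕ) :
    ∀ x ∈ (jid J hJ) ^ (n + 1), x ∈ J ^ (n + 1) := by
  induction n with
  | zero =>
    intro x hx
    rw [zero_add, Submodule.pow_one] at hx ⊢
    exact hx
  | succ n ih =>
    intro x hx
    rw [Submodule.pow_succ] at hx ⊢
    induction hx using Submodule.mul_induction_on' with
    | mem_mul_mem a ha b hb => exact Submodule.mul_mem_mul (ih a ha) hb
    | add a _ b _ ha hb => exact add_mem ha hb

theorem toGrAlg (h : Basic W J e) : H300.GrAlg W (jid J h.mulL) e where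
  int := h.gr.int
  one := h.gr.one
  mul := fun _ _ _ ha _ hb => h.gr.mul ha hb
  two := ⟨fun b ha => h.mulR b _ ha⟩
  nil := by
    obtain ⟨n, hn⟩ := h.nil
    refine ⟨n + 1, (Submodule.eq_bot_iff _).mpr fun x hx => ?_⟩
    have := jid_pow_le h.mulL n x hx
    rw [Submodule.pow_succ, hn, Submodule.bot_mul, Submodule.mem_bot] at this
    exact this
  deg := h.deg
  idem := h.idem
  orth := fun i j a hij => h.off i j hij a
  diag := h.diag
  full := by
    obtain ⟨y, hy, z, hz, hyz⟩ := Submodule.mem_sup.mp (h.full 1)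
    rw [← hyz]
    refine add_mem (Submodule.mem_sup_right (mem_jid.mpr hy)) (Submodule.mem_sup_left ?_)
    clear hyz
    induction hz using Submodule.span_induction with
    | mem z hz =>
      obtain ⟨i, x, y, rfl⟩ := hz
      rw [mul_assoc]
      exact Ideal.mul_mem_left _ _ (Submodule.subset_span ⟨(i, y), rfl⟩)
    | zero => exact zero_mem _
    | add y z _ _ hy hz => exact add_mem hy hz
    | smul c y _ hy => rw [Algebra.smul_def]; exact Ideal.mul_mem_left _ _ hy

end conv

theorem coeff_sum_apply {κ : Type*} (S : Finset κ) (f : κ → AddMonoidAlgebra ℤ ℚ) (s : ℚ) :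
    (∑ k ∈ S, f k).coeff s = ∑ k ∈ S, (f k).coeff s := by
  classical
  induction S using Finset.induction_on with
  | empty => simp
  | insert a S ha ih => rw [Finset.sum_insert ha, Finset.sum_insert ha, ← ih]; simp

section fam

variable {K : Type*} [Field K] {A : Type*} [Ring A] [Algebra K A]
  {W : ℚ → Submodule K A} {J : Submodule K A} {I : Type*} {e : I → A}
  {X : Type*} [AddCommGroup X] [Module K X] [Module A X] [IsScalarTower K A X]
  {V : ℚ → Submodule K X}

/-- A homogeneous family of type `A (e (i k))`. -/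
structure Fam (e : I → A) (V : ℚ → Submodule K X) {κ : Type*} [Fintype κ]
    (i : κ → I) (r : κ → ℚ) (x : κ → X) : Prop where
  mem : ∀ k, x k ∈ V (r k)
  eig : ∀ k, e (i k) • x k = x k
  span : ∀ y : X, ∃ c : κ → A, (∀ k, c k * e (i k) = c k) ∧ ∑ k, c k • x k = y
  inj : ∀ c : κ → A, (∀ k, c k * e (i k) = c k) → ∑ k, c k • x k = 0 → c = 0

/-- **Graded projective modules have homogeneous bases.** -/
theorem exists_fam (h : Basic W J e) (hV : GrMod W V) [Module.Finite A X]
    [Module.Projective A X] :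
    ∃ (n : ℕ) (i : Fin n → I) (r : Fin n → ℚ) (x : Fin n → X), Fam e V i r x := by
  obtain ⟨n, i, r, x, h1, h2, h3, h4⟩ :=
    exists_basis (toGrAlg h) hV.int (fun _ _ _ ha _ hv => hV.smul ha hv)
  exact ⟨n, i, r, x, ⟨h1, h2, h3, h4⟩⟩

omit [IsScalarTower K A X] in
theorem cpt_smul_of_mem (hW : H175.GrAlg W) (hV : GrMod W V) (s t : ℚ) (a : A) {v : X}
    (hv : v ∈ V t) : cpt V s (a • v) = cpt W (s - t) a • v := by
  refine induction_gr hW.int (P := fun a => cpt V s (a • v) = cpt W (s - t) a • v) ?_ ?_ a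
  · intro r b hb
    rw [cpt_of_mem hW.int hb, cpt_of_mem hV.int (hV.smul hb hv)]
    by_cases h : r = s - t
    · rw [if_pos h, if_pos (by rw [h, sub_add_cancel])]
    · rw [if_neg h, if_neg (fun h' => h (by rw [← h', add_sub_cancel_right])), zero_smul]
  · intro b c hb hc
    simp only [add_smul, map_add, hb, hc]

theorem cpt_mul_of_mem (hW : H175.GrAlg W) (s : ℚ) (a : A) {b : A} (hb : b ∈ W 0) :
    cpt W s (a * b) = cpt W s a * b := by
  have h := cpt_smul_of_mem (X := A) hW ⟨hW.int, fun ha hx => hW.mul ha hx⟩ s 0 a hb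
  rwa [sub_zero, smul_eq_mul, smul_eq_mul] at h

variable {κ : Type*} [Fintype κ] {i : κ → I} {r : κ → ℚ} {x : κ → X}

omit [Algebra K A] [IsScalarTower K A X] in
theorem Fam.uniq (F : Fam e V i r x) {c c' : κ → A} (hc : ∀ k, c k * e (i k) = c k)
    (hc' : ∀ k, c' k * e (i k) = c' k) (h : ∑ k, c k • x k = ∑ k, c' k • x k) : c = c' := by
  rw [← sub_eq_zero]
  refine F.inj _ (fun k => ?_) ?_
  · rw [Pi.sub_apply, sub_mul, hc, hc']
  · simp only [Pi.sub_apply, sub_smul, Finset.sum_sub_distrib, h, sub_self]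

theorem Fam.exists_coef (F : Fam e V i r x) {L : Submodule K A}
    (hLr : ∀ (a : A), ∀ j ∈ L, j * a ∈ L)
    {y : X} (hy : y ∈ spn L (⊤ : Submodule K X)) :
    ∃ c : κ → A, (∀ k, c k * e (i k) = c k) ∧ (∀ k, c k ∈ L) ∧ ∑ k, c k • x k = y := by
  unfold spn at hy
  induction hy using Submodule.span_induction with
  | mem z hz =>
    obtain ⟨j, hj, y, -, rfl⟩ := hz
    obtain ⟨c, hc, hcy⟩ := F.span y
    refine ⟨fun k => j * c k, fun k => by rw [mul_assoc, hc], fun k => hLr _ _ hj, ?_⟩
    rw [← hcy, Finset.smul_sum]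
    exact Finset.sum_congr rfl fun k _ => mul_smul _ _ _
  | zero => exact ⟨fun _ => 0, fun _ => by simp, fun _ => zero_mem _, by simp⟩
  | add y z _ _ hy hz =>
    obtain ⟨c, hc, hcL, hcy⟩ := hy
    obtain ⟨d, hd, hdL, hdz⟩ := hz
    refine ⟨fun k => c k + d k, fun k => by rw [add_mul, hc, hd],
      fun k => add_mem (hcL k) (hdL k), ?_⟩
    simp only [add_smul, Finset.sum_add_distrib, hcy, hdz]
  | smul q y _ hy =>
    obtain ⟨c, hc, hcL, hcy⟩ := hy
    refine ⟨fun k => q • c k, fun k => by rw [smul_mul_assoc, hc],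
      fun k => L.smul_mem _ (hcL k), ?_⟩
    simp only [smul_assoc, ← Finset.smul_sum, hcy]

/-- Dimensions of corners of `L X`, in terms of a homogeneous basis. -/
theorem Fam.finrank_eq (F : Fam e V i r x) [FiniteDimensional K A] (hW : H175.GrAlg W)
    (hV : GrMod W V) (hdeg : ∀ i, e i ∈ W 0) {L : Submodule K A}
    (hLl : ∀ (a : A), ∀ j ∈ L, a * j ∈ L) (hLr : ∀ (a : A), ∀ j ∈ L, j * a ∈ L)
    (hLh : Homog W L) {ε : A} (hε0 : ε ∈ W 0) (hε : ε * ε = ε) (s : ℚ) :
    finrank K ↥((spn L (⊤ : Submodule K X) ⊓ cor1 K X ε) ⊓ V s) =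
      ∑ k, finrank K ↥((L ⊓ cor2 K ε (e (i k))) ⊓ W (s - r k)) := by
  let Φ : (Π k, ↥((L ⊓ cor2 K ε (e (i k))) ⊓ W (s - r k))) →ₗ[K]
      ↥((spn L (⊤ : Submodule K X) ⊓ cor1 K X ε) ⊓ V s) :=
    { toFun := fun c => ⟨∑ k, (c k : A) • x k, by
        refine ⟨⟨?_, ?_⟩, ?_⟩
        · exact Submodule.sum_mem _ fun k _ =>
            Submodule.subset_span ⟨_, (c k).2.1.1, _, trivial, rfl⟩
        · change ε • _ = _
          rw [Finset.smul_sum]
          exact Finset.sum_congr rfl fun k _ => by rw [← mul_smul, (c k).2.1.2.1]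
        · refine Submodule.sum_mem _ fun k _ => ?_
          have := hV.smul (c k).2.2 (F.mem k)
          rwa [sub_add_cancel] at this⟩
      map_add' := fun c d => by
        apply Subtype.ext
        simp [add_smul, Finset.sum_add_distrib]
      map_smul' := fun q c => by
        apply Subtype.ext
        simp [Finset.smul_sum] }
  have hbij : Function.Bijective Φ := by
    constructor
    · intro c d hcd
      have h1 : ∑ k, (c k : A) • x k = ∑ k, (d k : A) • x k := congrArg Subtype.val hcd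
      have h2 := F.uniq (c := fun k => (c k : A)) (c' := fun k => (d k : A))
        (fun k => (c k).2.1.2.2) (fun k => (d k).2.1.2.2) h1
      funext k
      exact Subtype.ext (congrFun h2 k)
    · rintro ⟨y, ⟨hy1, hy2⟩, hy3⟩
      obtain ⟨c, hc, hcL, hcy⟩ := F.exists_coef hLr hy1
      refine ⟨fun k => ⟨ε * cpt W (s - r k) (c k), ⟨⟨?_, ⟨?_, ?_⟩⟩, ?_⟩⟩, ?_⟩
      · exact hLl _ _ (hLh _ (hcL k) _)
      · rw [← mul_assoc, hε]
      · rw [mul_assoc, ← cpt_mul_of_mem hW _ _ (hdeg (i k)), hc]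
      · have := hW.mul hε0 (cpt_mem hW.int (s - r k) (c k))
        rwa [zero_add] at this
      · apply Subtype.ext
        change ∑ k, (ε * cpt W (s - r k) (c k)) • x k = y
        have h1 : ∀ k, (ε * cpt W (s - r k) (c k)) • x k = ε • cpt V s (c k • x k) := fun k => by
          rw [cpt_smul_of_mem hW hV s _ _ (F.mem k), mul_smul]
        rw [Finset.sum_congr rfl fun k _ => h1 k, ← Finset.smul_sum, ← map_sum, hcy,
          cpt_of_mem hV.int hy3, if_pos rfl]
        exact hy2
  rw [← (LinearEquiv.ofBijective Φ hbij).finrank_eq, Module.finrank_pi_fintype]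

omit [IsScalarTower K A X] in
theorem spn_top (h1 : (1 : A) ∈ (⊤ : Submodule K A)) :
    spn (⊤ : Submodule K A) (⊤ : Submodule K X) = ⊤ := by
  rw [eq_top_iff]
  intro y _
  exact Submodule.subset_span ⟨1, h1, y, trivial, (one_smul _ _).symm⟩

theorem homog_top {W : ℚ → Submodule K A} : Homog W ⊤ := fun _ _ _ => trivial

/-- Dimensions of corners of graded projective modules. -/
theorem Fam.finrank_cor1 (F : Fam e V i r x) [FiniteDimensional K A] (hW : H175.GrAlg W)
    (hV : GrMod W V) (hdeg : ∀ i, e i ∈ W 0) {ε : A} (hε0 : ε ∈ W 0) (hε : ε * ε = ε) (s : ℚ) :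
    finrank K ↥(cor1 K X ε ⊓ V s) =
      ∑ k, finrank K ↥(cor2 K ε (e (i k)) ⊓ W (s - r k)) := by
  have h := F.finrank_eq hW hV hdeg (L := ⊤) (fun _ _ _ => trivial) (fun _ _ _ => trivial)
    homog_top hε0 hε s
  rw [spn_top (X := X) (K := K) (A := A) trivial, top_inf_eq] at h
  exact h.trans (Finset.sum_congr rfl fun k _ => by rw [top_inf_eq])

/-- **Graded dimensions of corners of graded projective modules.** -/
theorem Fam.gd_cor1 (F : Fam e V i r x) [FiniteDimensional K A] [FiniteDimensional K X]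
    (hW : H175.GrAlg W) (hV : GrMod W V) (hdeg : ∀ i, e i ∈ W 0) {ε : A} (hε0 : ε ∈ W 0)
    (hε : ε * ε = ε) :
    gd V (cor1 K X ε) = ∑ k, gd W (cor2 K ε (e (i k))) * tq (r k) := by
  apply coeff_ext
  intro s
  rw [coeff_gd hV.int.submodule_iSupIndep, F.finrank_cor1 hW hV hdeg hε0 hε s,
    coeff_sum_apply]
  push_cast
  refine Finset.sum_congr rfl fun k _ => ?_
  rw [mul_comm, coeff_tq_mul, coeff_gd hW.int.submodule_iSupIndep]

/-- The corner `e j A e j` in degree `t`, modulo `J`. -/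
theorem finrank_diag (h : Basic W J e) [FiniteDimensional K A] (j : I) (t : ℚ) :
    finrank K ↥(cor2 K (e j) (e j) ⊓ W t) =
      finrank K ↥((J ⊓ cor2 K (e j) (e j)) ⊓ W t) + if t = 0 then 1 else 0 := by
  have hdec : ∀ x ∈ cor2 K (e j) (e j), ∃ c : K, x - c • e j ∈ J := fun x hx => by
    obtain ⟨c, hc⟩ := h.diag j x
    rw [hx.1, hx.2] at hc
    exact ⟨c, hc⟩
  split_ifs with ht
  · subst ht
    have hsub : (J ⊓ cor2 K (e j) (e j)) ⊓ W 0 ≤ cor2 K (e j) (e j) ⊓ W 0 :=
      fun x hx => ⟨hx.1.2, hx.2⟩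
    have hej : e j ∈ cor2 K (e j) (e j) ⊓ W 0 := ⟨⟨h.idem j, h.idem j⟩, h.deg j⟩
    have h1 : cor2 K (e j) (e j) ⊓ W 0 = ((J ⊓ cor2 K (e j) (e j)) ⊓ W 0) ⊔ K ∙ e j := by
      apply le_antisymm
      · intro x hx
        obtain ⟨c, hc⟩ := hdec x hx.1
        rw [← sub_add_cancel x (c • e j)]
        refine Submodule.add_mem_sup ⟨⟨hc, ?_⟩, ?_⟩ (Submodule.smul_mem _ _
          (Submodule.mem_span_singleton_self _))
        · exact sub_mem hx.1 (Submodule.smul_mem _ _ hej.1)
        · exact sub_mem hx.2 (Submodule.smul_mem _ _ hej.2)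
      · refine sup_le hsub ?_
        rw [Submodule.span_singleton_le_iff_mem]
        exact hej
    have h2 : ((J ⊓ cor2 K (e j) (e j)) ⊓ W 0) ⊓ (K ∙ e j) = ⊥ := by
      rw [eq_bot_iff]
      rintro x ⟨hx1, hx2⟩
      obtain ⟨c, rfl⟩ := Submodule.mem_span_singleton.mp hx2
      by_cases hc : c = 0
      · simp [hc]
      · exfalso
        apply h.ne j
        have := J.smul_mem c⁻¹ hx1.1.1
        rwa [smul_smul, inv_mul_cancel₀ hc, one_smul] at this
    have h3 := Submodule.finrank_sup_add_finrank_inf_eq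
      ((J ⊓ cor2 K (e j) (e j)) ⊓ W 0) (K ∙ e j)
    have h0 : e j ≠ 0 := fun h' => h.ne j (by rw [h']; exact zero_mem _)
    rw [h2, finrank_bot, finrank_span_singleton h0, add_zero, ← h1] at h3
    exact h3
  · have h1 : cor2 K (e j) (e j) ⊓ W t = (J ⊓ cor2 K (e j) (e j)) ⊓ W t := by
      apply le_antisymm
      · intro x hx
        obtain ⟨c, hc⟩ := hdec x hx.1
        refine ⟨⟨?_, hx.1⟩, hx.2⟩
        have h2 := h.hom _ hc 0
        rw [map_sub, map_smul, cpt_of_mem h.gr.int hx.2, if_neg ht,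
          cpt_of_mem h.gr.int (h.deg j), if_pos rfl, zero_sub] at h2
        have h3 : c • e j ∈ J := by
          have := neg_mem h2
          rwa [neg_neg] at this
        have := add_mem hc h3
        rwa [sub_add_cancel] at this
      · exact fun x hx => ⟨hx.1.2, hx.2⟩
    rw [← h1, add_zero]

/-- **Number of elements of type `j`** in a homogeneous basis. -/
theorem Fam.gd_top [DecidableEq I] (F : Fam e V i r x) (h : Basic W J e)
    [FiniteDimensional K A] [FiniteDimensional K X] (hV : GrMod W V) (j : I) :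
    gd V (cor1 K X (e j)) - gd V (spn J (⊤ : Submodule K X) ⊓ cor1 K X (e j)) =
      ∑ k, if i k = j then tq (r k) else 0 := by
  apply coeff_ext
  intro s
  rw [AddMonoidAlgebra.coeff_sub, Finsupp.sub_apply, coeff_gd hV.int.submodule_iSupIndep,
    coeff_gd hV.int.submodule_iSupIndep, F.finrank_cor1 h.gr hV h.deg (h.deg j) (h.idem j) s,
    F.finrank_eq h.gr hV h.deg h.mulL h.mulR h.hom (h.deg j) (h.idem j) s, coeff_sum_apply]
  push_cast
  rw [← Finset.sum_sub_distrib]
  refine Finset.sum_congr rfl fun k _ => ?_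
  by_cases hk : i k = j
  · rw [if_pos hk, hk, finrank_diag h j (s - r k), tq, AddMonoidAlgebra.coeff_single,
      Finsupp.single_apply]
    by_cases hs : r k = s
    · rw [if_pos (by rw [hs, sub_self]), if_pos hs]
      push_cast
      ring
    · rw [if_neg (fun h' => hs (sub_eq_zero.mp h').symm), if_neg hs]
      simp
  · rw [if_neg hk]
    have h1 : (J ⊓ cor2 K (e j) (e (i k))) = cor2 K (e j) (e (i k)) := by
      refine inf_eq_right.mpr fun x hx => ?_
      have := h.off j (i k) (Ne.symm hk) x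
      rwa [hx.1, hx.2] at this
    rw [h1, sub_self]
    simp

/-- **(L2)** of the SIGNATURE project: graded dimensions of corners of projective modules. -/
theorem gd_cor1_projective [Fintype I] (h : Basic W J e) [FiniteDimensional K A]
    [FiniteDimensional K X] [Module.Projective A X] (hV : GrMod W V) {ε : A} (hε0 : ε ∈ W 0)
    (hε : ε * ε = ε) :
    gd V (cor1 K X ε) = ∑ j, gd W (cor2 K ε (e j)) *
      (gd V (cor1 K X (e j)) - gd V (spn J (⊤ : Submodule K X) ⊓ cor1 K X (e j))) := by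
  classical
  have : Module.Finite A X := Module.Finite.of_restrictScalars_finite K A X
  obtain ⟨n, i, r, x, F⟩ := exists_fam h hV
  rw [F.gd_cor1 h.gr hV h.deg hε0 hε]
  simp_rw [F.gd_top h hV, Finset.mul_sum]
  rw [Finset.sum_comm]
  refine Finset.sum_congr rfl fun k _ => ?_
  simp

end fam

end Vale.P179.H300
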