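import Vale.Agent.P179.H300.EP3
import Vale.Agent.P179.H445.Twist

/-!
# Relative data and graded projective modules

* `exists_rho0` : the bimodule retraction can be chosen homogeneous of degree `0`;
* `projective_of_higman` : Higman's criterion for algebras spanned by a finite group;
* `exists_psi` : the complementary projection is a one-sided trace.
-/

namespace Vale.P179.H300

open Module Vale.P179.H175 Vale.P179.H904 Vale.P179.H815 Vale.P179.H445

section rho0

variable {K A B Γ : Type*} [Field K] [Ring A] [Algebra K A] [Ring B]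
  [Algebra K B] [FiniteDimensional K B] [Group Γ] [Fintype Γ] {γ : Γ →* A} {ι : A →ₐ[K] B}
  {ρ : B →ₗ[K] A} {θ : B →ₗ[K] B} {WA : ℚ → Submodule K A} {W : ℚ → Submodule K B}

theorem cpt_mul_right (hA : H175.GrAlg WA) {t : ℚ} {a : A} (ha : a ∈ WA t) (s : ℚ) (b : A) :
    cpt WA s (b * a) = cpt WA (s - t) b * a := by
  have h := cpt_smul_of_mem (X := A) hA ⟨hA.int, fun ha hx => hA.mul ha hx⟩ s t b ha
  rwa [smul_eq_mul, smul_eq_mul] at h

theorem cpt_mul_left (hA : H175.GrAlg WA) {t : ℚ} {a : A} (ha : a ∈ WA t) (s : ℚ) (b : A) :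
    cpt WA s (a * b) = a * cpt WA (s - t) b := by
  refine induction_gr hA.int (P := fun b => cpt WA s (a * b) = a * cpt WA (s - t) b) ?_ ?_ b
  · intro r b hb
    rw [cpt_of_mem hA.int hb, cpt_of_mem hA.int (hA.mul ha hb)]
    by_cases h : r = s - t
    · rw [if_pos h, if_pos (by rw [h, add_sub_cancel])]
    · rw [if_neg h, if_neg (fun h' => h (by rw [← h', add_sub_cancel_left])), mul_zero]
  · intro b c hb hc
    simp only [mul_add, map_add, hb, hc]

/-- The retraction can be chosen homogeneous of degree zero. -/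
theorem exists_rho0 (R : Rel γ ι ρ θ) (hA : H175.GrAlg WA) (hB : H175.GrAlg W)
    (hι : ∀ r, ∀ h ∈ WA r, ι h ∈ W r) :
    ∃ ρ0 : B →ₗ[K] A, (∀ h, ρ0 (ι h) = h) ∧ (∀ h b, ρ0 (ι h * b) = h * ρ0 b) ∧
      (∀ h b, ρ0 (b * ι h) = ρ0 b * h) ∧ (∀ r, ∀ b ∈ W r, ρ0 b ∈ WA r) := by
  classical
  have hfin := finite_support (K := K) hB.int.submodule_iSupIndep
  let S : Finset ℚ := hfin.toFinset
  let ρ0 : B →ₗ[K] A := ∑ r ∈ S, (cpt WA r) ∘ₗ ρ ∘ₗ (cpt W r)
  have key : ∀ r, ∀ b ∈ W r, ρ0 b = cpt WA r (ρ b) := by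
    intro r b hb
    simp only [ρ0, LinearMap.sum_apply, LinearMap.comp_apply]
    by_cases hr : r ∈ S
    · rw [Finset.sum_eq_single r]
      · rw [cpt_of_mem hB.int hb, if_pos rfl]
      · intro s _ hs
        rw [cpt_of_mem hB.int hb, if_neg (Ne.symm hs), map_zero, map_zero]
      · exact fun h => absurd hr h
    · have h0 : b = 0 := by
        have : W r = ⊥ := by
          by_contra h
          exact hr (hfin.mem_toFinset.mpr h)
        rw [this] at hb
        simpa using hb
      simp [h0]
  refine ⟨ρ0, fun h => ?_, fun h b => ?_, fun h b => ?_, fun r b hb => ?_⟩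
  · refine induction_gr hA.int (P := fun h => ρ0 (ι h) = h) ?_ ?_ h
    · intro r h hh
      rw [key r _ (hι r h hh), R.ret, cpt_of_mem hA.int hh, if_pos rfl]
    · intro x y hx hy
      rw [map_add, map_add, hx, hy]
  · refine induction_gr hA.int (P := fun h => ρ0 (ι h * b) = h * ρ0 b) ?_ ?_ h
    · intro t h hh
      refine induction_gr hB.int (P := fun b => ρ0 (ι h * b) = h * ρ0 b) ?_ ?_ b
      · intro r b hb
        rw [key _ _ (hB.mul (hι t h hh) hb), key r b hb, R.left, cpt_mul_left hA hh,
          add_sub_cancel_left]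
      · intro x y hx hy
        simp only [mul_add, map_add, hx, hy]
    · intro x y hx hy
      simp only [map_add, add_mul, hx, hy]
  · refine induction_gr hA.int (P := fun h => ρ0 (b * ι h) = ρ0 b * h) ?_ ?_ h
    · intro t h hh
      refine induction_gr hB.int (P := fun b => ρ0 (b * ι h) = ρ0 b * h) ?_ ?_ b
      · intro r b hb
        rw [key _ _ (hB.mul hb (hι t h hh)), key r b hb, R.right, cpt_mul_right hA hh,
          add_sub_cancel_right]
      · intro x y hx hy
        simp only [add_mul, map_add, hx, hy]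
    · intro x y hx hy
      simp only [map_add, mul_add, hx, hy]
  · rw [key r b hb]
    exact cpt_mem hA.int r _

end rho0

section higman

variable {K A Γ : Type*} [Field K] [Ring A] [Algebra K A] [Group Γ] [Fintype Γ] {γ : Γ →* A}
  {X : Type*} [AddCommGroup X] [Module K X] [Module A X] [IsScalarTower K A X]

/-- **Higman's criterion.** -/
theorem projective_of_higman [FiniteDimensional K X]
    (hspan : Submodule.span K (Set.range γ) = ⊤) (f : X →ₗ[A] A) (g : A →ₗ[A] X)
    (ψ : X →ₗ[K] X) (h : ∀ b : X, g (f b) + ∑ x : Γ, γ x • ψ (γ x⁻¹ • b) = b) :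
    Module.Projective A X := by
  classical
  let β := Module.finBasis K X
  let n := Module.finrank K X
  -- the section
  let s : X →ₗ[K] (Fin n → A) :=
    { toFun := fun b j => ∑ x : Γ, (β.repr (ψ (γ x⁻¹ • b)) j) • γ x
      map_add' := fun b c => by
        funext j
        simp [smul_add, add_smul, Finset.sum_add_distrib]
      map_smul' := fun q b => by
        funext j
        simp only [RingHom.id_apply, Pi.smul_apply, Finset.smul_sum]
        refine Finset.sum_congr rfl fun x _ => ?_
        rw [smul_algebra_smul_comm, map_smul, map_smul, Finsupp.smul_apply, smul_assoc] }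
  have hs1 : ∀ (y : Γ) (b : X), s (γ y • b) = γ y • s b := by
    intro y b
    funext j
    change ∑ x : Γ, (β.repr (ψ (γ x⁻¹ • γ y • b)) j) • γ x =
      γ y • ∑ x : Γ, (β.repr (ψ (γ x⁻¹ • b)) j) • γ x
    rw [smul_eq_mul, Finset.mul_sum, ← Equiv.sum_comp (Equiv.mulLeft y)]
    refine Finset.sum_congr rfl fun x _ => ?_
    rw [Equiv.coe_mulLeft, ← mul_smul, ← map_mul, mul_inv_rev, inv_mul_cancel_right,
      mul_smul_comm, ← map_mul]
  have hs : ∀ (a : A) (b : X), s (a • b) = a • s b := by
    intro a b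
    have ha : a ∈ Submodule.span K (Set.range γ) := by rw [hspan]; trivial
    induction ha using Submodule.span_induction with
    | mem a ha => obtain ⟨y, rfl⟩ := ha; exact hs1 y b
    | zero => simp
    | add a c _ _ ha hc => rw [add_smul, map_add, ha, hc, add_smul]
    | smul q a _ ha => rw [smul_assoc, map_smul, ha, smul_assoc]
  let sA : X →ₗ[A] (A × (Fin n → A)) :=
    { toFun := fun b => (f b, s b)
      map_add' := fun b c => by simp
      map_smul' := fun a b => by simp [hs] }
  let π : (A × (Fin n → A)) →ₗ[A] X :=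
    { toFun := fun c => g c.1 + ∑ j, c.2 j • β j
      map_add' := fun c d => by
        simp only [Prod.fst_add, Prod.snd_add, map_add, Pi.add_apply, add_smul,
          Finset.sum_add_distrib]
        abel
      map_smul' := fun a c => by
        have hg : g ((a • c).1) = a • g c.1 := by rw [Prod.smul_fst, map_smul]
        rw [hg]
        simp only [Prod.smul_snd, Pi.smul_apply, smul_eq_mul, mul_smul,
          RingHom.id_apply, smul_add, Finset.smul_sum] }
  refine Module.Projective.of_split sA π ?_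
  ext b
  change g (f b) + ∑ j, (∑ x : Γ, (β.repr (ψ (γ x⁻¹ • b)) j) • γ x) • β j = b
  conv_rhs => rw [← h b]
  congr 1
  simp only [Finset.sum_smul, smul_assoc]
  rw [Finset.sum_comm]
  refine Finset.sum_congr rfl fun x _ => ?_
  conv_rhs => rw [← β.sum_repr (ψ (γ x⁻¹ • b)), Finset.smul_sum]
  exact Finset.sum_congr rfl fun j _ => (smul_algebra_smul_comm _ _ _).symm

end higman

section retract

variable {K A B Γ I : Type*} [Field K] [Ring A] [Algebra K A] [FiniteDimensional K A] [Ring B]
  [Algebra K B] [FiniteDimensional K B] [Group Γ] [Fintype Γ] {γ : Γ →* A} (ι : A →ₐ[K] B)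
  {WA : ℚ → Submodule K A} {W : ℚ → Submodule K B} {J : Submodule K A} {ε : I → A}

/-- The left corner `{b | ι η b = b, π b = b}`. -/
def UL (π : B →ₗ[K] B) (η : A) : Submodule K B where
  carrier := {b | ι η * b = b ∧ π b = b}
  add_mem' := fun {x y} hx hy => ⟨by rw [mul_add, hx.1, hy.1], by rw [map_add, hx.2, hy.2]⟩
  zero_mem' := ⟨mul_zero _, map_zero _⟩
  smul_mem' := fun c x hx => ⟨by rw [mul_smul_comm, hx.1], by rw [map_smul, hx.2]⟩

/-- The span of the `ι j * b`, `j` in `J`, `π b = b`. -/
def SL (J : Submodule K A) (π : B →ₗ[K] B) : Submodule K B :=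
  Submodule.span K {z | ∃ j ∈ J, ∃ b, π b = b ∧ z = ι j * b}

/-- A graded left-linear projection whose image is projective. -/
structure Retr (γ : Γ →* A) (ι : A →ₐ[K] B) (W : ℚ → Submodule K B) (π : B →ₗ[K] B) : Prop where
  lin : ∀ a b, π (ι a * b) = ι a * π b
  idem : ∀ b, π (π b) = π b
  deg : ∀ r, ∀ b ∈ W r, π b ∈ W r
  hig : ∃ (f : B →ₗ[K] A) (g : B) (ψ : B →ₗ[K] B), (∀ a b, f (ι a * b) = a * f b) ∧
    (π g = g) ∧ ∀ b, π b = b → ι (f b) * g + ∑ x : Γ, ι (γ x) * ψ (ι (γ x⁻¹) * b) = b

/-- **One-sided form of (L2) for graded summands of `B`.** -/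
theorem fam_retract (hspan : Submodule.span K (Set.range γ) = ⊤) (hb : Basic WA J ε)
    (hB : H175.GrAlg W) (hι : ∀ r, ∀ h ∈ WA r, ι h ∈ W r) {π : B →ₗ[K] B}
    (P : Retr γ ι W π) :
    ∃ (n : ℕ) (i : Fin n → I) (r : Fin n → ℚ) (x : Fin n → B),
      (∀ k, x k ∈ W (r k)) ∧ (∀ k, ι (ε (i k)) * x k = x k) ∧ (∀ k, π (x k) = x k) ∧
      (∀ y, π y = y → ∃ c : Fin n → A, (∀ k, c k * ε (i k) = c k) ∧
        ∑ k, ι (c k) * x k = y) ∧
      (∀ c : Fin n → A, (∀ k, c k * ε (i k) = c k) → ∑ k, ι (c k) * x k = 0 → c = 0) ∧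
      (∀ η : A, η ∈ WA 0 → η * η = η →
        gd W (UL ι π η) = ∑ k, gd WA (cor2 K η (ε (i k))) * tq (r k)) ∧
      (∀ [DecidableEq I] (j : I), gd W (UL ι π (ε j)) - gd W (SL ι J π ⊓ UL ι π (ε j)) =
        ∑ k, if i k = j then tq (r k) else 0) := by
  classical
  let _ : Module A B := Module.compHom B (ι : A →+* B)
  have hsm : ∀ (a : A) (b : B), a • b = ι a * b := fun _ _ => rfl
  have : IsScalarTower K A B := ⟨fun q a b => by rw [hsm, hsm, map_smul, smul_mul_assoc]⟩
  let X : Submodule A B :=
    { carrier := {b | π b = b}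
      add_mem' := fun {x y} hx hy => by
        change π (x + y) = x + y
        rw [map_add, hx, hy]
      zero_mem' := map_zero _
      smul_mem' := fun a x hx => by
        change π (ι a * x) = ι a * x
        rw [P.lin, hx] }
  let j : X →ₗ[K] B := X.subtype.restrictScalars K
  have hj : Function.Injective j := Subtype.val_injective
  let V : ℚ → Submodule K X := fun r => (W r).comap j
  have hVmap : ∀ r, (V r).map j = W r ⊓ LinearMap.range j := fun r => by
    rw [Submodule.map_comap_eq, inf_comm]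
  -- the surjection B → X
  let T : B →ₗ[K] X :=
    { toFun := fun b => ⟨π b, P.idem b⟩
      map_add' := fun b c => Subtype.ext (map_add _ _ _)
      map_smul' := fun q b => Subtype.ext (map_smul _ _ _) }
  have hTj : ∀ x : X, T (j x) = x := fun x => Subtype.ext x.2
  have hTs : Function.Surjective T := fun x => ⟨j x, hTj x⟩
  have hker : Homog W (LinearMap.ker T) := by
    intro b hb r
    have h1 : π b = 0 := congrArg Subtype.val (LinearMap.mem_ker.mp hb)
    refine LinearMap.mem_ker.mpr (Subtype.ext ?_)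
    change π (cpt W r b) = 0
    rw [← cpt_map hB.int hB.int π P.deg, h1, map_zero]
  have hVT : V = fun r => (W r).map T := by
    funext r
    ext x
    constructor
    · intro hx
      exact ⟨j x, hx, hTj x⟩
    · rintro ⟨b, hb, rfl⟩
      exact P.deg r b hb
  have hV : GrMod WA V :=
    { int := by rw [hVT]; exact internal_map hB.int T hTs hker
      smul := fun {r s a x} ha hx => hB.mul (hι r a ha) hx }
  have hfd : FiniteDimensional K X := Module.Finite.of_surjective T hTs
  have hfin : Module.Finite A X := Module.Finite.of_restrictScalars_finite K A X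
  obtain ⟨f, g, ψ, hf, hg, hψ⟩ := P.hig
  have hproj : Module.Projective A X := by
    let fA : X →ₗ[A] A :=
      { toFun := fun b => f b
        map_add' := fun b c => by simp
        map_smul' := fun a b => hf a b }
    let gA : A →ₗ[A] X :=
      { toFun := fun a => ⟨ι a * g, by change π (ι a * g) = ι a * g; rw [P.lin, hg]⟩
        map_add' := fun a b => Subtype.ext (by
          change ι (a + b) * g = ι a * g + ι b * g
          rw [map_add, add_mul])
        map_smul' := fun a b => Subtype.ext (by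
          change ι (a * b) * g = ι a * (ι b * g)
          rw [map_mul, mul_assoc]) }
    refine projective_of_higman hspan fA gA (T ∘ₗ ψ ∘ₗ j) fun b => ?_
    apply Subtype.ext
    have h1 := congrArg π (hψ b b.2)
    rw [map_add, P.lin, hg, map_sum] at h1
    simp only [P.lin] at h1
    have h2 : π (b : B) = b := b.2
    rw [h2] at h1
    conv_rhs => rw [← h1]
    simp only [Submodule.coe_add, Submodule.coe_sum, Submodule.coe_smul]
    rfl
  obtain ⟨n, i, r, x, F⟩ := exists_fam hb hV
  have hfr : ∀ (U : Submodule K X) (U' : Submodule K B), U.map j = U' →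
      finrank K U = finrank K U' := by
    rintro U _ rfl
    exact (Submodule.equivMapOfInjective j hj U).finrank_eq
  have hmU : ∀ (η : A) (s : ℚ), (cor1 K X η ⊓ V s).map j = UL ι π η ⊓ W s := by
    intro η s
    ext b
    constructor
    · rintro ⟨x, ⟨hx1, hx2⟩, rfl⟩
      exact ⟨⟨congrArg Subtype.val hx1, x.2⟩, hx2⟩
    · rintro ⟨⟨hb1, hb2⟩, hb3⟩
      exact ⟨⟨b, hb2⟩, ⟨Subtype.ext hb1, hb3⟩, rfl⟩
  have hmS : (spn J (⊤ : Submodule K X)).map j = SL ι J π := by
    unfold spn SL
    rw [Submodule.map_span]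
    congr 1
    ext b
    constructor
    · rintro ⟨_, ⟨a, ha, y, -, rfl⟩, rfl⟩
      exact ⟨a, ha, y, y.2, rfl⟩
    · rintro ⟨a, ha, y, hy, rfl⟩
      exact ⟨_, ⟨a, ha, ⟨y, hy⟩, trivial, rfl⟩, rfl⟩
  have hgU : ∀ η : A, gd V (cor1 K X η) = gd W (UL ι π η) :=
    fun η => gd_congr fun s => hfr _ _ (hmU η s)
  have hgS : ∀ η : A, gd V (spn J (⊤ : Submodule K X) ⊓ cor1 K X η) =
      gd W (SL ι J π ⊓ UL ι π η) := fun η => gd_congr fun s => hfr _ _ (by
    rw [inf_assoc, Submodule.map_inf _ hj, hmS, hmU, inf_assoc])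
  refine ⟨n, i, r, fun k => j (x k), fun k => F.mem k, fun k => congrArg Subtype.val (F.eig k),
    fun k => (x k).2, fun y hy => ?_, fun c hc h0 => ?_, fun η hη0 hη => ?_, fun j' => ?_⟩
  · obtain ⟨c, hc, hcy⟩ := F.span ⟨y, hy⟩
    refine ⟨c, hc, ?_⟩
    have := congrArg Subtype.val hcy
    rw [Submodule.coe_sum] at this
    exact this
  · refine F.inj c hc (Subtype.ext ?_)
    rw [Submodule.coe_sum]
    exact h0
  · rw [← hgU, F.gd_cor1 hb.gr hV hb.deg hη0 hη]
  · rw [← hgU, ← hgS, F.gd_top hb hV]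

end retract

end Vale.P179.H300
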