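import Vale.Agent.P179.H300.EP5

/-!
# Opposite data

Gradings, `Basic` data, `Rel` data and graded dimensions are transported along an
anti-isomorphism `o : A ≃ₗ[K] A'`, `o (x * y) = o y * o x`.
-/

namespace Vale.P179.H300

open Module Vale.P179.H175 Vale.P179.H904 Vale.P179.H815 Vale.P179.H445

section op

variable {K A A' : Type*} [Field K] [Ring A] [Algebra K A] [Ring A'] [Algebra K A']
  (o : A ≃ₗ[K] A')

/-- The image of a subspace in the opposite algebra. -/
def sop (U : Submodule K A) : Submodule K A' := U.map o.toLinearMap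

variable {o}

theorem mem_sop {U : Submodule K A} {x : A'} : x ∈ sop o U ↔ o.symm x ∈ U := by
  constructor
  · rintro ⟨y, hy, rfl⟩
    change o.symm (o y) ∈ U
    rwa [o.symm_apply_apply]
  · exact fun h => ⟨o.symm x, h, o.apply_symm_apply x⟩

theorem op_mem_sop {U : Submodule K A} {x : A} : o x ∈ sop o U ↔ x ∈ U := by
  rw [mem_sop, o.symm_apply_apply]

theorem sop_inf (U V : Submodule K A) : sop o (U ⊓ V) = sop o U ⊓ sop o V := by
  ext x
  simp only [mem_sop, Submodule.mem_inf]

theorem finrank_sop (U : Submodule K A) : finrank K (sop o U) = finrank K U :=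
  LinearEquiv.finrank_map_eq o U

theorem gd_sop (W : ℚ → Submodule K A) (U : Submodule K A) :
    gd (fun r => sop o (W r)) (sop o U) = gd W U :=
  gd_congr fun r => by rw [← sop_inf, finrank_sop]

theorem internal_sop {W : ℚ → Submodule K A} (hW : DirectSum.IsInternal W) :
    DirectSum.IsInternal (fun r => sop o (W r)) := by
  refine internal_map hW o.toLinearMap o.surjective ?_
  intro x hx r
  have h0 : x = 0 := o.injective (by rw [map_zero]; exact LinearMap.mem_ker.mp hx)
  rw [h0, map_zero]
  exact zero_mem _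

theorem cpt_op {W : ℚ → Submodule K A} (hW : DirectSum.IsInternal W) (r : ℚ) (x : A) :
    cpt (fun r => sop o (W r)) r (o x) = o (cpt W r x) := by
  have e : ∀ y, o.toLinearMap y = o y := fun _ => rfl
  have h := cpt_map hW (internal_sop (o := o) hW) o.toLinearMap
    (fun _ _ hx => Submodule.mem_map_of_mem hx) r x
  rw [e, e] at h
  exact h

variable (ho : ∀ x y, o (x * y) = o y * o x)

include ho in
theorem o_one : o 1 = 1 := by
  have h : ∀ y : A', o 1 * y = y := fun y => by
    have := ho (o.symm y) 1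
    rw [mul_one, o.apply_symm_apply] at this
    exact this.symm
  have := h 1
  rwa [mul_one] at this

include ho in
theorem symm_mul (x y : A') : o.symm (x * y) = o.symm y * o.symm x :=
  o.injective (by rw [o.apply_symm_apply, ho, o.apply_symm_apply, o.apply_symm_apply])

include ho in
theorem symm_one : o.symm (1 : A') = 1 := by
  rw [← o_one ho, o.symm_apply_apply]

include ho in
theorem grAlg_sop {W : ℚ → Submodule K A} (hW : H175.GrAlg W) :
    H175.GrAlg (fun r => sop o (W r)) where
  int := internal_sop hW.int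
  one := by rw [mem_sop, symm_one ho]; exact hW.one
  mul := fun {r s x y} hx hy => by
    rw [mem_sop] at hx hy ⊢
    rw [symm_mul ho, add_comm]
    exact hW.mul hy hx

include ho in
theorem sop_mul (J L : Submodule K A) : sop o J * sop o L = sop o (L * J) := by
  apply le_antisymm
  · rw [Submodule.mul_le]
    intro x hx y hy
    rw [mem_sop] at hx hy ⊢
    rw [symm_mul ho]
    exact Submodule.mul_mem_mul hy hx
  · rintro _ ⟨z, hz, rfl⟩
    change o z ∈ _
    induction hz using Submodule.mul_induction_on' with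
    | mem_mul_mem a ha b hb =>
      rw [ho]
      exact Submodule.mul_mem_mul (op_mem_sop.mpr hb) (op_mem_sop.mpr ha)
    | add a _ b _ ha hb => rw [map_add]; exact add_mem ha hb

include ho in
theorem sop_pow (J : Submodule K A) (n : ℕ) : (sop o J) ^ (n + 1) = sop o (J ^ (n + 1)) := by
  induction n with
  | zero => rw [zero_add, pow_one, pow_one]
  | succ n ih => rw [pow_succ, ih, sop_mul ho, ← pow_succ']

include ho in
theorem cor2_sop (x y : A) : cor2 K (o x) (o y) = sop o (cor2 K y x) := by
  ext b
  rw [mem_sop]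
  constructor
  · rintro ⟨h1, h2⟩
    refine ⟨?_, ?_⟩
    · have := congrArg o.symm h2
      rwa [symm_mul ho, o.symm_apply_apply] at this
    · have := congrArg o.symm h1
      rwa [symm_mul ho, o.symm_apply_apply] at this
  · rintro ⟨h1, h2⟩
    refine ⟨?_, ?_⟩
    · have := congrArg o h2
      rwa [ho, o.apply_symm_apply] at this
    · have := congrArg o h1
      rwa [ho, o.apply_symm_apply] at this

include ho in
theorem basic_sop {W : ℚ → Submodule K A} {J : Submodule K A} {I : Type*} {e : I → A}
    (h : Basic W J e) : Basic (fun r => sop o (W r)) (sop o J) (fun i => o (e i)) where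
  gr := grAlg_sop ho h.gr
  hom := fun x hx r => by
    rw [mem_sop] at hx
    have := cpt_op (o := o) h.gr.int r (o.symm x)
    rw [o.apply_symm_apply] at this
    rw [this, op_mem_sop]
    exact h.hom _ hx r
  mulL := fun a j hj => by
    rw [mem_sop] at hj ⊢
    rw [symm_mul ho]
    exact h.mulR _ _ hj
  mulR := fun a j hj => by
    rw [mem_sop] at hj ⊢
    rw [symm_mul ho]
    exact h.mulL _ _ hj
  nil := by
    obtain ⟨n, hn⟩ := h.nil
    exact ⟨n + 1, by rw [sop_pow ho, pow_succ, hn, Submodule.bot_mul, sop, Submodule.map_bot]⟩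
  idem := fun i => by rw [← ho, h.idem]
  deg := fun i => op_mem_sop.mpr (h.deg i)
  ne := fun i hi => h.ne i (op_mem_sop.mp hi)
  off := fun i j hij a => by
    rw [mem_sop, symm_mul ho, symm_mul ho, o.symm_apply_apply, o.symm_apply_apply, ← mul_assoc]
    exact h.off j i (Ne.symm hij) _
  diag := fun i a => by
    obtain ⟨c, hc⟩ := h.diag i (o.symm a)
    refine ⟨c, ?_⟩
    rw [mem_sop, map_sub, symm_mul ho, symm_mul ho, map_smul, o.symm_apply_apply, ← mul_assoc]
    exact hc
  full := fun a => by
    obtain ⟨y, hy, z, hz, hyz⟩ := Submodule.mem_sup.mp (h.full (o.symm a))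
    have ha : a = o y + o z := by rw [← map_add, hyz, o.apply_symm_apply]
    rw [ha]
    refine add_mem (Submodule.mem_sup_left (op_mem_sop.mpr hy)) (Submodule.mem_sup_right ?_)
    clear hyz ha
    induction hz using Submodule.span_induction with
    | mem z hz =>
      obtain ⟨i, x, y, rfl⟩ := hz
      refine Submodule.subset_span ⟨i, o y, o x, ?_⟩
      rw [ho, ho, mul_assoc]
    | zero => rw [map_zero]; exact zero_mem _
    | add y z _ _ hy hz => rw [map_add]; exact add_mem hy hz
    | smul c y _ hy => rw [map_smul]; exact Submodule.smul_mem _ _ hy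

end op

section rel

variable {K A B A' B' Γ : Type*} [Field K] [Ring A] [Algebra K A] [Ring B]
  [Algebra K B] [Ring A'] [Algebra K A'] [Ring B'] [Algebra K B'] [Group Γ] [Fintype Γ]
  {o : A ≃ₗ[K] A'} {o' : B ≃ₗ[K] B'} (ho : ∀ x y, o (x * y) = o y * o x)
  (ho' : ∀ x y, o' (x * y) = o' y * o' x)

/-- The opposite of an algebra homomorphism. -/
noncomputable def aop (ι : A →ₐ[K] B) : A' →ₐ[K] B' where
  toFun x := o' (ι (o.symm x))
  map_one' := by rw [symm_one ho, map_one, o_one ho']
  map_mul' x y := by rw [symm_mul ho, map_mul, ho']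
  map_zero' := by simp
  map_add' x y := by simp
  commutes' q := by
    have h1 : o.symm (algebraMap K A' q) = algebraMap K A q := by
      rw [Algebra.algebraMap_eq_smul_one, map_smul, symm_one ho, Algebra.algebraMap_eq_smul_one]
    rw [h1, AlgHom.commutes, Algebra.algebraMap_eq_smul_one, map_smul, o_one ho',
      Algebra.algebraMap_eq_smul_one]

theorem aop_apply (ι : A →ₐ[K] B) (x : A') : aop ho ho' ι x = o' (ι (o.symm x)) := rfl

theorem aop_o (ι : A →ₐ[K] B) (x : A) : aop ho ho' ι (o x) = o' (ι x) := by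
  rw [aop_apply, o.symm_apply_apply]

/-- The opposite of a group homomorphism. -/
noncomputable def gop (γ : Γ →* A) : Γ →* A' where
  toFun x := o (γ x⁻¹)
  map_one' := by rw [inv_one, map_one, o_one ho]
  map_mul' x y := by rw [mul_inv_rev, map_mul, ho]

omit [Fintype Γ] in
theorem span_gop {γ : Γ →* A} (h : Submodule.span K (Set.range γ) = ⊤) :
    Submodule.span K (Set.range (gop ho γ)) = ⊤ := by
  have h1 : Set.range (gop ho γ) = o '' Set.range γ := by
    ext x
    constructor
    · rintro ⟨y, rfl⟩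
      exact ⟨γ y⁻¹, ⟨y⁻¹, rfl⟩, rfl⟩
    · rintro ⟨_, ⟨y, rfl⟩, rfl⟩
      refine ⟨y⁻¹, ?_⟩
      change o (γ y⁻¹⁻¹) = _
      rw [inv_inv]
  rw [h1]
  have h2 := Submodule.map_span (o : A →ₗ[K] A') (Set.range γ)
  rw [h, Submodule.map_top, LinearMap.range_eq_top.mpr o.surjective] at h2
  exact h2.symm

theorem rel_op {γ : Γ →* A} {ι : A →ₐ[K] B} {ρ : B →ₗ[K] A} {θ : B →ₗ[K] B}
    (R : Rel γ ι ρ θ) : Rel (gop ho γ) (aop ho ho' ι)
      (o.toLinearMap ∘ₗ ρ ∘ₗ o'.symm.toLinearMap)
      (o'.toLinearMap ∘ₗ θ ∘ₗ o'.symm.toLinearMap) where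
  ret := fun h => by
    change o (ρ (o'.symm (o' (ι (o.symm h))))) = h
    rw [o'.symm_apply_apply, R.ret, o.apply_symm_apply]
  left := fun h b => by
    change o (ρ (o'.symm (o' (ι (o.symm h)) * b))) = h * o (ρ (o'.symm b))
    rw [symm_mul ho', o'.symm_apply_apply, R.right, ho, o.apply_symm_apply]
  right := fun h b => by
    change o (ρ (o'.symm (b * o' (ι (o.symm h))))) = o (ρ (o'.symm b)) * h
    rw [symm_mul ho', o'.symm_apply_apply, R.left, ho, o.apply_symm_apply]
  hig := fun b => by
    have h := congrArg o' (R.hig (o'.symm b))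
    rw [Finset.sum_comm, map_sum] at h
    have h2 : b - aop ho ho' ι ((o.toLinearMap ∘ₗ ρ ∘ₗ o'.symm.toLinearMap) b) =
        o' (o'.symm b - ι (ρ (o'.symm b))) := by
      rw [map_sub, o'.apply_symm_apply]
      change b - o' (ι (o.symm (o (ρ (o'.symm b))))) = _
      rw [o.symm_apply_apply]
    rw [h2, ← h]
    refine Finset.sum_congr rfl fun x _ => ?_
    rw [map_sum]
    refine Finset.sum_congr rfl fun y _ => ?_
    have h3 : ∀ z : Γ, aop ho ho' ι (gop ho γ z) = o' (ι (γ z⁻¹)) := fun z =>
      aop_o ho ho' ι (γ z⁻¹)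
    rw [h3, h3, h3, h3, inv_inv, inv_inv, ho', ho', mul_assoc (o' (ι (γ x⁻¹)))]
    congr 2
    change o' (θ (o'.symm (o' (ι (γ x)) * b * o' (ι (γ y⁻¹))))) = _
    rw [symm_mul ho', symm_mul ho', o'.symm_apply_apply, o'.symm_apply_apply, mul_assoc]

end rel

end Vale.P179.H300
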