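import Vale.Agent.P179.H300.EP6

/-!
# The complement of `ι A` in `B`: one-sided statements

* `cpl` : the projection `b ↦ b - ι (ρ0 b)`;
* `Uab`, `SR` : corners of the complement and of its radical (from the right);
* `gd_cor2_eq` : `gd (ε B ε') = gd (ε A ε') + gd (Uab ε ε')`;
* `gd_right` : (L2) for the complement as a right module.
-/

namespace Vale.P179.H300

open Module Vale.P179.H175 Vale.P179.H904 Vale.P179.H815 Vale.P179.H445

section retr

variable {K A B Γ I : Type*} [Field K] [Ring A] [Algebra K A] [FiniteDimensional K A] [Ring B]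
  [Algebra K B] [FiniteDimensional K B] [Group Γ] [Fintype Γ] {γ : Γ →* A} (ι : A →ₐ[K] B)
  {WA : ℚ → Submodule K A} {W : ℚ → Submodule K B} {J : Submodule K A} {ε : I → A}

/-- One-sided form of (L2) for graded summands of `B`, numbers only. -/
theorem gd_retract [Fintype I] (hspan : Submodule.span K (Set.range γ) = ⊤)
    (hb : Basic WA J ε) (hB : H175.GrAlg W) (hι : ∀ r, ∀ h ∈ WA r, ι h ∈ W r) {π : B →ₗ[K] B}
    (P : Retr γ ι W π) {η : A} (hη0 : η ∈ WA 0) (hη : η * η = η) :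
    gd W (UL ι π η) = ∑ j, gd WA (cor2 K η (ε j)) *
      (gd W (UL ι π (ε j)) - gd W (SL ι J π ⊓ UL ι π (ε j))) := by
  classical
  obtain ⟨n, i, r, x, -, -, -, -, -, f6, f7⟩ := fam_retract ι hspan hb hB hι P
  rw [f6 η hη0 hη, sum_mult i r (fun b => gd WA (cor2 K η (ε b)))]
  exact Finset.sum_congr rfl fun j _ => by rw [f7 j, mult]

end retr

section cpl

variable {K A B : Type*} [Field K] [Ring A] [Algebra K A] [Ring B] [Algebra K B]
  (ι : A →ₐ[K] B) (ρ0 : B →ₗ[K] A)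

/-- The complementary projection. -/
def cpl : B →ₗ[K] B := LinearMap.id - ι.toLinearMap ∘ₗ ρ0

theorem cpl_apply (b : B) : cpl ι ρ0 b = b - ι (ρ0 b) := rfl

/-- A homogeneous bimodule retraction. -/
structure Ret0 (WA : ℚ → Submodule K A) (W : ℚ → Submodule K B) : Prop where
  ret : ∀ h, ρ0 (ι h) = h
  left : ∀ h b, ρ0 (ι h * b) = h * ρ0 b
  right : ∀ h b, ρ0 (b * ι h) = ρ0 b * h
  deg : ∀ r, ∀ b ∈ W r, ρ0 b ∈ WA r
  inj : ∀ r, ∀ h ∈ WA r, ι h ∈ W r

variable {ι ρ0} {WA : ℚ → Submodule K A} {W : ℚ → Submodule K B}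

theorem Ret0.cpl_left (D : Ret0 ι ρ0 WA W) (a : A) (b : B) :
    cpl ι ρ0 (ι a * b) = ι a * cpl ι ρ0 b := by
  rw [cpl_apply, cpl_apply, D.left, map_mul, mul_sub]

theorem Ret0.cpl_right (D : Ret0 ι ρ0 WA W) (a : A) (b : B) :
    cpl ι ρ0 (b * ι a) = cpl ι ρ0 b * ι a := by
  rw [cpl_apply, cpl_apply, D.right, map_mul, sub_mul]

theorem Ret0.rho_cpl (D : Ret0 ι ρ0 WA W) (b : B) : ρ0 (cpl ι ρ0 b) = 0 := by
  rw [cpl_apply, map_sub, D.ret, sub_self]

theorem cpl_of_rho {b : B} (h : ρ0 b = 0) : cpl ι ρ0 b = b := by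
  rw [cpl_apply, h, map_zero, sub_zero]

theorem Ret0.cpl_cpl (D : Ret0 ι ρ0 WA W) (b : B) : cpl ι ρ0 (cpl ι ρ0 b) = cpl ι ρ0 b :=
  cpl_of_rho (D.rho_cpl b)

theorem Ret0.cpl_deg (D : Ret0 ι ρ0 WA W) (r : ℚ) (b : B) (hb : b ∈ W r) :
    cpl ι ρ0 b ∈ W r :=
  sub_mem hb (D.inj r _ (D.deg r b hb))

/-- The corner `{b | ι x b = b, b ι y = b, ρ0 b = 0}` of the complement. -/
def Uab (ι : A →ₐ[K] B) (ρ0 : B →ₗ[K] A) (x y : A) : Submodule K B :=
  cor2 K (ι x) (ι y) ⊓ LinearMap.ker ρ0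

theorem mem_Uab {x y : A} {b : B} :
    b ∈ Uab ι ρ0 x y ↔ (ι x * b = b ∧ b * ι y = b) ∧ ρ0 b = 0 := Iff.rfl

/-- The span of the `b * ι j`, `j` in `J`, `ρ0 b = 0`. -/
def SR (ι : A →ₐ[K] B) (ρ0 : B →ₗ[K] A) (J : Submodule K A) : Submodule K B :=
  Submodule.span K {z | ∃ j ∈ J, ∃ b, ρ0 b = 0 ∧ z = b * ι j}

theorem gd_cor2_eq [FiniteDimensional K A] [FiniteDimensional K B] (D : Ret0 ι ρ0 WA W)
    (hA : H175.GrAlg WA) (hB : H175.GrAlg W) (x y : A) :
    gd W (cor2 K (ι x) (ι y)) = gd WA (cor2 K x y) + gd W (Uab ι ρ0 x y) := by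
  apply coeff_ext
  intro s
  rw [AddMonoidAlgebra.coeff_add, Finsupp.add_apply, coeff_gd hB.int.submodule_iSupIndep,
    coeff_gd hB.int.submodule_iSupIndep, coeff_gd hA.int.submodule_iSupIndep]
  have h := finrank_map_add (cor2 K (ι x) (ι y) ⊓ W s) ρ0
  have h1 : (cor2 K (ι x) (ι y) ⊓ W s).map ρ0 = cor2 K x y ⊓ WA s := by
    ext a
    constructor
    · rintro ⟨b, ⟨⟨hb1, hb2⟩, hb3⟩, rfl⟩
      refine ⟨⟨?_, ?_⟩, D.deg s b hb3⟩
      · rw [← D.left, hb1]
      · rw [← D.right, hb2]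
    · rintro ⟨⟨ha1, ha2⟩, ha3⟩
      refine ⟨ι a, ⟨⟨?_, ?_⟩, D.inj s a ha3⟩, D.ret a⟩
      · rw [← map_mul, ha1]
      · rw [← map_mul, ha2]
  have h2 : (cor2 K (ι x) (ι y) ⊓ W s) ⊓ LinearMap.ker ρ0 = Uab ι ρ0 x y ⊓ W s := by
    unfold Uab
    rw [inf_right_comm]
  rw [h1, h2] at h
  exact_mod_cast h.symm

end cpl

section compl

variable {K A B Γ I : Type*} [Field K] [Ring A] [Algebra K A] [FiniteDimensional K A] [Ring B]
  [Algebra K B] [FiniteDimensional K B] [Group Γ] [Fintype Γ] {γ : Γ →* A} {ι : A →ₐ[K] B}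
  {ρ : B →ₗ[K] A} {θ : B →ₗ[K] B} {ρ0 : B →ₗ[K] A}
  {WA : ℚ → Submodule K A} {W : ℚ → Submodule K B} {J : Submodule K A} {ε : I → A}

omit [FiniteDimensional K A] [FiniteDimensional K B] in
theorem retr_compl (R : Rel γ ι ρ θ) (hspan : Submodule.span K (Set.range γ) = ⊤)
    (D : Ret0 ι ρ0 WA W) (hB : H175.GrAlg W) {η : A} (hη0 : η ∈ WA 0) (hη : η * η = η) :
    Retr γ ι W (LinearMap.mulRight K (ι η) ∘ₗ cpl ι ρ0) := by
  obtain ⟨ψ, h5, h6, h7⟩ := exists_psi R hspan D.ret D.left D.right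
  have hηη : ι η * ι η = ι η := by rw [← map_mul, hη]
  refine ⟨fun a b => ?_, fun b => ?_, fun r b hb => ?_, 0, 0, ψ, fun a b => by simp, by simp,
    fun b hb => ?_⟩
  · simp only [LinearMap.comp_apply, LinearMap.mulRight_apply, D.cpl_left, mul_assoc]
  · simp only [LinearMap.comp_apply, LinearMap.mulRight_apply, D.cpl_right, D.cpl_cpl,
      mul_assoc, hηη]
  · have := hB.mul (D.cpl_deg r b hb) (D.inj 0 η hη0)
    rwa [add_zero] at this
  · simp only [LinearMap.comp_apply, LinearMap.mulRight_apply] at hb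
    have h8 : cpl ι ρ0 b = b := by
      conv_lhs => rw [← hb]
      rw [D.cpl_right, D.cpl_cpl, hb]
    rw [mul_zero, zero_add, h5]
    exact h8

section aux

variable {A' B' : Type*} [Ring A'] [Algebra K A'] [Ring B'] [Algebra K B']
  {o : A ≃ₗ[K] A'} {o' : B ≃ₗ[K] B'} (ho : ∀ x y, o (x * y) = o y * o x)
  (ho' : ∀ x y, o' (x * y) = o' y * o' x)

omit [FiniteDimensional K A] [FiniteDimensional K B] [Fintype Γ] [Group Γ] in
theorem ret0_op (D : Ret0 ι ρ0 WA W) :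
    Ret0 (aop ho ho' ι) (o.toLinearMap ∘ₗ ρ0 ∘ₗ o'.symm.toLinearMap)
      (fun r => sop o (WA r)) (fun r => sop o' (W r)) where
  ret := fun h => by
    change o (ρ0 (o'.symm (o' (ι (o.symm h))))) = h
    rw [o'.symm_apply_apply, D.ret, o.apply_symm_apply]
  left := fun h b => by
    change o (ρ0 (o'.symm (o' (ι (o.symm h)) * b))) = h * o (ρ0 (o'.symm b))
    rw [symm_mul ho', o'.symm_apply_apply, D.right, ho, o.apply_symm_apply]
  right := fun h b => by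
    change o (ρ0 (o'.symm (b * o' (ι (o.symm h))))) = o (ρ0 (o'.symm b)) * h
    rw [symm_mul ho', o'.symm_apply_apply, D.left, ho, o.apply_symm_apply]
  deg := fun r b hb => by
    change o (ρ0 (o'.symm b)) ∈ sop o (WA r)
    rw [op_mem_sop]
    exact D.deg r _ (mem_sop.mp hb)
  inj := fun r h hh => by
    rw [aop_apply, op_mem_sop]
    exact D.inj r _ (mem_sop.mp hh)

omit [FiniteDimensional K A] [FiniteDimensional K B] [Fintype Γ] [Group Γ] in
theorem cpl_op (b : B) : cpl (aop ho ho' ι) (o.toLinearMap ∘ₗ ρ0 ∘ₗ o'.symm.toLinearMap) (o' b) =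
    o' (cpl ι ρ0 b) := by
  rw [cpl_apply, cpl_apply, map_sub]
  change o' b - o' (ι (o.symm (o (ρ0 (o'.symm (o' b)))))) = _
  rw [o'.symm_apply_apply, o.symm_apply_apply]

/-- the projection of the opposite data -/
noncomputable abbrev piop (ι : A →ₐ[K] B) (ρ0 : B →ₗ[K] A) (x : A) : B' →ₗ[K] B' :=
  LinearMap.mulRight K (aop ho ho' ι (o x)) ∘ₗ
    cpl (aop ho ho' ι) (o.toLinearMap ∘ₗ ρ0 ∘ₗ o'.symm.toLinearMap)

omit [FiniteDimensional K A] [FiniteDimensional K B] [Fintype Γ] [Group Γ] in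
theorem piop_apply (x : A) (b : B) : piop ho ho' ι ρ0 x (o' b) = o' (ι x * cpl ι ρ0 b) := by
  rw [piop, LinearMap.comp_apply, LinearMap.mulRight_apply, cpl_op, aop_o, ho']

omit [FiniteDimensional K A] [FiniteDimensional K B] [Fintype Γ] [Group Γ] in
theorem piop_fix (D : Ret0 ι ρ0 WA W) (x : A) (b : B) :
    piop ho ho' ι ρ0 x (o' b) = o' b ↔ ι x * b = b ∧ ρ0 b = 0 := by
  rw [piop_apply, o'.injective.eq_iff]
  constructor
  · intro h
    have h1 : ρ0 b = 0 := by rw [← h, D.left, D.rho_cpl, mul_zero]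
    rw [cpl_of_rho h1] at h
    exact ⟨h, h1⟩
  · rintro ⟨h1, h2⟩
    rw [cpl_of_rho h2, h1]

omit [FiniteDimensional K A] [FiniteDimensional K B] [Fintype Γ] [Group Γ] in
theorem UL_op (D : Ret0 ι ρ0 WA W) {x : A} (hx : x * x = x) (y : A) :
    UL (aop ho ho' ι) (piop ho ho' ι ρ0 x) (o y) = sop o' (Uab ι ρ0 x y) := by
  ext b'
  obtain ⟨b, rfl⟩ := o'.surjective b'
  rw [op_mem_sop]
  constructor
  · rintro ⟨h1, h2⟩
    rw [piop_fix ho ho' D x b] at h2
    rw [aop_o, ← ho'] at h1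
    exact ⟨⟨h2.1, o'.injective h1⟩, h2.2⟩
  · rintro ⟨⟨h1, h2⟩, h3⟩
    refine ⟨?_, (piop_fix ho ho' D x b).mpr ⟨h1, h3⟩⟩
    rw [aop_o, ← ho', h2]

omit [FiniteDimensional K A] [FiniteDimensional K B] [Fintype Γ] [Group Γ] in
theorem SL_op (D : Ret0 ι ρ0 WA W) {x : A} (hx : x * x = x) (y : A) :
    SL (aop ho ho' ι) (sop o J) (piop ho ho' ι ρ0 x) ⊓
      UL (aop ho ho' ι) (piop ho ho' ι ρ0 x) (o y) = sop o' (SR ι ρ0 J ⊓ Uab ι ρ0 x y) := by
  rw [UL_op ho ho' D hx, sop_inf]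
  have hxx : ι x * ι x = ι x := by rw [← map_mul, hx]
  apply le_antisymm
  · rintro b' ⟨h1, h2⟩
    refine ⟨?_, h2⟩
    clear h2
    unfold SL at h1
    induction h1 using Submodule.span_induction with
    | mem z hz =>
      obtain ⟨j', hj', b', hb', rfl⟩ := hz
      obtain ⟨j, rfl⟩ := o.surjective j'
      obtain ⟨b, rfl⟩ := o'.surjective b'
      rw [piop_fix ho ho' D x b] at hb'
      change _ ∈ sop o' (SR ι ρ0 J)
      rw [aop_o, ← ho', op_mem_sop]
      exact Submodule.subset_span ⟨j, op_mem_sop.mp hj', b, hb'.2, rfl⟩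
    | zero => exact zero_mem _
    | add y z _ _ hy hz => exact add_mem hy hz
    | smul c y _ hy => exact Submodule.smul_mem _ _ hy
  · rintro b' ⟨h1, h2⟩
    refine ⟨?_, h2⟩
    obtain ⟨b, rfl⟩ := o'.surjective b'
    have h1' : b ∈ SR ι ρ0 J := op_mem_sop.mp h1
    have h2' : b ∈ Uab ι ρ0 x y := op_mem_sop.mp h2
    have key : ∀ z ∈ SR ι ρ0 J, o' (ι x * z) ∈
        SL (aop ho ho' ι) (sop o J) (piop ho ho' ι ρ0 x) := by
      intro z hz
      unfold SR at hz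
      induction hz using Submodule.span_induction with
      | mem z hz =>
        obtain ⟨j, hj, b, hb, rfl⟩ := hz
        refine Submodule.subset_span ⟨o j, op_mem_sop.mpr hj, o' (ι x * b), ?_, ?_⟩
        · rw [piop_fix ho ho' D x _]
          exact ⟨by rw [← mul_assoc, hxx], by rw [D.left, hb, mul_zero]⟩
        · rw [aop_o, ← ho', mul_assoc]
      | zero => rw [mul_zero, map_zero]; exact zero_mem _
      | add y z _ _ hy hz => rw [mul_add, map_add]; exact add_mem hy hz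
      | smul c y _ hy => rw [mul_smul_comm, map_smul]; exact Submodule.smul_mem _ _ hy
    have := key b h1'
    rwa [h2'.1.1] at this

end aux

/-- **(L2)** for the complement as a right module. -/
theorem gd_right [Fintype I] (R : Rel γ ι ρ θ) (hspan : Submodule.span K (Set.range γ) = ⊤)
    (D : Ret0 ι ρ0 WA W) (hb : Basic WA J ε) (hB : H175.GrAlg W) {x : A} (hx0 : x ∈ WA 0)
    (hx : x * x = x) (b : I) :
    gd W (Uab ι ρ0 x (ε b)) = ∑ d, (gd W (Uab ι ρ0 x (ε d)) -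
      gd W (SR ι ρ0 J ⊓ Uab ι ρ0 x (ε d))) * gd WA (cor2 K (ε d) (ε b)) := by
  let o : A ≃ₗ[K] Aᵐᵒᵖ := MulOpposite.opLinearEquiv K
  let o' : B ≃ₗ[K] Bᵐᵒᵖ := MulOpposite.opLinearEquiv K
  have ho : ∀ x y, o (x * y) = o y * o x := fun _ _ => rfl
  have ho' : ∀ x y, o' (x * y) = o' y * o' x := fun _ _ => rfl
  clear_value o o'
  have hfA : FiniteDimensional K Aᵐᵒᵖ := Module.Finite.equiv o
  have hfB : FiniteDimensional K Bᵐᵒᵖ := Module.Finite.equiv o'
  have D' := ret0_op ho ho' D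
  have P := retr_compl (rel_op ho ho' R) (span_gop ho hspan) D' (grAlg_sop ho' hB)
    (η := o x) (op_mem_sop.mpr hx0) (by rw [← ho, hx])
  have h := gd_retract (aop ho ho' ι) (span_gop ho hspan) (basic_sop ho hb) (grAlg_sop ho' hB)
    D'.inj P (η := o (ε b)) (op_mem_sop.mpr (hb.deg b)) (by rw [← ho, hb.idem])
  rw [UL_op ho ho' D hx, gd_sop] at h
  rw [h]
  refine Finset.sum_congr rfl fun d _ => ?_
  rw [SL_op ho ho' D hx, UL_op ho ho' D hx, gd_sop, gd_sop, cor2_sop ho, gd_sop, mul_comm]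

end compl

end Vale.P179.H300
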