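import Vale.Agent.P179.H300.Om

/-!
# The second order transfer

`A`, `B` are cocycles on the free group of rank two with values in the functions on `X`, whose
values at the commutator are `ρ + p n`, with `ρ` invariant.  An element of `El` is a mapping class
(an endomorphism of the free group, together with its action on `X`) which fixes the classes of
`A` and `B` modulo `p`.  The function `qq` is additive modulo `p ^ 2`.
-/

set_option linter.unusedSectionVars false

namespace P179H300

open Equiv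

variable {X R : Type*} [CommRing R] [Fintype X]

/-- The data which are fixed. -/
structure Dat (X R : Type*) [CommRing R] where
  /-- the weights -/
  e : X → R
  /-- first generator -/
  P : Perm X
  /-- second generator -/
  Q : Perm X
  /-- the modulus -/
  p : R
  /-- first cocycle -/
  A : Z X R
  /-- second cocycle -/
  B : Z X R
  /-- invariant part of the first cocycle at the commutator -/
  r1 : X → R
  /-- invariant part of the second cocycle at the commutator -/
  r2 : X → R
  /-- rest of the first cocycle at the commutator -/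
  n1 : X → R
  /-- rest of the second cocycle at the commutator -/
  n2 : X → R
  heP : ∀ x, e (P x) = e x
  heQ : ∀ x, e (Q x) = e x
  hA : ∀ x, ev P Q A gc x = r1 x + p * n1 x
  hB : ∀ x, ev P Q B gc x = r2 x + p * n2 x

variable (D : Dat X R)

/-- The commutator permutation. -/
def Dat.c : Perm X := rep D.P D.Q gc

/-- Mapping classes with lifts. -/
@[ext] structure El where
  /-- the endomorphism -/
  th : F2 →* F2
  /-- the permutation -/
  g : Perm X
  /-- first gauge function -/
  h1 : X → R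
  /-- second gauge function -/
  h2 : X → R
  /-- first defect -/
  k1 : Z X R
  /-- second defect -/
  k2 : Z X R

/-- The conditions on an element. -/
structure Good (D : Dat X R) (s : El (X := X) (R := R)) : Prop where
  compat : Compat D.P D.Q s.th s.g
  fix : s.th gc = gc
  he : ∀ x, D.e (s.g x) = D.e x
  hr1 : ∀ x, D.r1 (s.g x) = D.r1 x
  hr2 : ∀ x, D.r2 (s.g x) = D.r2 x
  hom : ∀ a b : Z X R, om D.e D.P D.Q (LL D.P D.Q s.th s.g a) (LL D.P D.Q s.th s.g b)
    = om D.e D.P D.Q a b
  e1 : LL D.P D.Q s.th s.g D.A = D.A + dd D.P D.Q s.h1 + D.p • s.k1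
  e2 : LL D.P D.Q s.th s.g D.B = D.B + dd D.P D.Q s.h2 + D.p • s.k2
  inv1 : ∀ x, s.h1 (D.c x) = s.h1 x

/-- Composition. -/
def El.mul (D : Dat X R) (s t : El (X := X) (R := R)) : El (X := X) (R := R) where
  th := s.th.comp t.th
  g := s.g * t.g
  h1 := fun x => s.h1 (t.g x) + t.h1 x
  h2 := fun x => s.h2 (t.g x) + t.h2 x
  k1 := LL D.P D.Q t.th t.g s.k1 + t.k1
  k2 := LL D.P D.Q t.th t.g s.k2 + t.k2

variable {D}

theorem Good.c_comm {s : El} (hs : Good D s) (x : X) : s.g (D.c x) = D.c (s.g x) := by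
  have := hs.compat.apply gc x
  rw [hs.fix] at this
  exact this.symm

theorem Good.mul {s t : El} (hs : Good D s) (ht : Good D t) : Good D (s.mul D t) where
  compat := hs.compat.comp ht.compat
  fix := by
    change s.th (t.th gc) = gc
    rw [ht.fix, hs.fix]
  he x := by
    change D.e (s.g (t.g x)) = _
    rw [hs.he, ht.he]
  hr1 x := by
    change D.r1 (s.g (t.g x)) = _
    rw [hs.hr1, ht.hr1]
  hr2 x := by
    change D.r2 (s.g (t.g x)) = _
    rw [hs.hr2, ht.hr2]
  hom a b := by
    change om D.e D.P D.Q (LL D.P D.Q (s.th.comp t.th) (s.g * t.g) a)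
      (LL D.P D.Q (s.th.comp t.th) (s.g * t.g) b) = _
    rw [← LL_comp hs.compat, ← LL_comp hs.compat, ht.hom, hs.hom]
  e1 := by
    change LL D.P D.Q (s.th.comp t.th) (s.g * t.g) D.A = _
    rw [← LL_comp hs.compat, hs.e1, LL_add, LL_add, LL_smul, ht.e1, LL_dd ht.compat]
    have h : dd D.P D.Q (s.mul D t).h1 = dd D.P D.Q (fun x => s.h1 (t.g x)) + dd D.P D.Q t.h1 := by
      rw [← dd_add]; rfl
    rw [h]
    change _ = _ + D.p • (LL D.P D.Q t.th t.g s.k1 + t.k1)
    rw [smul_add]
    abel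
  e2 := by
    change LL D.P D.Q (s.th.comp t.th) (s.g * t.g) D.B = _
    rw [← LL_comp hs.compat, hs.e2, LL_add, LL_add, LL_smul, ht.e2, LL_dd ht.compat]
    have h : dd D.P D.Q (s.mul D t).h2 = dd D.P D.Q (fun x => s.h2 (t.g x)) + dd D.P D.Q t.h2 := by
      rw [← dd_add]; rfl
    rw [h]
    change _ = _ + D.p • (LL D.P D.Q t.th t.g s.k2 + t.k2)
    rw [smul_add]
    abel
  inv1 x := by
    change s.h1 (t.g (D.c x)) + t.h1 (D.c x) = s.h1 (t.g x) + t.h1 x
    rw [ht.c_comm, hs.inv1, ht.inv1]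

/-- The second order transfer. -/
noncomputable def qq (D : Dat X R) (s : El (X := X) (R := R)) : R :=
  om D.e D.P D.Q D.A (LL D.P D.Q s.th s.g D.B - D.B)
    - D.p * (S D.e (fun x => s.h1 x * D.n2 (s.g x)) + S D.e (fun x => D.n1 x * s.h2 x))

theorem S_mul_add (e : X → R) (a b c : X → R) :
    S e (fun x => a x * (b x + c x)) = S e (fun x => a x * b x) + S e (fun x => a x * c x) := by
  rw [← S_add]
  exact S_congr e fun x => by simp only [Pi.add_apply]; ring

/-- Additivity of the second order transfer. -/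
theorem qq_mul {s t : El} (hs : Good D s) (ht : Good D t) :
    qq D (s.mul D t) = qq D s + qq D t
      - D.p ^ 2 * om D.e D.P D.Q t.k1 (LL D.P D.Q t.th t.g s.k2) := by
  -- the variation of `B` under `s`
  set G : Z X R := LL D.P D.Q s.th s.g D.B - D.B with hG
  have hG' : G = dd D.P D.Q s.h2 + D.p • s.k2 := by
    rw [hG, hs.e2]; abel
  have hGc : ∀ x, ev D.P D.Q G gc x = D.p * (D.n2 (s.g x) - D.n2 x) := by
    intro x
    rw [hG, ev_sub, Pi.sub_apply, ev_LL hs.compat, hs.fix, D.hB, D.hB, hs.hr2]; ring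
  have h1 : LL D.P D.Q (s.th.comp t.th) (s.g * t.g) D.B - D.B
      = LL D.P D.Q t.th t.g G + (LL D.P D.Q t.th t.g D.B - D.B) := by
    rw [← LL_comp hs.compat, hG, LL_sub]; abel
  -- `om A (L_t G)`
  have h2 : om D.e D.P D.Q D.A (LL D.P D.Q t.th t.g G)
      = om D.e D.P D.Q D.A G
        - om D.e D.P D.Q (dd D.P D.Q t.h1) (LL D.P D.Q t.th t.g G)
        - D.p * om D.e D.P D.Q t.k1 (LL D.P D.Q t.th t.g G) := by
    have h := ht.hom D.A G
    rw [ht.e1, om_add_left, om_add_left, om_smul_left] at h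
    rw [← h]; ring
  have h3 : om D.e D.P D.Q (dd D.P D.Q t.h1) (LL D.P D.Q t.th t.g G)
      = - (D.p * (S D.e (fun x => t.h1 x * D.n2 (s.g (t.g x)))
        - S D.e (fun x => t.h1 x * D.n2 (t.g x)))) := by
    rw [om_dd_left D.heP D.heQ]
    congr 1
    have : (fun x => t.h1 (rep D.P D.Q gc x) * ev D.P D.Q (LL D.P D.Q t.th t.g G) gc x)
        = fun x => D.p * (t.h1 x * D.n2 (s.g (t.g x))) + (- D.p) * (t.h1 x * D.n2 (t.g x)) := by
      funext x
      have h4 : t.h1 (rep D.P D.Q gc x) = t.h1 x := ht.inv1 x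
      rw [h4, ev_LL ht.compat, ht.fix, hGc]; ring
    rw [this]
    have h5 : (fun x => D.p * (t.h1 x * D.n2 (s.g (t.g x))) + (- D.p) * (t.h1 x * D.n2 (t.g x)))
        = D.p • (fun x => t.h1 x * D.n2 (s.g (t.g x)))
          + (- D.p) • (fun x => t.h1 x * D.n2 (t.g x)) := rfl
    rw [h5, S_add, S_smul, S_smul]; ring
  have h4 : D.p * om D.e D.P D.Q t.k1 (LL D.P D.Q t.th t.g G)
      = D.p * (S D.e (fun x => D.n1 x * s.h2 x) - S D.e (fun x => D.n1 x * s.h2 (t.g x)))
        + D.p ^ 2 * om D.e D.P D.Q t.k1 (LL D.P D.Q t.th t.g s.k2) := by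
    have e1 : LL D.P D.Q t.th t.g G
        = dd D.P D.Q (fun x => s.h2 (t.g x)) + D.p • LL D.P D.Q t.th t.g s.k2 := by
      rw [hG', LL_add, LL_smul, LL_dd ht.compat]
    rw [e1, om_add_right, om_smul_right, om_dd_right D.heP D.heQ]
    have e2 : D.p * S D.e (fun x => ev D.P D.Q t.k1 gc x * s.h2 (t.g x))
        = D.p * (S D.e (fun x => D.n1 (t.g x) * s.h2 (t.g x))
          - S D.e (fun x => D.n1 x * s.h2 (t.g x))) := by
      have e3 : ∀ x, D.p * ev D.P D.Q t.k1 gc x = D.p * (D.n1 (t.g x) - D.n1 x) := by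
        intro x
        have h := congrArg (fun a : Z X R => ev D.P D.Q a gc x) ht.e1
        simp only [ev_add, ev_smul, Pi.add_apply, Pi.smul_apply, smul_eq_mul, ev_dd] at h
        rw [ev_LL ht.compat, ht.fix, D.hA, D.hA, ht.hr1] at h
        have h6 : t.h1 (rep D.P D.Q gc x) = t.h1 x := ht.inv1 x
        rw [h6] at h
        linear_combination -h
      have e4 : S D.e (D.p • (fun x => ev D.P D.Q t.k1 gc x * s.h2 (t.g x)))
          = S D.e (D.p • (fun x => D.n1 (t.g x) * s.h2 (t.g x))
            + (- D.p) • (fun x => D.n1 x * s.h2 (t.g x))) := by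
        refine S_congr D.e fun x => ?_
        simp only [Pi.add_apply, Pi.smul_apply, smul_eq_mul]
        linear_combination (s.h2 (t.g x)) * e3 x
      rw [S_smul, S_add, S_smul, S_smul] at e4
      rw [e4]; ring
    have e5 : S D.e (fun x => D.n1 (t.g x) * s.h2 (t.g x)) = S D.e (fun x => D.n1 x * s.h2 x) :=
      S_comp ht.he (fun x => D.n1 x * s.h2 x)
    rw [mul_add, e2, e5]; ring
  have h5 : S D.e (fun x => (s.h1 (t.g x) + t.h1 x) * D.n2 (s.g (t.g x)))
      = S D.e (fun x => s.h1 x * D.n2 (s.g x)) + S D.e (fun x => t.h1 x * D.n2 (s.g (t.g x))) := by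
    rw [← S_comp ht.he (fun x => s.h1 x * D.n2 (s.g x)), ← S_add]
    exact S_congr D.e fun x => by simp only [Pi.add_apply]; ring
  unfold qq
  change om D.e D.P D.Q D.A (LL D.P D.Q (s.th.comp t.th) (s.g * t.g) D.B - D.B)
    - D.p * (S D.e (fun x => (s.h1 (t.g x) + t.h1 x) * D.n2 (s.g (t.g x)))
      + S D.e (fun x => D.n1 x * (s.h2 (t.g x) + t.h2 x))) = _
  rw [h1, om_add_right, h2, h3, h4, h5, S_mul_add]
  ring

end P179H300
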