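import Vale.Agent.P179.H300.Ten
import Vale.Agent.P179.H815.LL0
import Vale.Agent.P179.Rel.Defs

/-!
# The data of Lemma L for `B ⊗ Bᵐᵒᵖ` (A3R of REL)
-/

namespace Vale.P179.H300.LDi

open Module Vale.P179.H175 Vale.P179.Rel Vale.P179.H300.Ten P179H342
open scoped TensorProduct

section

variable {K A B Γ : Type} [Field K] [Ring A] [Algebra K A] [Ring B] [Algebra K B]
  [FiniteDimensional K B] [Group Γ] [Fintype Γ] {D1 D2 : Subgroup Γ} {t : Γ}

/-- the diagonal homomorphism `g ↦ g ⊗ g⁻¹` -/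
def dg {K B Γ : Type} [Field K] [Ring B] [Algebra K B] [Group Γ] (c : Γ →* B) :
    Γ →* (B ⊗[K] Bᵐᵒᵖ) where
  toFun g := c g ⊗ₜ[K] MulOpposite.op (c g⁻¹)
  map_one' := by rw [inv_one, map_one]; rfl
  map_mul' g h := by
    rw [Algebra.TensorProduct.tmul_mul_tmul, ← map_mul, ← MulOpposite.op_mul, ← map_mul,
      mul_inv_rev]

theorem dg_apply {K B Γ : Type} [Field K] [Ring B] [Algebra K B] [Group Γ] (c : Γ →* B) (g : Γ) :
    dg (K := K) c g = c g ⊗ₜ[K] MulOpposite.op (c g⁻¹) := rfl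

/-- the group elements in `B` -/
def cB (X : RKData K A B Γ D1 D2 t) : Γ →* B := (X.ι : A →* B).comp X.γ

omit [FiniteDimensional K B] in
theorem cB_apply (X : RKData K A B Γ D1 D2 t) (g : Γ) : cB X g = X.ι (X.γ g) := rfl

omit [FiniteDimensional K B] in
/-- elements of `⟨t⟩` have degree `0` -/
theorem deg_zpowers (X : RKData K A B Γ D1 D2 t) {W : ℚ → Submodule K B} (hW : H175.GrAlg W)
    (hWt : X.ι (X.γ t) ∈ W 0) {g : Γ} (hg : g ∈ Subgroup.zpowers t) : X.ι (X.γ g) ∈ W 0 := by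
  obtain ⟨i, rfl⟩ := (isOfFinOrder_of_finite t).mem_powers_iff_mem_zpowers.2 hg
  have h : ∀ i : ℕ, X.ι (X.γ (t ^ i)) ∈ W 0 := by
    intro i
    induction i with
    | zero => rw [pow_zero, map_one, map_one]; exact hW.one
    | succ i ih =>
      rw [pow_succ, map_mul, map_mul]
      have := hW.mul ih hWt
      rwa [add_zero] at this
  exact h i

/-- **The data of Lemma L for `B ⊗ Bᵐᵒᵖ`**, `P = D2` and `T = ⟨t⟩` acting diagonally. -/
noncomputable def ldat (X : RKData K A B Γ D1 D2 t) {W : ℚ → Submodule K B} (hW : H175.GrAlg W)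
    (hW2 : ∀ x ∈ D2, X.ι (X.γ x) ∈ W 0) (hWt : X.ι (X.γ t) ∈ W 0)
    {P T : Type} [CommGroup P] [CommGroup T] (iP : P →* Γ) (iT : T →* Γ)
    (hP : ∀ x, iP x ∈ D2) (hT : ∀ s, iT s ∈ Subgroup.zpowers t)
    (hT' : ∀ g ∈ Subgroup.zpowers t, ∃ s, iT s = g) (hinj : Function.Injective iP)
    (act : T →* MulAut P) (hact : ∀ s x, iP (act s x) = iT s * iP x * (iT s)⁻¹) :
    H815.LL.LDat K (B ⊗[K] Bᵐᵒᵖ) P T where
  W := WTop W
  gr := grAlg_WTop hW
  u := (dg (cB X)).comp iP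
  n := (dg (cB X)).comp iT
  act := act
  nu := fun s x => by
    rw [MonoidHom.comp_apply, MonoidHom.comp_apply, MonoidHom.comp_apply, ← map_mul, ← map_mul,
      hact, inv_mul_cancel_right]
  u0 := fun x => by
    have h1 : X.ι (X.γ (iP x)⁻¹) ∈ W 0 := hW2 _ (D2.inv_mem (hP x))
    have := tmul_op_mem (hW2 _ (hP x)) h1
    rwa [add_zero] at this
  n0 := fun s => by
    have h1 : X.ι (X.γ (iT s)⁻¹) ∈ W 0 := deg_zpowers X hW hWt (Subgroup.inv_mem _ (hT s))
    have := tmul_op_mem (deg_zpowers X hW hWt (hT s)) h1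
    rwa [add_zero] at this
  I := X.I × X.I
  fin := by
    have := X.fin
    infer_instance
  b := X.b.tensorProduct (X.b.map (MulOpposite.opLinearEquiv K))
  stab := by
    rintro x y ⟨i, j⟩
    obtain ⟨i', hi'⟩ := X.stab (iP x) (le_sup_right (a := D1) (hP x)) (iP y)
      (le_sup_right (a := D1) (hP y)) i
    obtain ⟨j', hj'⟩ := X.stab (iP y)⁻¹ (le_sup_right (a := D1) (D2.inv_mem (hP y))) (iP x)⁻¹
      (le_sup_right (a := D1) (D2.inv_mem (hP x))) j
    refine ⟨(i', j'), ?_⟩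
    rw [Basis.tensorProduct_apply, Basis.tensorProduct_apply, Basis.map_apply, Basis.map_apply,
      MonoidHom.comp_apply, MonoidHom.comp_apply, dg_apply, dg_apply, cB_apply, cB_apply, cB_apply,
      cB_apply, Algebra.TensorProduct.tmul_mul_tmul, Algebra.TensorProduct.tmul_mul_tmul,
      ← hi', ← hj']
    congr 1
    show MulOpposite.op (X.ι (X.γ (iP x)⁻¹)) * MulOpposite.op (X.b j) *
      MulOpposite.op (X.ι (X.γ (iP y)⁻¹)) = MulOpposite.op _
    rw [← MulOpposite.op_mul, ← MulOpposite.op_mul, mul_assoc]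
  tw := by
    rintro ⟨i, j⟩
    obtain ⟨l, hl⟩ := X.tw i
    obtain ⟨s, hs⟩ := hT' (t ^ l) (Subgroup.pow_mem _ (Subgroup.mem_zpowers t) l)
    refine ⟨s⁻¹, fun x y hxy => ?_⟩
    have hx := le_sup_right (a := D1) (hP x)
    have hy := le_sup_right (a := D1) (hP y)
    -- the first factor
    have h1 : X.ι (X.γ (iP x)) * X.b i = X.b i * X.ι (X.γ (iP y)) := by
      obtain ⟨i1, hi1⟩ := X.stab (iP x) hx 1 (one_mem _) i
      obtain ⟨i2, hi2⟩ := X.stab 1 (one_mem _) (iP y) hy i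
      obtain ⟨j1, hj1⟩ := X.stab 1 (one_mem _) (iP x)⁻¹ (inv_mem hx) j
      obtain ⟨j2, hj2⟩ := X.stab (iP y)⁻¹ (inv_mem hy) 1 (one_mem _) j
      rw [map_one, map_one, mul_one] at hi1 hj2
      rw [map_one, map_one, one_mul] at hi2 hj1
      rw [Basis.tensorProduct_apply, Basis.map_apply, MonoidHom.comp_apply, MonoidHom.comp_apply,
        dg_apply, dg_apply, cB_apply, cB_apply, cB_apply, cB_apply,
        Algebra.TensorProduct.tmul_mul_tmul, Algebra.TensorProduct.tmul_mul_tmul] at hxy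
      have e1 : MulOpposite.op (X.ι (X.γ (iP x)⁻¹)) * (MulOpposite.opLinearEquiv K) (X.b j)
          = (MulOpposite.opLinearEquiv K) (X.b j1) := by
        rw [← hj1]; rfl
      have e2 : (MulOpposite.opLinearEquiv K) (X.b j) * MulOpposite.op (X.ι (X.γ (iP y)⁻¹))
          = (MulOpposite.opLinearEquiv K) (X.b j2) := by
        rw [← hj2]; rfl
      rw [e1, e2, hi1, hi2, ← Basis.map_apply, ← Basis.map_apply, ← Basis.tensorProduct_apply,
        ← Basis.tensorProduct_apply] at hxy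
      have h2 : i1 = i2 := by
        have h3 : Function.Injective (X.b.tensorProduct (X.b.map (MulOpposite.opLinearEquiv K :
            B ≃ₗ[K] Bᵐᵒᵖ))) := by
          by_cases hB : Nontrivial K
          · exact Basis.injective _
          · exact absurd (inferInstance : Nontrivial K) hB
        exact congrArg Prod.fst (h3 hxy)
      rw [hi1, hi2, h2]
    have h2 := hl (iP x) hx (iP y) hy h1
    apply hinj
    rw [hact, h2, map_inv, hs, inv_inv]
    group

end

/-- **The data of Lemma L for `B ⊗ Bᵐᵒᵖ`**: existence of everything. -/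
theorem exists_ldat {p : ℕ} [Fact p.Prime] {K A B Γ : Type} [Field K] [CharP K p] [Ring A]
    [Algebra K A] [Ring B] [Algebra K B] [FiniteDimensional K B] [Group Γ] [Fintype Γ]
    {D1 D2 : Subgroup Γ} {t : Γ} {e : ℕ} [NeZero e] (hF : FreeCycR p Γ D1 D2 t e)
    (X : RKData K A B Γ D1 D2 t) {W : ℚ → Submodule K B} (hW : H175.GrAlg W)
    (hW2 : ∀ x ∈ D2, X.ι (X.γ x) ∈ W 0) (hWt : X.ι (X.γ t) ∈ W 0) :
    ∃ (P T : Type) (_ : CommGroup P) (_ : CommGroup T) (_ : Finite P) (_ : Finite T)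
      (iP : P →* Γ) (iT : T →* Γ) (d : H815.LL.LDat K (B ⊗[K] Bᵐᵒᵖ) P T),
      IsPGroup p P ∧ Nat.card T = e ∧ Function.Injective iP ∧ (∀ g, (∃ x, iP x = g) ↔ g ∈ D2) ∧
      (∀ g, (∃ x, iT x = g) ↔ g ∈ Subgroup.zpowers t) ∧ d.W = WTop W ∧
      d.u = (dg (cB X)).comp iP ∧ d.n = (dg (cB X)).comp iT := by
  have := hF.n2
  let _ : CommGroup D2 := { (inferInstance : Group D2) with
    mul_comm := fun x y => Subtype.ext (hF.comm x (le_sup_right (a := D1) x.2) y
      (le_sup_right (a := D1) y.2)) }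
  let _ : CommGroup (Subgroup.zpowers t) := { (inferInstance : Group (Subgroup.zpowers t)) with
    mul_comm := fun x y => by
      obtain ⟨x, i, rfl⟩ := x
      obtain ⟨y, j, rfl⟩ := y
      exact Subtype.ext ((zpow_mul_comm t i j)) }
  let act : Subgroup.zpowers t →* MulAut D2 :=
    (MulAut.conjNormal (H := D2)).comp (Subgroup.zpowers t).subtype
  have hact : ∀ (s : Subgroup.zpowers t) (x : D2), D2.subtype (act s x) =
      (Subgroup.zpowers t).subtype s * D2.subtype x * ((Subgroup.zpowers t).subtype s)⁻¹ :=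
    fun s x => MulAut.conjNormal_apply _ _
  refine ⟨D2, Subgroup.zpowers t, inferInstance, inferInstance, inferInstance, inferInstance,
    D2.subtype, (Subgroup.zpowers t).subtype,
    ldat X hW hW2 hWt D2.subtype (Subgroup.zpowers t).subtype (fun x => x.2) (fun s => s.2)
      (fun g hg => ⟨⟨g, hg⟩, rfl⟩) D2.subtype_injective act hact,
    hF.p2, ?_, D2.subtype_injective, fun g => ⟨?_, fun hg => ⟨⟨g, hg⟩, rfl⟩⟩,
    fun g => ⟨?_, fun hg => ⟨⟨g, hg⟩, rfl⟩⟩, rfl, rfl, rfl⟩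
  · rw [Nat.card_zpowers, hF.ord]
  · rintro ⟨x, rfl⟩
    exact x.2
  · rintro ⟨x, rfl⟩
    exact x.2

end Vale.P179.H300.LDi
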