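import Mathlib

/-!
# Module LL4 (Lemma L of REL): the idempotents of a finite abelian group of order prime to `p`
-/

namespace Vale.P179.H300.LL

variable {K L N : Type*} [Field K] [Ring L] [Algebra K L] [CommGroup N]

/-- the idempotent of the character `χ` -/
noncomputable def chi (n : N →* L) (χ : N →* Kˣ) : L :=
  (Nat.card N : K)⁻¹ • ∑ᶠ t : N, (χ t⁻¹ : K) • n t

theorem chi_eq [Fintype N] (n : N →* L) (χ : N →* Kˣ) :
    chi n χ = (Fintype.card N : K)⁻¹ • ∑ t : N, (χ t⁻¹ : K) • n t := by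
  rw [chi, finsum_eq_sum_of_fintype, Nat.card_eq_fintype_card]

/-- `n t * chi χ = χ(t) chi χ` -/
theorem mul_chi [Finite N] (n : N →* L) (χ : N →* Kˣ) (s : N) :
    n s * chi n χ = (χ s : K) • chi n χ := by
  classical
  have : Fintype N := Fintype.ofFinite N
  rw [chi_eq, mul_smul_comm, Finset.mul_sum, smul_comm (χ s : K)]
  congr 1
  rw [Finset.smul_sum]
  refine Fintype.sum_equiv (Equiv.mulLeft s) _ _ fun t => ?_
  rw [Equiv.coe_mulLeft, mul_smul_comm, ← map_mul, smul_smul, ← Units.val_mul, ← map_mul,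
    mul_inv, mul_inv_cancel_left]

theorem chi_mul [Finite N] (n : N →* L) (χ : N →* Kˣ) (s : N) :
    chi n χ * n s = (χ s : K) • chi n χ := by
  classical
  have : Fintype N := Fintype.ofFinite N
  rw [← mul_chi, chi_eq, mul_smul_comm, smul_mul_assoc, Finset.mul_sum, Finset.sum_mul]
  congr 1
  refine Finset.sum_congr rfl fun t _ => ?_
  rw [mul_smul_comm, smul_mul_assoc, ← map_mul, ← map_mul, mul_comm]

/-- the idempotents lie in the span of the group -/
theorem chi_mem_span [Finite N] (n : N →* L) (χ : N →* Kˣ) :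
    chi n χ ∈ Submodule.span K (Set.range n) := by
  classical
  have : Fintype N := Fintype.ofFinite N
  rw [chi_eq]
  exact Submodule.smul_mem _ _ (Submodule.sum_mem _ fun t _ =>
    Submodule.smul_mem _ _ (Submodule.subset_span ⟨t, rfl⟩))

/-- they lie in every submodule containing the group -/
theorem chi_mem [Finite N] (n : N →* L) (χ : N →* Kˣ) {W : Submodule K L} (hW : ∀ t, n t ∈ W) :
    chi n χ ∈ W := by
  have h : Submodule.span K (Set.range n) ≤ W := by
    rw [Submodule.span_le]
    rintro _ ⟨t, rfl⟩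
    exact hW t
  exact h (chi_mem_span n χ)

/-- an element commuting with the group commutes with its idempotents -/
theorem chi_comm [Finite N] (n : N →* L) (χ : N →* Kˣ) {x : L} (hx : ∀ t, x * n t = n t * x) :
    x * chi n χ = chi n χ * x := by
  classical
  have : Fintype N := Fintype.ofFinite N
  rw [chi_eq, mul_smul_comm, smul_mul_assoc, Finset.mul_sum, Finset.sum_mul]
  congr 1
  exact Finset.sum_congr rfl fun t _ => by rw [mul_smul_comm, smul_mul_assoc, hx]

/-- `chi χ * chi χ = chi χ` -/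
theorem chi_idem [Finite N] (hN : ((Nat.card N : ℕ) : K) ≠ 0) (n : N →* L) (χ : N →* Kˣ) :
    chi n χ * chi n χ = chi n χ := by
  classical
  have : Fintype N := Fintype.ofFinite N
  have hN' : (Fintype.card N : K) ≠ 0 := by rwa [← Nat.card_eq_fintype_card]
  conv_lhs => rw [chi_eq n χ]
  rw [smul_mul_assoc, ← chi_eq, Finset.sum_mul]
  have h1 : ∀ t : N, ((χ t⁻¹ : K) • n t) * chi n χ = chi n χ := by
    intro t
    rw [smul_mul_assoc, mul_chi, smul_smul, ← Units.val_mul, ← map_mul, inv_mul_cancel, map_one,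
      Units.val_one, one_smul]
  rw [Finset.sum_congr rfl fun t _ => h1 t, Finset.sum_const, Finset.card_univ,
    ← Nat.cast_smul_eq_nsmul K, smul_smul, inv_mul_cancel₀ hN', one_smul]

/-- different characters give orthogonal idempotents -/
theorem chi_orth [Finite N] (n : N →* L) {χ ψ : N →* Kˣ} (h : χ ≠ ψ) : chi n χ * chi n ψ = 0 := by
  obtain ⟨s, hs⟩ : ∃ s, χ s ≠ ψ s := by
    by_contra hcon
    push Not at hcon
    exact h (MonoidHom.ext hcon)
  have h1 : (χ s : K) • (chi n χ * chi n ψ) = (ψ s : K) • (chi n χ * chi n ψ) := by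
    rw [← smul_mul_assoc, ← chi_mul, mul_assoc, mul_chi, mul_smul_comm]
  rw [← sub_eq_zero, ← sub_smul, smul_eq_zero] at h1
  refine h1.resolve_left fun h2 => hs ?_
  rw [sub_eq_zero] at h2
  exact Units.ext h2

instance finite_hom (K N : Type*) [Field K] [CommGroup N] [Finite N] : Finite (N →* Kˣ) :=
  inferInstance

/-- the idempotents of all characters have sum `1` -/
theorem sum_chi [IsAlgClosed K] [Finite N] (hN : ((Nat.card N : ℕ) : K) ≠ 0) (n : N →* L) :
    ∑ᶠ χ : N →* Kˣ, chi n χ = 1 := by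
  classical
  have : Fintype N := Fintype.ofFinite N
  have : Fintype (N →* Kˣ) := Fintype.ofFinite _
  have hN' : (Fintype.card N : K) ≠ 0 := by rwa [← Nat.card_eq_fintype_card]
  have hex : NeZero ((Monoid.exponent N : ℕ) : K) := ⟨fun h => hN' (by
    obtain ⟨c, hc⟩ := Group.exponent_dvd_card (G := N)
    rw [hc, Nat.cast_mul, h, zero_mul])⟩
  rw [finsum_eq_sum_of_fintype]
  simp only [chi_eq]
  rw [← Finset.smul_sum, Finset.sum_comm]
  have h1 : ∀ t : N, ∑ χ : N →* Kˣ, (χ t⁻¹ : K) • n t
      = if t = 1 then (Fintype.card N : K) • (1 : L) else 0 := by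
    intro t
    let ev : (N →* Kˣ) →* K :=
      { toFun := fun χ => (χ t⁻¹ : K)
        map_one' := by simp
        map_mul' := fun a b => by rw [MonoidHom.mul_apply, Units.val_mul] }
    have h2 : ∑ χ : N →* Kˣ, (χ t⁻¹ : K) • n t = (∑ χ : N →* Kˣ, ev χ) • n t := by
      rw [Finset.sum_smul]
      rfl
    rw [h2, sum_hom_units]
    by_cases ht : t = 1
    · subst ht
      have h3 : ev = 1 := by
        ext χ
        show (χ 1⁻¹ : K) = 1
        simp
      rw [if_pos h3, if_pos rfl, map_one, ← Nat.card_eq_fintype_card,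
        CommGroup.card_monoidHom_of_hasEnoughRootsOfUnity, Nat.card_eq_fintype_card]
    · have h3 : ev ≠ 1 := by
        obtain ⟨φ, hφ⟩ := CommGroup.exists_apply_ne_one_of_hasEnoughRootsOfUnity N K ht
        intro h
        apply hφ
        have h4 : (φ t⁻¹ : K) = 1 := congrArg (fun f => f φ) h
        rw [map_inv, Units.val_eq_one, inv_eq_one] at h4
        exact h4
      rw [if_neg h3, if_neg ht, Nat.cast_zero, zero_smul]
  rw [Finset.sum_congr rfl fun t _ => h1 t, Finset.sum_ite_eq' Finset.univ,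
    if_pos (Finset.mem_univ _), smul_smul, inv_mul_cancel₀ hN', one_smul]

/-- `chi x chi = (average of x) chi` -/
theorem chi_mul_chi [Finite N] (n : N →* L) (χ : N →* Kˣ) (x : L) :
    chi n χ * x * chi n χ = ((Nat.card N : K)⁻¹ • ∑ᶠ t : N, n t * x * n t⁻¹) * chi n χ := by
  classical
  have : Fintype N := Fintype.ofFinite N
  rw [finsum_eq_sum_of_fintype, Nat.card_eq_fintype_card]
  conv_lhs => rw [chi_eq n χ]
  rw [smul_mul_assoc, smul_mul_assoc, ← chi_eq, smul_mul_assoc, Finset.sum_mul, Finset.sum_mul,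
    Finset.sum_mul]
  congr 1
  refine Finset.sum_congr rfl fun t _ => ?_
  rw [mul_assoc (n t * x), mul_chi, smul_mul_assoc, smul_mul_assoc, mul_smul_comm]

/-- the average commutes with the group -/
theorem avg_comm [Finite N] (n : N →* L) (x : L) (s : N) :
    n s * ((Nat.card N : K)⁻¹ • ∑ᶠ t : N, n t * x * n t⁻¹)
      = ((Nat.card N : K)⁻¹ • ∑ᶠ t : N, n t * x * n t⁻¹) * n s := by
  classical
  have : Fintype N := Fintype.ofFinite N
  rw [finsum_eq_sum_of_fintype, mul_smul_comm, smul_mul_assoc, Finset.mul_sum, Finset.sum_mul]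
  congr 1
  refine Fintype.sum_equiv (Equiv.mulLeft s) _ _ fun t => ?_
  rw [Equiv.coe_mulLeft, mul_inv_rev, map_mul, map_mul, mul_assoc (n s * n t * x), mul_assoc (n t⁻¹),
    ← map_mul n s⁻¹ s, inv_mul_cancel, map_one, mul_one]
  simp only [mul_assoc]

end Vale.P179.H300.LL
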