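import Vale.Agent.P179.H300.Coc

/-!
# Invariance of the pairing
-/

set_option linter.unusedSectionVars false

namespace P179H300

open Equiv

variable {X R : Type*} [CommRing R] [Fintype X] {e : X → R} {P Q : Perm X}

theorem S_eq_of (hP : ∀ x, e (P x) = e x) (hQ : ∀ x, e (Q x) = e x) {F G u v : X → R}
    (h : ∀ x, F x = G x + (u (P x) - u x) + (v (Q x) - v x)) : S e F = S e G := by
  have h1 : S e F = S e (G + ((fun x => u (P x)) + (-1 : R) • u)
      + ((fun x => v (Q x)) + (-1 : R) • v)) :=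
    S_congr e fun x => by
      simp only [Pi.add_apply, Pi.smul_apply, smul_eq_mul]
      rw [h x]; ring
  rw [h1, S_add, S_add, S_add, S_add, S_smul, S_smul, S_comp hP, S_comp hQ]
  ring

/-- The value at the commutator. -/
theorem ev_c (a : Z X R) (x : X) :
    ev P Q a gc (Q (P x)) = a.1 (Q x) + a.2 x - a.2 (P x) - a.1 x := by
  have h0 : gc * (gQ * gP) = gP * gQ := by simp only [gc]; group
  have h1 : ev P Q a (gc * (gQ * gP)) x = ev P Q a (gP * gQ) x := by rw [h0]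
  rw [ev_mul, ev_mul, ev_mul, map_mul] at h1
  simp only [rep_P, rep_Q, ev_P, ev_Q, Perm.coe_mul, Function.comp_apply] at h1
  linear_combination h1

theorem rep_c (x : X) : rep P Q gc (Q (P x)) = P (Q x) := by
  have h0 : gc * (gQ * gP) = gP * gQ := by simp only [gc]; group
  have h1 : rep P Q (gc * (gQ * gP)) x = rep P Q (gP * gQ) x := by rw [h0]
  simpa using h1

theorem om_dd_right (hP : ∀ x, e (P x) = e x) (hQ : ∀ x, e (Q x) = e x) (a : Z X R)
    (m : X → R) : om e P Q a (dd P Q m) = S e (fun x => ev P Q a gc x * m x) := by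
  have h0 : S e (fun x => ev P Q a gc x * m x)
      = S e (fun x => (a.1 (Q x) + a.2 x - a.2 (P x) - a.1 x) * m (Q (P x))) := by
    have h1 : ∀ x, e ((Q * P) x) = e x := fun x => by
      rw [Perm.mul_apply, hQ, hP]
    rw [← S_comp h1]
    exact S_congr e fun x => by rw [Perm.mul_apply, ev_c]
  rw [h0]
  unfold om
  refine S_eq_of hP hQ (u := fun x => a.2 x * m x) (v := fun x => - (a.1 x * m x)) fun x => ?_
  simp only [dd]; ring

theorem om_dd_left (hP : ∀ x, e (P x) = e x) (hQ : ∀ x, e (Q x) = e x) (b : Z X R)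
    (m : X → R) : om e P Q (dd P Q m) b
      = - S e (fun x => m (rep P Q gc x) * ev P Q b gc x) := by
  have h0 : S e (fun x => m (rep P Q gc x) * ev P Q b gc x)
      = S e (fun x => m (P (Q x)) * (b.1 (Q x) + b.2 x - b.2 (P x) - b.1 x)) := by
    have h1 : ∀ x, e ((Q * P) x) = e x := fun x => by
      rw [Perm.mul_apply, hQ, hP]
    rw [← S_comp h1]
    exact S_congr e fun x => by rw [Perm.mul_apply, ev_c, rep_c]
  rw [h0]
  have h2 : - S e (fun x => m (P (Q x)) * (b.1 (Q x) + b.2 x - b.2 (P x) - b.1 x))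
      = S e ((-1 : R) • (fun x => m (P (Q x)) * (b.1 (Q x) + b.2 x - b.2 (P x) - b.1 x))) := by
    rw [S_smul]; ring
  rw [h2]
  unfold om
  refine S_eq_of hP hQ (u := fun x => - (m (Q x) * b.2 x)) (v := fun x => m (P x) * b.1 x)
    fun x => ?_
  simp only [dd, Pi.smul_apply, smul_eq_mul]; ring

theorem compat1 {s : Perm X} (h1 : s * P = P * Q * s) (h2 : s * Q = Q * s) :
    Compat P Q th1 s := by
  refine compat_of ?_ ?_
  · rw [h1]; simp
  · rw [h2]; simp

theorem compat2 {t : Perm X} (h1 : t * P = P * Q * P * t) (h2 : t * Q = P⁻¹ * t) :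
    Compat P Q th2 t := by
  refine compat_of ?_ ?_
  · rw [h1]; simp
  · rw [h2]; simp

theorem om_th1 (hP : ∀ x, e (P x) = e x) (hQ : ∀ x, e (Q x) = e x) {s : Perm X}
    (hs : ∀ x, e (s x) = e x) (h1 : s * P = P * Q * s) (h2 : s * Q = Q * s) (a b : Z X R) :
    om e P Q (LL P Q th1 s a) (LL P Q th1 s b) = om e P Q a b := by
  have e1 : ∀ x, s (P x) = P (Q (s x)) := fun x => congrArg (fun g : Perm X => g x) h1
  have e2 : ∀ x, s (Q x) = Q (s x) := fun x => congrArg (fun g : Perm X => g x) h2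
  have k1 : ∀ (a : Z X R) x, (LL P Q th1 s a).1 x = a.1 (Q (s x)) + a.2 (s x) := fun a x => by
    simp [LL, ev_mul]
  have k2 : ∀ (a : Z X R) x, (LL P Q th1 s a).2 x = a.2 (s x) := fun a x => by
    simp [LL]
  have h3 : om e P Q (LL P Q th1 s a) (LL P Q th1 s b)
      = S e (fun y => ((a.1 (Q (Q y)) + a.2 (Q y)) + a.2 y - a.2 (P (Q y))
        - (a.1 (Q y) + a.2 y)) * (b.2 (P (Q y)) + (b.1 (Q y) + b.2 y))
        + a.2 (P (Q y)) * (b.1 (Q y) + b.2 y) - (a.1 (Q (Q y)) + a.2 (Q y)) * b.2 y) := by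
    unfold om
    refine S_comp' hs fun x => ?_
    simp only [k1, k2, e1, e2]
  rw [h3]
  unfold om
  refine S_eq_of hP hQ (u := fun _ => 0)
    (v := fun x => (a.1 (Q x) + a.2 x - a.2 (P x) - a.1 x) * (b.2 (P x) + b.1 x)
      + a.2 (P x) * b.1 x) fun x => ?_
  ring

theorem om_th2 (hP : ∀ x, e (P x) = e x) (hQ : ∀ x, e (Q x) = e x) {t : Perm X}
    (ht : ∀ x, e (t x) = e x) (h1 : t * P = P * Q * P * t) (h2 : t * Q = P⁻¹ * t) (a b : Z X R) :
    om e P Q (LL P Q th2 t a) (LL P Q th2 t b) = om e P Q a b := by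
  have e1 : ∀ x, t (P x) = P (Q (P (t x))) := fun x => congrArg (fun g : Perm X => g x) h1
  have e2 : ∀ x, t (Q x) = P⁻¹ (t x) := fun x => congrArg (fun g : Perm X => g x) h2
  have k1 : ∀ (a : Z X R) x, (LL P Q th2 t a).1 x
      = a.1 (Q (P (t x))) + a.2 (P (t x)) + a.1 (t x) := fun a x => by
    simp [LL, ev_mul]
  have k2 : ∀ (a : Z X R) x, (LL P Q th2 t a).2 x = - a.1 (P⁻¹ (t x)) := fun a x => by
    simp [LL, ev_inv]
  have e3 : ∀ x, P (P⁻¹ x) = x := fun x => by simp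
  have e4 : ∀ x, P⁻¹ (P x) = x := fun x => by simp
  have h3 : om e P Q (LL P Q th2 t a) (LL P Q th2 t b)
      = S e (fun y => (a.1 (Q y) + a.2 y - a.2 (P y) - a.1 y)
        * (b.2 (P y) + b.1 y) + (- a.1 (Q (P y))) * (b.1 (Q (P y)) + b.2 (P y) + b.1 y)
        - (a.1 (Q y) + a.2 y + a.1 (P⁻¹ y)) * (- b.1 (P⁻¹ y))) := by
    unfold om
    refine S_comp' ht fun x => ?_
    simp only [k1, k2, e1, e2, e3, e4]
    ring
  rw [h3]
  unfold om
  refine S_eq_of hP hQ
    (u := fun y => - (a.1 (Q y) * b.1 (Q y)) - a.1 (P⁻¹ y) * b.1 (P⁻¹ y) - a.1 (Q y) * b.2 y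
      - a.1 (Q y) * b.1 (P⁻¹ y) - a.2 y * b.1 (P⁻¹ y))
    (v := fun y => - (a.1 y * b.1 y)) fun y => ?_
  simp only [e4]
  ring

end P179H300
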