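import Vale.Agent.P179.H843.BB0

/-!
# REL, module A3R, piece P1: the gradings of `Hom_K(B, X)` and `Hom_K(B E, X)`
-/

namespace Vale.P179.H300.P1

open Module Vale.P179.H175 Vale.P179.H300.Ten Vale.P179.H843.BB Vale.P179.H815.Co
open scoped TensorProduct

section triv

variable (K : Type*) [Field K]

/-- the trivial grading of the field -/
def Wt (r : ℚ) : Submodule K K := if r = 0 then ⊤ else ⊥

theorem internal_Wt : DirectSum.IsInternal (Wt K) := by
  classical
  refine isInternal_of ?_ ?_
  · intro x
    refine Submodule.mem_iSup_of_mem 0 ?_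
    rw [Wt, if_pos rfl]
    trivial
  · intro S v hv hsum r hr
    by_cases h : r = 0
    · subst h
      rw [Finset.sum_eq_single 0] at hsum
      · exact hsum
      · intro r' hr' hne
        have := hv r' hr'
        rw [Wt, if_neg hne, Submodule.mem_bot] at this
        exact this
      · exact fun h => absurd hr h
    · have := hv r hr
      rw [Wt, if_neg h, Submodule.mem_bot] at this
      exact this

end triv

variable {K B X : Type} [Field K] [Ring B] [Algebra K B] [FiniteDimensional K B]
  [AddCommGroup X] [Module K X] [Module B X] [IsScalarTower K B X] [FiniteDimensional K X]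
  {W : ℚ → Submodule K B} {V : ℚ → Submodule K X}

/-- the grading of `Hom_K(B, X)` -/
theorem grMod_VH (hW : H175.GrAlg W) (hV : GrMod W V) :
    GrMod W (VH W V : ℚ → Submodule K (HX K B X)) := by
  refine grMod_VC hW hV (WH := Wt K) (internal_Wt K) ?_
  intro r c hc
  by_cases h : r = 0
  · subst h
    rw [Algebra.ofId_apply, Algebra.algebraMap_eq_smul_one]
    exact Submodule.smul_mem _ _ hW.one
  · rw [Wt, if_neg h, Submodule.mem_bot] at hc
    rw [hc, map_zero]
    exact Submodule.zero_mem _

/-- the grading of `Hom_K(B E, X)` -/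
theorem grMod_VF (hW : H175.GrAlg W) (hV : GrMod W V) {E : B} (hE : E ∈ W 0) :
    GrMod (WTop W) (VF W V E : ℚ → Submodule K (FM K B X E)) where
  int := by
    classical
    have hH := grMod_VH (X := X) hW hV
    have hcomp : ∀ (f : FM K B X E) (r : ℚ), E • cpt (VH W V) r (FM.val K B X E f)
        = cpt (VH W V) r (FM.val K B X E f) := by
      intro f r
      have h1 := Vale.P179.H815.Co.cpt_smul hH hE (r := 0) (s := r) (FM.val K B X E f)
      rw [zero_add] at h1
      have h2 : E • FM.val K B X E f = FM.val K B X E f := f.2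
      rw [h2] at h1
      exact h1.symm
    refine isInternal_of ?_ ?_
    · intro f
      obtain ⟨S, -, hS⟩ := H175.sum_cpt_finsupp hH.int (FM.val K B X E f)
      let g : ℚ → FM K B X E := fun r => ⟨cpt (VH W V) r (FM.val K B X E f), hcomp f r⟩
      have h1 : f = ∑ r ∈ S, g r := by
        apply FM.val_inj
        rw [map_sum]
        exact hS.symm
      rw [h1]
      exact Submodule.sum_mem _ fun r _ => Submodule.mem_iSup_of_mem r (H175.cpt_mem hH.int _ _)
    · intro S v hv hsum r hr
      apply FM.val_inj
      rw [map_zero]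
      have h1 : ∑ r ∈ S, FM.val K B X E (v r) = 0 := by rw [← map_sum, hsum, map_zero]
      have h2 := H175.cpt_unique hH.int S (fun r => FM.val K B X E (v r)) hv (r := r)
      rw [h1, map_zero, if_pos hr] at h2
      exact h2.symm
  smul := by
    intro r s z f hz hf
    refine WT_induction (p := fun z => z • f ∈ VF W V E (r + s)) ?_ ?_ ?_ ?_ hz
    · have h0 : (0 : Bop K B) • f = 0 := zero_smul (Bop K B) f
      show (0 : Bop K B) • f ∈ _
      rw [h0]
      exact Submodule.zero_mem _
    · intro a b hab x hx y hy q m hm
      have e1 : (x ⊗ₜ[K] y : Bop K B) = mk K x y.unop := rfl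
      show (FM.val K B X E ((x ⊗ₜ[K] y : Bop K B) • f)) m ∈ _
      rw [e1, FM.mk_smul]
      have h1 := hW.mul (mem_Wop.1 hy) hm
      have h2 := hV.smul hx (hf _ _ h1)
      have h3 : a + (b + q + s) = q + (r + s) := by rw [← hab]; ring
      rwa [h3] at h2
    · intro z w hz hw
      show ((z + w : Bop K B)) • f ∈ _
      rw [add_smul]
      exact Submodule.add_mem _ hz hw
    · intro c z hz
      show ((c • z : Bop K B)) • f ∈ _
      rw [smul_assoc]
      exact Submodule.smul_mem _ _ hz

end Vale.P179.H300.P1
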