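import Vale.Agent.P179.H300.Ten
import Vale.Agent.P179.H815.Num1

/-!
# REL, module A3R, piece P6: a homogeneous separability element of degree `0`
-/

namespace Vale.P179.H300.P6

open Module Vale.P179.H175 Vale.P179.H300.Ten
open scoped TensorProduct

section shift

variable {K X Y : Type*} [Field K] [AddCommGroup X] [Module K X] [AddCommGroup Y] [Module K Y]
  {V : ℚ → Submodule K X} {V' : ℚ → Submodule K Y}

/-- a linear map of degree `d` shifts the components -/
theorem cpt_shift (hV : DirectSum.IsInternal V) (hV' : DirectSum.IsInternal V')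
    (T : X →ₗ[K] Y) {d : ℚ} (hT : ∀ r, ∀ x ∈ V r, T x ∈ V' (r + d)) (r : ℚ) (x : X) :
    cpt V' (r + d) (T x) = T (cpt V r x) := by
  refine H815.induction_gr hV (P := fun x => cpt V' (r + d) (T x) = T (cpt V r x)) ?_ ?_ x
  · intro s x hx
    by_cases h : s = r
    · subst h
      rw [H175.cpt_of_mem hV hx, H175.cpt_of_mem hV' (hT _ _ hx)]
    · rw [H175.cpt_of_mem_ne hV hx h, H175.cpt_of_mem_ne hV' (hT _ _ hx)
        (fun h' => h (add_right_cancel h')), map_zero]
  · intro x y hx hy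
    rw [map_add, map_add, hx, hy, map_add, map_add]

end shift

variable {K A B : Type*} [Field K] [Ring A] [Algebra K A] [Ring B] [Algebra K B]
  [FiniteDimensional K B] {ι : A →ₐ[K] B} {W : ℚ → Submodule K B} {WA : ℚ → Submodule K A}

/-- the relators of `B ⊗_A B` -/
def bal (ι : A →ₐ[K] B) : Submodule K (B ⊗[K] B) :=
  Submodule.span K {z : B ⊗[K] B | ∃ (x y : B) (h : A), z = (x * ι h) ⊗ₜ[K] y - x ⊗ₜ[K] (ι h * y)}

omit [FiniteDimensional K B] in
theorem gen_mem (x y : B) (h : A) : (x * ι h) ⊗ₜ[K] y - x ⊗ₜ[K] (ι h * y) ∈ bal ι :=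
  Submodule.subset_span ⟨x, y, h, rfl⟩

/-- the relators are homogeneous -/
theorem homog_bal (hW : H175.GrAlg W) (hA : DirectSum.IsInternal WA)
    (hι : ∀ r : ℚ, ∀ h ∈ WA r, ι h ∈ W r) {z : B ⊗[K] B} (hz : z ∈ bal ι) (r : ℚ) :
    cpt (WT W W) r z ∈ bal ι := by
  have hT := internal_WT hW.int hW.int
  unfold bal at hz
  induction hz using Submodule.span_induction with
  | mem z hz =>
    obtain ⟨x, y, h, rfl⟩ := hz
    refine H815.induction_gr hW.int (P := fun x => cpt (WT W W) r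
      ((x * ι h) ⊗ₜ[K] y - x ⊗ₜ[K] (ι h * y)) ∈ bal ι) ?_ ?_ x
    · intro a x hx
      refine H815.induction_gr hW.int (P := fun y => cpt (WT W W) r
        ((x * ι h) ⊗ₜ[K] y - x ⊗ₜ[K] (ι h * y)) ∈ bal ι) ?_ ?_ y
      · intro c y hy
        refine H815.induction_gr hA (P := fun h => cpt (WT W W) r
          ((x * ι h) ⊗ₜ[K] y - x ⊗ₜ[K] (ι h * y)) ∈ bal ι) ?_ ?_ h
        · intro b h hh
          have h1 : (x * ι h) ⊗ₜ[K] y - x ⊗ₜ[K] (ι h * y) ∈ WT W W (a + b + c) :=
            Submodule.sub_mem _ (tmul_mem (hW.mul hx (hι _ _ hh)) hy)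
              (tmul_mem' hx (hW.mul (hι _ _ hh) hy) (by ring))
          by_cases hr : a + b + c = r
          · subst hr
            rw [H175.cpt_of_mem hT h1]
            exact gen_mem x y h
          · rw [H175.cpt_of_mem_ne hT h1 hr]
            exact Submodule.zero_mem _
        · intro h h' e e'
          have h1 : (x * ι (h + h')) ⊗ₜ[K] y - x ⊗ₜ[K] (ι (h + h') * y)
              = ((x * ι h) ⊗ₜ[K] y - x ⊗ₜ[K] (ι h * y))
                + ((x * ι h') ⊗ₜ[K] y - x ⊗ₜ[K] (ι h' * y)) := by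
            rw [map_add, mul_add, add_mul, TensorProduct.add_tmul, TensorProduct.tmul_add]
            abel
          rw [h1, map_add]
          exact Submodule.add_mem _ e e'
      · intro y y' e e'
        have h1 : (x * ι h) ⊗ₜ[K] (y + y') - x ⊗ₜ[K] (ι h * (y + y'))
            = ((x * ι h) ⊗ₜ[K] y - x ⊗ₜ[K] (ι h * y))
              + ((x * ι h) ⊗ₜ[K] y' - x ⊗ₜ[K] (ι h * y')) := by
          rw [mul_add, TensorProduct.tmul_add, TensorProduct.tmul_add]
          abel
        rw [h1, map_add]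
        exact Submodule.add_mem _ e e'
    · intro x x' e e'
      have h1 : ((x + x') * ι h) ⊗ₜ[K] y - (x + x') ⊗ₜ[K] (ι h * y)
          = ((x * ι h) ⊗ₜ[K] y - x ⊗ₜ[K] (ι h * y))
            + ((x' * ι h) ⊗ₜ[K] y - x' ⊗ₜ[K] (ι h * y)) := by
        rw [add_mul, TensorProduct.add_tmul, TensorProduct.add_tmul]
        abel
      rw [h1, map_add]
      exact Submodule.add_mem _ e e'
  | zero => rw [map_zero]; exact Submodule.zero_mem _
  | add z w _ _ hz hw => rw [map_add]; exact Submodule.add_mem _ hz hw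
  | smul c z _ hz => rw [map_smul]; exact Submodule.smul_mem _ _ hz

/-- **P6**: a homogeneous separability element of degree `0` -/
theorem p6 (hW : H175.GrAlg W) (hA : DirectSum.IsInternal WA)
    (hι : ∀ r : ℚ, ∀ h ∈ WA r, ι h ∈ W r) {m : ℕ} (s r : Fin m → B) (hst : ∑ i, s i * r i = 1)
    (hsep : ∀ v : B, (∑ i, (v * s i) ⊗ₜ[K] r i) - (∑ i, s i ⊗ₜ[K] (r i * v)) ∈
      Submodule.span K {z : B ⊗[K] B | ∃ (x y : B) (h : A),
        z = (x * ι h) ⊗ₜ[K] y - x ⊗ₜ[K] (ι h * y)}) :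
    ∃ (m' : ℕ) (s' r' : Fin m' → B) (σ : Fin m' → ℚ), (∀ i, s' i ∈ W (σ i)) ∧
      (∀ i, r' i ∈ W (-σ i)) ∧ ∑ i, s' i * r' i = 1 ∧
      ∀ v : B, (∑ i, (v * s' i) ⊗ₜ[K] r' i) - (∑ i, s' i ⊗ₜ[K] (r' i * v)) ∈
        Submodule.span K {z : B ⊗[K] B | ∃ (x y : B) (h : A),
          z = (x * ι h) ⊗ₜ[K] y - x ⊗ₜ[K] (ι h * y)} := by
  classical
  have hT := internal_WT hW.int hW.int
  let L := Fin m × ↥(H175.sup hW.int)
  let S : L → B := fun l => cpt W l.2 (s l.1)
  let R : L → B := fun l => cpt W (-l.2) (r l.1)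
  let sg : L → ℚ := fun l => l.2
  let q : L ≃ Fin (Fintype.card L) := Fintype.equivFin L
  -- the tensor
  have hz0 : ∀ i, cpt (WT W W) 0 (s i ⊗ₜ[K] r i)
      = ∑ t : ↥(H175.sup hW.int), S (i, t) ⊗ₜ[K] R (i, t) := by
    intro i
    rw [cpt_WT_tmul hW.int hW.int, ← Finset.sum_coe_sort]
    exact Finset.sum_congr rfl fun t _ => by rw [zero_sub]
  have hz1 : cpt (WT W W) 0 (∑ i, s i ⊗ₜ[K] r i) = ∑ l, S l ⊗ₜ[K] R l := by
    rw [map_sum, Fintype.sum_prod_type]
    exact Finset.sum_congr rfl fun i _ => hz0 i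
  refine ⟨Fintype.card L, fun i => S (q.symm i), fun i => R (q.symm i), fun i => sg (q.symm i),
    fun i => cpt_mem hW.int _ _, fun i => cpt_mem hW.int _ _, ?_, ?_⟩
  · rw [Equiv.sum_comp q.symm fun l => S l * R l]
    let μ : B ⊗[K] B →ₗ[K] B := LinearMap.mul' K B
    have h1 : μ (∑ l, S l ⊗ₜ[K] R l) = ∑ l, S l * R l := by
      rw [map_sum]
      exact Finset.sum_congr rfl fun l _ => LinearMap.mul'_apply
    have h2 : μ (∑ i, s i ⊗ₜ[K] r i) = 1 := by
      rw [map_sum, ← hst]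
      exact Finset.sum_congr rfl fun l _ => LinearMap.mul'_apply
    have h3 : ∀ t, ∀ z ∈ WT W W t, μ z ∈ W (t + 0) := by
      intro t z hz
      rw [add_zero]
      refine WT_induction (p := fun z => μ z ∈ W t) ?_ ?_ ?_ ?_ hz
      · rw [map_zero]; exact Submodule.zero_mem _
      · intro a b hab x hx y hy
        rw [LinearMap.mul'_apply, ← hab]
        exact hW.mul hx hy
      · intro z w h h'
        rw [map_add]
        exact Submodule.add_mem _ h h'
      · intro c z h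
        rw [map_smul]
        exact Submodule.smul_mem _ _ h
    have h4 := cpt_shift hT hW.int μ h3 0 (∑ i, s i ⊗ₜ[K] r i)
    rw [hz1, h1, h2, add_zero, H175.cpt_of_mem hW.int hW.one] at h4
    exact h4.symm
  · intro v
    rw [Equiv.sum_comp q.symm fun l => (v * S l) ⊗ₜ[K] R l,
      Equiv.sum_comp q.symm fun l => S l ⊗ₜ[K] (R l * v)]
    refine H815.induction_gr hW.int (P := fun v => (∑ l, (v * S l) ⊗ₜ[K] R l) -
      (∑ l, S l ⊗ₜ[K] (R l * v)) ∈ bal ι) ?_ ?_ v
    · intro d v hv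
      let T : B ⊗[K] B →ₗ[K] B ⊗[K] B :=
        TensorProduct.map (LinearMap.mulLeft K v) LinearMap.id -
          TensorProduct.map LinearMap.id (LinearMap.mulRight K v)
      have hTa : ∀ x y, T (x ⊗ₜ y) = (v * x) ⊗ₜ[K] y - x ⊗ₜ[K] (y * v) := fun x y => rfl
      have h1 : T (∑ l, S l ⊗ₜ[K] R l) = (∑ l, (v * S l) ⊗ₜ[K] R l) -
          (∑ l, S l ⊗ₜ[K] (R l * v)) := by
        rw [map_sum, ← Finset.sum_sub_distrib]
        exact Finset.sum_congr rfl fun l _ => hTa _ _
      have h2 : T (∑ i, s i ⊗ₜ[K] r i) ∈ bal ι := by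
        rw [map_sum]
        have h3 : ∑ i, T (s i ⊗ₜ[K] r i) = (∑ i, (v * s i) ⊗ₜ[K] r i) -
            (∑ i, s i ⊗ₜ[K] (r i * v)) := by
          rw [← Finset.sum_sub_distrib]
          exact Finset.sum_congr rfl fun l _ => hTa _ _
        rw [h3]
        exact hsep v
      have h3 : ∀ t, ∀ z ∈ WT W W t, T z ∈ WT W W (t + d) := by
        intro t z hz
        refine WT_induction (p := fun z => T z ∈ WT W W (t + d)) ?_ ?_ ?_ ?_ hz
        · rw [map_zero]; exact Submodule.zero_mem _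
        · intro a b hab x hx y hy
          rw [hTa]
          exact Submodule.sub_mem _ (tmul_mem' (hW.mul hv hx) hy (by rw [← hab]; ring))
            (tmul_mem' hx (hW.mul hy hv) (by rw [← hab]; ring))
        · intro z w h h'
          rw [map_add]
          exact Submodule.add_mem _ h h'
        · intro c z h
          rw [map_smul]
          exact Submodule.smul_mem _ _ h
      have h4 := cpt_shift hT hT T h3 0 (∑ i, s i ⊗ₜ[K] r i)
      rw [hz1, h1] at h4
      rw [← h4]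
      exact homog_bal hW hA hι h2 _
    · intro v v' h h'
      have h1 : (∑ l, ((v + v') * S l) ⊗ₜ[K] R l) - (∑ l, S l ⊗ₜ[K] (R l * (v + v')))
          = ((∑ l, (v * S l) ⊗ₜ[K] R l) - (∑ l, S l ⊗ₜ[K] (R l * v)))
            + ((∑ l, (v' * S l) ⊗ₜ[K] R l) - (∑ l, S l ⊗ₜ[K] (R l * v'))) := by
        simp only [add_mul, mul_add, TensorProduct.add_tmul, TensorProduct.tmul_add,
          Finset.sum_add_distrib]
        abel
      rw [h1]
      exact Submodule.add_mem _ h h'

end Vale.P179.H300.P6
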