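import Vale.Agent.P179.H175.Gr1
import Vale.Agent.P179.H300.EP6

/-!
# The sum grading on a tensor product (A3R of REL)
-/

namespace Vale.P179.H300.Ten

open Module Vale.P179.H175
open scoped TensorProduct

section space

variable {K X Y : Type*} [Field K] [AddCommGroup X] [Module K X] [AddCommGroup Y] [Module K Y]

/-- the sum grading on `X ⊗ Y` -/
def WT (V : ℚ → Submodule K X) (V' : ℚ → Submodule K Y) (r : ℚ) : Submodule K (X ⊗[K] Y) :=
  Submodule.span K {z | ∃ s : ℚ, ∃ x ∈ V s, ∃ y ∈ V' (r - s), z = x ⊗ₜ[K] y}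

variable {V : ℚ → Submodule K X} {V' : ℚ → Submodule K Y}

theorem tmul_mem {s t : ℚ} {x : X} {y : Y} (hx : x ∈ V s) (hy : y ∈ V' t) :
    x ⊗ₜ[K] y ∈ WT V V' (s + t) :=
  Submodule.subset_span ⟨s, x, hx, y, by rwa [add_sub_cancel_left], rfl⟩

theorem tmul_mem' {r s t : ℚ} {x : X} {y : Y} (hx : x ∈ V s) (hy : y ∈ V' t) (h : s + t = r) :
    x ⊗ₜ[K] y ∈ WT V V' r := h ▸ tmul_mem hx hy

/-- induction on the homogeneous elements -/
theorem WT_induction {r : ℚ} {p : X ⊗[K] Y → Prop} (h0 : p 0)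
    (h1 : ∀ s t : ℚ, s + t = r → ∀ x ∈ V s, ∀ y ∈ V' t, p (x ⊗ₜ y))
    (hadd : ∀ z w, p z → p w → p (z + w)) (hsmul : ∀ (c : K) z, p z → p (c • z))
    {z : X ⊗[K] Y} (hz : z ∈ WT V V' r) : p z := by
  unfold WT at hz
  induction hz using Submodule.span_induction with
  | mem z hz =>
    obtain ⟨s, x, hx, y, hy, rfl⟩ := hz
    exact h1 s (r - s) (add_sub_cancel _ _) x hx y hy
  | zero => exact h0
  | add z w _ _ hz hw => exact hadd z w hz hw
  | smul c z _ hz => exact hsmul c z hz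

/-- the projection -/
noncomputable def pT [FiniteDimensional K X] (hV : DirectSum.IsInternal V)
    (V' : ℚ → Submodule K Y) (r : ℚ) : X ⊗[K] Y →ₗ[K] X ⊗[K] Y :=
  ∑ s ∈ H175.sup hV, TensorProduct.map (cpt V s) (cpt V' (r - s))

theorem pT_tmul [FiniteDimensional K X] (hV : DirectSum.IsInternal V) (r : ℚ) (x : X) (y : Y) :
    pT hV V' r (x ⊗ₜ y) = ∑ s ∈ H175.sup hV, cpt V s x ⊗ₜ[K] cpt V' (r - s) y := by
  rw [pT, LinearMap.sum_apply]
  exact Finset.sum_congr rfl fun s _ => TensorProduct.map_tmul _ _ _ _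

theorem pT_tmul_hom [FiniteDimensional K X] (hV : DirectSum.IsInternal V)
    (hV' : DirectSum.IsInternal V') {r s t : ℚ} {x : X} {y : Y} (hx : x ∈ V s) (hy : y ∈ V' t) :
    pT hV V' r (x ⊗ₜ y) = if s + t = r then x ⊗ₜ[K] y else 0 := by
  classical
  rw [pT_tmul]
  by_cases hs : s ∈ H175.sup hV
  · rw [Finset.sum_eq_single s]
    · rw [cpt_of_mem hV hx]
      split_ifs with h
      · rw [cpt_of_mem hV' (r := r - s) (by rwa [← h, add_sub_cancel_left])]
      · rw [cpt_of_mem_ne hV' hy, TensorProduct.tmul_zero]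
        intro h'
        exact h (by rw [h', add_sub_cancel])
    · intro s' _ hne
      rw [cpt_of_mem_ne hV hx (Ne.symm hne), TensorProduct.zero_tmul]
    · exact fun h => absurd hs h
  · have h0 : x = 0 := by
      have h1 := cpt_eq_zero_of_notMem hV hs x
      rwa [cpt_of_mem hV hx] at h1
    subst h0
    simp

variable [FiniteDimensional K X] (hV : DirectSum.IsInternal V) (hV' : DirectSum.IsInternal V')

include hV hV'

theorem pT_mem (r : ℚ) (z : X ⊗[K] Y) : pT hV V' r z ∈ WT V V' r := by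
  induction z using TensorProduct.induction_on with
  | zero => rw [map_zero]; exact Submodule.zero_mem _
  | tmul x y =>
    rw [pT_tmul]
    exact Submodule.sum_mem _ fun s _ =>
      tmul_mem' (cpt_mem hV s x) (cpt_mem hV' _ y) (add_sub_cancel _ _)
  | add z w hz hw => rw [map_add]; exact Submodule.add_mem _ hz hw

theorem pT_of_mem {r : ℚ} {z : X ⊗[K] Y} (hz : z ∈ WT V V' r) : pT hV V' r z = z := by
  refine WT_induction (p := fun z => pT hV V' r z = z) (map_zero _) ?_ ?_ ?_ hz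
  · intro s t hst x hx y hy
    rw [pT_tmul_hom hV hV' hx hy, if_pos hst]
  · intro z w hz hw
    rw [map_add, hz, hw]
  · intro c z hz
    rw [map_smul, hz]

theorem pT_of_mem_ne {r r' : ℚ} {z : X ⊗[K] Y} (hz : z ∈ WT V V' r') (h : r' ≠ r) :
    pT hV V' r z = 0 := by
  refine WT_induction (p := fun z => pT hV V' r z = 0) (map_zero _) ?_ ?_ ?_ hz
  · intro s t hst x hx y hy
    rw [pT_tmul_hom hV hV' hx hy, if_neg (by rw [hst]; exact h)]
  · intro z w hz hw
    rw [map_add, hz, hw, add_zero]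
  · intro c z hz
    rw [map_smul, hz, smul_zero]

omit [FiniteDimensional K X] in
theorem mem_iSup_WT (z : X ⊗[K] Y) : z ∈ ⨆ r, WT V V' r := by
  classical
  induction z using TensorProduct.induction_on with
  | zero => exact Submodule.zero_mem _
  | tmul x y =>
    obtain ⟨S, -, hS⟩ := sum_cpt_finsupp hV x
    obtain ⟨S', -, hS'⟩ := sum_cpt_finsupp hV' y
    rw [← hS, ← hS', TensorProduct.sum_tmul]
    refine Submodule.sum_mem _ fun s _ => ?_
    rw [TensorProduct.tmul_sum]
    refine Submodule.sum_mem _ fun t _ => ?_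
    exact Submodule.mem_iSup_of_mem (s + t) (tmul_mem (cpt_mem hV s x) (cpt_mem hV' t y))
  | add z w hz hw => exact Submodule.add_mem _ hz hw

/-- the sum grading is a grading -/
theorem internal_WT : DirectSum.IsInternal (WT V V') := by
  rw [DirectSum.isInternal_submodule_iff_iSupIndep_and_iSup_eq_top]
  constructor
  · intro r
    rw [Submodule.disjoint_def]
    intro x hx hx'
    have h1 : ⨆ s, ⨆ (_ : s ≠ r), WT V V' s ≤ LinearMap.ker (pT hV V' r) := by
      refine iSup_le fun s => iSup_le fun hs x hx => ?_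
      exact pT_of_mem_ne hV hV' hx hs
    rw [← pT_of_mem hV hV' hx]
    exact h1 hx'
  · rw [eq_top_iff]
    intro x _
    exact mem_iSup_WT hV hV' x

/-- the components -/
theorem cpt_WT (r : ℚ) (z : X ⊗[K] Y) : cpt (WT V V') r z = pT hV V' r z := by
  have hz := mem_iSup_WT hV hV' z
  refine Submodule.iSup_induction (WT V V')
    (motive := fun z => cpt (WT V V') r z = pT hV V' r z) hz ?_ ?_ ?_
  · intro s z hz
    by_cases h : s = r
    · subst h
      rw [cpt_of_mem (internal_WT hV hV') hz, pT_of_mem hV hV' hz]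
    · rw [cpt_of_mem_ne (internal_WT hV hV') hz h, pT_of_mem_ne hV hV' hz h]
  · rw [map_zero, map_zero]
  · intro z w hz hw
    rw [map_add, map_add, hz, hw]

theorem cpt_WT_tmul (r : ℚ) (x : X) (y : Y) : cpt (WT V V') r (x ⊗ₜ y) =
    ∑ s ∈ H175.sup hV, cpt V s x ⊗ₜ[K] cpt V' (r - s) y := by
  rw [cpt_WT hV hV', pT_tmul]

/-- one factor homogeneous -/
theorem cpt_WT_left {s : ℚ} {x : X} (hx : x ∈ V s) (r : ℚ) (y : Y) :
    cpt (WT V V') r (x ⊗ₜ y) = x ⊗ₜ[K] cpt V' (r - s) y := by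
  classical
  rw [cpt_WT_tmul hV hV']
  by_cases hs : s ∈ H175.sup hV
  · rw [Finset.sum_eq_single s]
    · rw [cpt_of_mem hV hx]
    · intro s' _ hne
      rw [cpt_of_mem_ne hV hx (Ne.symm hne), TensorProduct.zero_tmul]
    · exact fun h => absurd hs h
  · have h0 : x = 0 := by
      have h1 := cpt_eq_zero_of_notMem hV hs x
      rwa [cpt_of_mem hV hx] at h1
    subst h0
    simp

end space

section alg

variable {K A A' : Type*} [Field K] [Ring A] [Algebra K A] [Ring A'] [Algebra K A']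
  [FiniteDimensional K A] {W : ℚ → Submodule K A} {W' : ℚ → Submodule K A'}

/-- the sum grading is an algebra grading -/
theorem grAlg_WT (hW : H175.GrAlg W) (hW' : H175.GrAlg W') : H175.GrAlg (WT W W') where
  int := internal_WT hW.int hW'.int
  one := tmul_mem' hW.one hW'.one (add_zero 0)
  mul := by
    intro r s z w hz hw
    refine WT_induction (p := fun z => z * w ∈ WT W W' (r + s)) ?_ ?_ ?_ ?_ hz
    · rw [zero_mul]; exact Submodule.zero_mem _
    · intro a b hab x hx y hy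
      refine WT_induction (p := fun w => (x ⊗ₜ[K] y) * w ∈ WT W W' (r + s)) ?_ ?_ ?_ ?_ hw
      · rw [mul_zero]; exact Submodule.zero_mem _
      · intro a' b' hab' x' hx' y' hy'
        rw [Algebra.TensorProduct.tmul_mul_tmul]
        refine tmul_mem' (hW.mul hx hx') (hW'.mul hy hy') ?_
        rw [← hab, ← hab']
        ring
      · intro w w' h h'
        rw [mul_add]
        exact Submodule.add_mem _ h h'
      · intro c w h
        rw [mul_smul_comm]
        exact Submodule.smul_mem _ _ h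
    · intro z z' h h'
      rw [add_mul]
      exact Submodule.add_mem _ h h'
    · intro c z h
      rw [smul_mul_assoc]
      exact Submodule.smul_mem _ _ h

/-- the grading of the opposite algebra -/
def Wop (W : ℚ → Submodule K A) (r : ℚ) : Submodule K Aᵐᵒᵖ :=
  sop (MulOpposite.opLinearEquiv K : A ≃ₗ[K] Aᵐᵒᵖ) (W r)

omit [FiniteDimensional K A] in
theorem mem_Wop {r : ℚ} {x : Aᵐᵒᵖ} : x ∈ Wop W r ↔ x.unop ∈ W r := mem_sop

omit [FiniteDimensional K A] in
theorem op_mem_Wop {r : ℚ} {x : A} : MulOpposite.op x ∈ Wop W r ↔ x ∈ W r := mem_sop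

omit [FiniteDimensional K A] in
theorem grAlg_Wop (hW : H175.GrAlg W) : H175.GrAlg (Wop W) :=
  grAlg_sop (o := (MulOpposite.opLinearEquiv K : A ≃ₗ[K] Aᵐᵒᵖ)) (fun _ _ => rfl) hW

omit [FiniteDimensional K A] in
theorem cpt_Wop (hW : DirectSum.IsInternal W) (r : ℚ) (x : A) :
    cpt (Wop W) r (MulOpposite.op x) = MulOpposite.op (cpt W r x) :=
  cpt_op (o := (MulOpposite.opLinearEquiv K : A ≃ₗ[K] Aᵐᵒᵖ)) hW r x

/-- the sum grading on `A ⊗ Aᵐᵒᵖ` -/
def WTop (W : ℚ → Submodule K A) : ℚ → Submodule K (A ⊗[K] Aᵐᵒᵖ) := WT W (Wop W)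

theorem grAlg_WTop (hW : H175.GrAlg W) : H175.GrAlg (WTop W) := grAlg_WT hW (grAlg_Wop hW)

omit [FiniteDimensional K A] in
theorem tmul_op_mem {s t : ℚ} {x y : A} (hx : x ∈ W s) (hy : y ∈ W t) :
    x ⊗ₜ[K] MulOpposite.op y ∈ WTop W (s + t) := tmul_mem hx (op_mem_Wop.2 hy)

end alg

end Vale.P179.H300.Ten
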