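import Vale.Agent.P179.H300.LDi
import Vale.Agent.P179.H843.BB0

/-!
# REL, module A3R, piece P7: the data of Lemma L and the admissibility of `D2`
-/

namespace Vale.P179.H300.P7

open Module Vale.P179.H175 Vale.P179.Rel Vale.P179.H300.Ten Vale.P179.H300.LDi Vale.P179.H843.BB
  Vale.P179.H815.LL Vale.P179.H815.Co P179H342
open scoped TensorProduct

/-- projectivity over a subgroup -/
theorem exists_proj_sub {K B Γ P : Type} [Field K] [Ring B] [Algebra K B] [Group Γ] [Fintype Γ]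
    [CommGroup P] [Fintype P] (c : Γ →* B) (iP : P →* Γ) (hinj : Function.Injective iP)
    (h : ∃ η : B →ₗ[K] B, ∀ v, ∑ g : Γ, c g * η (c g⁻¹ * v) = v) :
    ∃ π : B →ₗ[K] B, ∀ v, ∑ x : P, c (iP x) * π (c (iP x)⁻¹ * v) = v := by
  classical
  obtain ⟨η, hη⟩ := h
  obtain ⟨T, hT, -⟩ := Subgroup.exists_isComplement_right iP.range (1 : Γ)
  have : Fintype T := Fintype.ofFinite T
  refine ⟨∑ g : T, (LinearMap.mulLeft K (c g)) ∘ₗ η ∘ₗ (LinearMap.mulLeft K (c (g : Γ)⁻¹)),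
    fun v => ?_⟩
  let F : P × T → Γ := fun z => iP z.1 * z.2
  have hF : Function.Bijective F := by
    constructor
    · rintro ⟨x, g⟩ ⟨x', g'⟩ h
      have h1 := hT.1 (a₁ := (⟨iP x, x, rfl⟩, g)) (a₂ := (⟨iP x', x', rfl⟩, g')) h
      rw [Prod.mk.injEq] at h1
      exact Prod.ext (hinj (congrArg Subtype.val h1.1)) h1.2
    · intro g
      obtain ⟨⟨⟨_, x, rfl⟩, g'⟩, h⟩ := hT.2 g
      exact ⟨(x, g'), h⟩
  conv_rhs => rw [← hη v]
  rw [← Equiv.sum_comp (Equiv.ofBijective F hF), Fintype.sum_prod_type]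
  refine Finset.sum_congr rfl fun x _ => ?_
  rw [LinearMap.sum_apply, Finset.mul_sum]
  refine Finset.sum_congr rfl fun g _ => ?_
  show c (iP x) * (c g * η (c (g : Γ)⁻¹ * (c (iP x)⁻¹ * v)))
    = c (iP x * g) * η (c (iP x * g)⁻¹ * v)
  rw [mul_inv_rev, map_mul c (iP x), map_mul c (g : Γ)⁻¹, mul_assoc (c (iP x)),
    mul_assoc (c (g : Γ)⁻¹)]

section

variable {K A B A1 Γ : Type} [Field K] [Ring A] [Algebra K A] [Ring B] [Algebra K B]
  [FiniteDimensional K B] [Ring A1] [Algebra K A1] [Group Γ] [Fintype Γ] {D1 D2 : Subgroup Γ}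
  {t : Γ} [Fintype ↥(D1 ⊔ Subgroup.zpowers t)] {e M c : ℕ} [NeZero e]

omit [FiniteDimensional K B] [Fintype ↥(D1 ⊔ Subgroup.zpowers t)] in
/-- the admissibility of the whole group `P` -/
theorem adm_FM (X : RKData K A B Γ D1 D2 t) {P : Type} [CommGroup P] [Finite P] (iP : P →* Γ)
    (hinj : Function.Injective iP) {ν : Type} (Y : ν → Type) [∀ i, AddCommGroup (Y i)]
    [∀ i, Module K (Y i)] [∀ i, Module B (Y i)] [∀ i, IsScalarTower K B (Y i)] (E : ν → B)
    (hE : ∀ i, E i * E i = E i) :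
    Adm (K := K) ((dg (K := K) (cB X)).comp iP) (fun i => FM K B (Y i) (E i)) ⊤ := by
  classical
  have : Fintype P := Fintype.ofFinite P
  obtain ⟨π, hπ⟩ := exists_proj_sub (cB X) iP hinj X.projl
  intro i
  refine ⟨{ toFun := fun f => FM.mk' (toHX (Coind.coeLin (FM.val K B (Y i) (E i) f) ∘ₗ π ∘ₗ
              LinearMap.mulRight K (E i))) (fun x => by
                show (FM.val K B (Y i) (E i) f) (π (x * E i * E i)) =
                  (FM.val K B (Y i) (E i) f) (π (x * E i))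
                rw [mul_assoc, hE])
            map_add' := fun f g => by
              apply FM.ext
              intro x
              rfl
            map_smul' := fun c f => by
              apply FM.ext
              intro x
              rfl }, fun f => ?_⟩
  rw [finsum_eq_sum_of_fintype]
  apply FM.ext
  intro x
  rw [map_sum, H815.Co.Coind.sum_apply]
  have h1 : ∀ g : (⊤ : Subgroup P), (FM.val K B (Y i) (E i)
      (((dg (K := K) (cB X)).comp iP) g • (FM.mk' (toHX (Coind.coeLin (FM.val K B (Y i) (E i)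
        (((dg (K := K) (cB X)).comp iP) (g : P)⁻¹ • f)) ∘ₗ π ∘ₗ LinearMap.mulRight K (E i)))
          (fun x => by
            show (FM.val K B (Y i) (E i) (((dg (K := K) (cB X)).comp iP) (g : P)⁻¹ • f))
                (π (x * E i * E i)) =
              (FM.val K B (Y i) (E i) (((dg (K := K) (cB X)).comp iP) (g : P)⁻¹ • f))
                (π (x * E i))
            rw [mul_assoc, hE]) : FM K B (Y i) (E i)))) x
      = FM.val K B (Y i) (E i) f (cB X (iP g) * π (cB X (iP g)⁻¹ * (x * E i))) := by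
    intro g
    have e1 : ((dg (K := K) (cB X)).comp iP) g = mk K (cB X (iP g)) (cB X (iP g)⁻¹) := rfl
    have e2 : ((dg (K := K) (cB X)).comp iP) (g : P)⁻¹ = mk K (cB X (iP g)⁻¹) (cB X (iP g)) := by
      rw [MonoidHom.comp_apply, map_inv, dg_apply, inv_inv]
      rfl
    rw [e1, e2, FM.mk_smul, FM.val_mk', toHX_apply]
    show cB X (iP g) • (FM.val K B (Y i) (E i) (mk K (cB X (iP g)⁻¹) (cB X (iP g)) • f))
      (π (cB X (iP g)⁻¹ * x * E i)) = _
    rw [FM.mk_smul, smul_smul, ← map_mul, mul_inv_cancel, map_one, one_smul, mul_assoc]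
  refine (Finset.sum_congr rfl fun g _ => h1 g).trans ?_
  rw [← H815.Co.Coind.map_sum']
  have h2 : ∑ g : (⊤ : Subgroup P), cB X (iP g) * π (cB X (iP g)⁻¹ * (x * E i)) = x * E i := by
    rw [← Equiv.sum_comp (Subgroup.topEquiv (G := P)).symm.toEquiv]
    exact hπ (x * E i)
  rw [h2, FM.val_mul]

/-- **P7** -/
theorem p7 {p : ℕ} [Fact p.Prime] [CharP K p] (hF : FreeCycR p Γ D1 D2 t e)
    (X : RAll K A B A1 Γ D1 D2 t e M c) {W : ℚ → Submodule K B} (hW : H175.GrAlg W)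
    (hι : ∀ r : ℚ, ∀ h ∈ X.H.W r, X.D.ι h ∈ W r) :
    ∃ (P T : Type) (_ : CommGroup P) (_ : CommGroup T) (_ : Finite P) (_ : Finite T)
      (iP : P →* Γ) (iT : T →* Γ) (d : LDat K (Bop K B) P T),
      IsPGroup p P ∧ Nat.card T = e ∧ Function.Injective iP ∧ (∀ g, (∃ x, iP x = g) ↔ g ∈ D2) ∧
      (∀ g, (∃ x, iT x = g) ↔ g ∈ Subgroup.zpowers t) ∧ d.W = WTop W ∧
      (∀ x, d.u x = mk K (X.D.ι (X.D.γ (iP x))) (X.D.ι (X.D.γ (iP x)⁻¹))) ∧
      (∀ x, d.n x = mk K (X.D.ι (X.D.γ (iT x))) (X.D.ι (X.D.γ (iT x)⁻¹))) ∧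
      ∀ (ν : Type) (Y : ν → Type) [∀ i, AddCommGroup (Y i)]
        [∀ i, Module K (Y i)] [∀ i, Module B (Y i)] [∀ i, IsScalarTower K B (Y i)] (E : ν → B),
        (∀ i, E i * E i = E i) → Adm (K := K) d.u (fun i => FM K B (Y i) (E i)) ⊤ := by
  obtain ⟨P, T, _, _, _, _, iP, iT, d, h1, h2, h3, h4, h5, h6, h7, h8⟩ :=
    exists_ldat hF X.D hW (fun x hx => hι 0 _ (X.H.deg0 x hx)) (hι 0 _ X.H.degt)
  refine ⟨P, T, inferInstance, inferInstance, inferInstance, inferInstance, iP, iT, d, h1, h2, h3,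
    h4, h5, h6, fun x => ?_, fun x => ?_, fun ν Y _ _ _ _ E hE => ?_⟩
  · rw [h7]; rfl
  · rw [h8]; rfl
  · rw [h7]
    exact adm_FM X.D iP h3 Y E hE

end

end Vale.P179.H300.P7
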