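import Vale.Agent.P179.H300.Rel

/-!
# The local term

`locq_exact`: the local term if the second cocycle is lifted exactly on the group of `s1, s3`.
`relation_regular`: the local term vanishes if the second cocycle is a coboundary on the group of
`s1, s3`, and the first one is the coboundary of a function invariant under the full twist on the
group of `s1`.
-/

set_option linter.unusedSectionVars false

namespace P179H300

open Equiv

variable {X R K : Type*} [CommRing R] [CommRing K] [Fintype X]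

theorem S_sub (e : X → R) (a b : X → R) : S e (fun x => a x - b x) = S e a - S e b := by
  have : S e (fun x => a x - b x) = S e (a + (-1 : R) • b) :=
    S_congr e fun x => by simp only [Pi.add_apply, Pi.smul_apply, smul_eq_mul]; ring
  rw [this, S_add, S_smul]; ring

theorem S_add' (e : X → R) (a b : X → R) : S e (fun x => a x + b x) = S e a + S e b :=
  S_add e a b

/-- The local term for exact lifts. -/
theorem locq_exact {e : X → R} {P Q s : Perm X} (heP : ∀ x, e (P x) = e x)
    (heQ : ∀ x, e (Q x) = e x) {A B : Z X R} {r1 r2 h1 h2 : X → R}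
    (h : LL P Q th1 s B = B + dd P Q h2) :
    locq e P Q s A B r1 r2 h1 h2 = S e (fun x => r1 x * h2 x) + S e (fun x => h1 x * r2 x)
      - S e (fun x => h1 x * ev P Q B gc (s x)) := by
  unfold locq
  have h' : LL P Q th1 s B - B = dd P Q h2 := by rw [h]; abel
  rw [h', om_dd_right heP heQ]
  have e1 : S e (fun x => h1 x * (ev P Q B gc (s x) - r2 x))
      = S e (fun x => h1 x * ev P Q B gc (s x)) - S e (fun x => h1 x * r2 x) := by
    rw [← S_sub]; exact S_congr e fun x => by ring
  have e2 : S e (fun x => (ev P Q A gc x - r1 x) * h2 x)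
      = S e (fun x => ev P Q A gc x * h2 x) - S e (fun x => r1 x * h2 x) := by
    rw [← S_sub]; exact S_congr e fun x => by ring
  rw [e1, e2]; ring

/-- The local term is linear in the weights. -/
theorem locq_add (e e' : X → R) (P Q s : Perm X) (A B : Z X R) (r1 r2 h1 h2 : X → R) :
    locq (fun x => e x + e' x) P Q s A B r1 r2 h1 h2
      = locq e P Q s A B r1 r2 h1 h2 + locq e' P Q s A B r1 r2 h1 h2 := by
  have hS : ∀ m : X → R, S (fun x => e x + e' x) m = S e m + S e' m := by
    intro m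
    unfold S
    rw [← Finset.sum_add_distrib]
    exact Finset.sum_congr rfl fun x _ => by ring
  unfold locq om
  rw [hS, hS, hS]
  ring

/-- **The regular case.** -/
theorem relation_regular (C : Coc4 X K) (ρ : Red R K) (e : X → R)
    (he1 : ∀ x, e (C.a1.perm x) = e x) (he2 : ∀ x, e (C.a2.perm x) = e x)
    (he3 : ∀ x, e (C.a3.perm x) = e x)
    {r1 r2 : X → R}
    (hr1 : ∀ x, r1 (C.a1.perm x) = r1 x) (hr1' : ∀ x, r1 (C.a2.perm x) = r1 x)
    (hr2 : ∀ x, r2 (C.a1.perm x) = r2 x) (hr2' : ∀ x, r2 (C.a2.perm x) = r2 x)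
    (er1 : ∀ x, ρ.π (r1 x) = (cm C.a1 C.a2 C.a3).val x)
    (er2 : ∀ x, ρ.π (r2 x) = (cm C.b1 C.b2 C.b3).val x)
    {α β : R} (hα : ρ.π α = C.α) (hβ : ρ.π β = C.β)
    {v μ : X → K} (hv : ∀ x, v ((cm C.a1 C.a2 C.a3).perm x) = v x)
    (h1 : ∀ x, C.a1.val x = v (C.a1.perm x) - v x)
    (h2 : ∀ x, C.b1.val x = μ (C.a1.perm x) - μ x)
    (h3 : ∀ x, C.b3.val x = μ (C.a3.perm x) - μ x) :
    ρ.p ^ 2 ∣ S e (fun x => (r1 x + α) * (r2 x + β)) - α * β * S e (fun _ => 1) := by
  let σ : K → R := Function.surjInv ρ.surj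
  have hσ : ∀ k, ρ.π (σ k) = k := Function.surjInv_eq ρ.surj
  set P : Perm X := (bP C.a1 C.a2 C.a3).perm with hP
  set Q : Perm X := (bQ C.a1 C.a3).perm with hQ
  have hpr := C.ha.perm
  have hP' : (bP C.b1 C.b2 C.b3).perm = P := by
    rw [hP, bP_perm, bP_perm, C.p1, C.p2, C.p3]
  have hQ' : (bQ C.b1 C.b3).perm = Q := by
    rw [hQ, bQ_perm, bQ_perm, C.p1, C.p3]
  have heP : ∀ x, e (P x) = e x := by
    intro x
    rw [hP, bP_perm]
    change e (C.a2.perm (C.a1.perm (C.a3.perm⁻¹ (C.a2.perm⁻¹ x)))) = e x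
    rw [he2, he1, inv_of he3, inv_of he2]
  have heQ : ∀ x, e (Q x) = e x := by
    intro x
    rw [hQ, bQ_perm]
    change e (C.a3.perm (C.a1.perm⁻¹ x)) = e x
    rw [he3, inv_of he1]
  have hQs : ∀ x, Q (C.a1.perm x) = C.a3.perm x := by
    intro x
    rw [hQ, bQ_perm]
    change C.a3.perm (C.a1.perm⁻¹ (C.a1.perm x)) = _
    simp
  have hsP : ∀ x, C.a1.perm (P x) = P (C.a3.perm x) := fun x =>
    congrArg (fun g : Perm X => g x) hpr.P3
  have hsQ : ∀ x, C.a1.perm (Q x) = Q (C.a1.perm x) := fun x =>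
    congrArg (fun g : Perm X => g x) hpr.s1Q
  -- the invariant part of the value at `P`
  let bet : X → K := fun x => (bP C.b1 C.b2 C.b3).val x - μ (P x) + μ x
  have hbet : ∀ x, bet (C.a3.perm x) = bet x := by
    intro x
    have h4 := congrArg (fun a : W X K => a.val x) C.hb.P3
    simp only [mul_val, hP', C.p3, h2, h3] at h4
    change (bP C.b1 C.b2 C.b3).val (C.a3.perm x) - μ (P (C.a3.perm x)) + μ (C.a3.perm x)
      = (bP C.b1 C.b2 C.b3).val x - μ (P x) + μ x
    rw [hsP] at h4
    linear_combination -h4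
  let μ' : X → R := fun x => σ (μ x)
  let v' : X → R := fun x => σ (v x)
  let bet' : X → R := fun x => σ (bet x)
  have hbet' : ∀ x, bet' (C.a3.perm x) = bet' x := fun x => by
    change σ (bet (C.a3.perm x)) = σ (bet x)
    rw [hbet]
  let B : Z X R := dd P Q μ' + (bet', fun _ => 0)
  let A : Z X R := (fun x => σ ((bP C.a1 C.a2 C.a3).val x), fun x => σ ((bQ C.a1 C.a3).val x))
  let g1 : X → R := fun x => v' (C.a1.perm x) - v' x
  let g2 : X → R := fun x => μ' (C.a1.perm x) - μ' x
  have hB1 : ∀ x, ρ.π (B.1 x) = (bP C.b1 C.b2 C.b3).val x := by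
    intro x
    change ρ.π (μ' (P x) - μ' x + bet' x) = _
    simp only [map_add, map_sub, μ', bet', hσ]
    change μ (P x) - μ x + ((bP C.b1 C.b2 C.b3).val x - μ (P x) + μ x) = _
    ring
  have hB2 : ∀ x, ρ.π (B.2 x) = (bQ C.b1 C.b3).val x := by
    intro x
    change ρ.π (μ' (Q x) - μ' x + 0) = (C.b3 * C.b1⁻¹).val x
    simp only [mul_val, inv_val, inv_perm, C.p1, h2, h3, map_add, map_sub, map_zero, μ', hσ]
    have e4 : Q x = C.a3.perm (C.a1.perm⁻¹ x) := rfl
    have e5 : C.a1.perm (C.a1.perm⁻¹ x) = x := by simp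
    rw [e4, e5]; ring
  have htp : (tw C.a1 C.a2).perm = (cm C.a1 C.a2 C.a3).perm := tw_perm C.ha C.hα
  have hcs : ∀ x, C.a1.perm ((cm C.a1 C.a2 C.a3).perm x)
      = (cm C.a1 C.a2 C.a3).perm (C.a1.perm x) := by
    intro x
    have h5 := congrArg W.perm (tw_comm1 C.ha.h12)
    simp only [mul_perm, htp] at h5
    exact congrArg (fun g : Perm X => g x) h5
  have hec : ∀ x, e ((cm C.a1 C.a2 C.a3).perm x) = e x := by
    have a : ∀ g : Perm X, (∀ x, e (g x) = e x) → ∀ x, e (g⁻¹ x) = e x := fun g h => inv_of h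
    intro x
    change e (P (Q (P⁻¹ (Q⁻¹ x)))) = e x
    rw [heP, heQ, a P heP, a Q heQ]
  have hv' : ∀ x, v' ((cm C.a1 C.a2 C.a3).perm x) = v' x := fun x => by
    change σ (v _) = σ (v x)
    rw [hv]
  have hrel := relation C ρ e he1 he2 he3 (A := A) (B := B) (fun x => hσ _) (fun x => hσ _)
    hB1 hB2 hr1 hr1' hr2 hr2' er1 er2 (h1 := g1) (h2 := g2)
    (fun x => by
      change ρ.π (v' (C.a1.perm x) - v' x) = _
      simp only [map_sub, v', hσ, h1])
    (fun x => by
      change ρ.π (μ' (C.a1.perm x) - μ' x) = _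
      simp only [map_sub, μ', hσ, h2])
    (fun x => by
      change v' (C.a1.perm ((cm C.a1 C.a2 C.a3).perm x)) - v' ((cm C.a1 C.a2 C.a3).perm x)
        = v' (C.a1.perm x) - v' x
      rw [hcs, hv', hv'])
    hα hβ
  have hLB : LL P Q th1 C.a1.perm B = B + dd P Q g2 := by
    refine Prod.ext ?_ ?_
    · funext x
      change ev P Q B (th1 gP) (C.a1.perm x)
        = (μ' (P x) - μ' x + bet' x) + (g2 (P x) - g2 x)
      rw [th1_P, ev_mul, ev_P, ev_Q, rep_Q, hQs]
      change (μ' (P (C.a3.perm x)) - μ' (C.a3.perm x) + bet' (C.a3.perm x))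
        + (μ' (Q (C.a1.perm x)) - μ' (C.a1.perm x) + 0)
        = (μ' (P x) - μ' x + bet' x)
          + ((μ' (C.a1.perm (P x)) - μ' (P x)) - (μ' (C.a1.perm x) - μ' x))
      rw [hQs, hsP, hbet']; ring
    · funext x
      change ev P Q B (th1 gQ) (C.a1.perm x)
        = (μ' (Q x) - μ' x + 0) + (g2 (Q x) - g2 x)
      rw [th1_Q, ev_Q]
      change (μ' (Q (C.a1.perm x)) - μ' (C.a1.perm x) + 0)
        = (μ' (Q x) - μ' x + 0)
          + ((μ' (C.a1.perm (Q x)) - μ' (Q x)) - (μ' (C.a1.perm x) - μ' x))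
      rw [hsQ]; ring
  have hrc : rep P Q gc = (cm C.a1 C.a2 C.a3).perm := by rw [← sub_cm, sub_perm]
  have hBc : ∀ x, ev P Q B gc (C.a1.perm x)
      = ev P Q B gc x + (g2 ((cm C.a1 C.a2 C.a3).perm x) - g2 x) := by
    intro x
    have h6 := congrArg (fun a : Z X R => ev P Q a gc x) hLB
    simp only [ev_add, Pi.add_apply, ev_dd, hrc] at h6
    have hcomp : Compat P Q th1 C.a1.perm := compat1 hpr.s1P hpr.s1Q
    rw [ev_LL hcomp, th1_c] at h6
    exact h6
  have hloc : locq e P Q C.a1.perm A B r1 r2 g1 g2 = 0 := by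
    rw [locq_exact heP heQ hLB]
    have x1 : S e (fun x => r1 x * g2 x) = 0 := by
      have : S e (fun x => r1 x * g2 x)
          = S e (fun x => r1 (C.a1.perm x) * μ' (C.a1.perm x)) - S e (fun x => r1 x * μ' x) := by
        rw [← S_sub]
        exact S_congr e fun x => by rw [hr1]; simp only [g2]; ring
      rw [this, S_comp he1 (fun x => r1 x * μ' x), sub_self]
    have x2 : S e (fun x => g1 x * r2 x) = 0 := by
      have : S e (fun x => g1 x * r2 x)
          = S e (fun x => v' (C.a1.perm x) * r2 (C.a1.perm x)) - S e (fun x => v' x * r2 x) := by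
        rw [← S_sub]
        exact S_congr e fun x => by rw [hr2]; simp only [g1]; ring
      rw [this, S_comp he1 (fun x => v' x * r2 x), sub_self]
    have x3 : S e (fun x => g1 x * ev P Q B gc (C.a1.perm x)) = 0 := by
      have e1 : S e (fun x => g1 x * ev P Q B gc (C.a1.perm x))
          = S e (fun x => v' (C.a1.perm x) * ev P Q B gc (C.a1.perm x))
            - S e (fun x => v' x * ev P Q B gc (C.a1.perm x)) := by
        rw [← S_sub]
        exact S_congr e fun x => by simp only [g1]; ring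
      have e2 : S e (fun x => v' x * ev P Q B gc (C.a1.perm x))
          = S e (fun x => v' x * ev P Q B gc x)
            + (S e (fun x => v' ((cm C.a1 C.a2 C.a3).perm x) * g2 ((cm C.a1 C.a2 C.a3).perm x))
              - S e (fun x => v' x * g2 x)) := by
        rw [← S_sub, ← S_add']
        exact S_congr e fun x => by rw [hBc, hv']; ring
      rw [e1, e2, S_comp he1 (fun x => v' x * ev P Q B gc x),
        S_comp hec (fun x => v' x * g2 x)]
      ring
    rw [x1, x2, x3]; ring
  rw [hloc, mul_zero, sub_zero] at hrel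
  exact hrel

end P179H300
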