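import Vale.Agent.P179.H300.B4

/-!
# The second order relation for cocycles on the braid group on four strands
-/

set_option linter.unusedSectionVars false

namespace P179H300

open Equiv

variable {X R K : Type*} [CommRing R] [CommRing K] [Fintype X]

/-- The local term of the first braid generator. -/
def locq (e : X → R) (P Q s : Perm X) (A B : Z X R) (r1 r2 h1 h2 : X → R) : R :=
  om e P Q A (LL P Q th1 s B - B) - S e (fun x => h1 x * (ev P Q B gc (s x) - r2 x))
    - S e (fun x => (ev P Q A gc x - r1 x) * h2 x)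

theorem bP_perm (a1 a2 a3 : W X K) :
    (bP a1 a2 a3).perm = bP a1.perm a2.perm a3.perm := rfl

theorem bQ_perm (a1 a3 : W X K) : (bQ a1 a3).perm = bQ a1.perm a3.perm := rfl

theorem IsB4.perm {a1 a2 a3 : W X K} (h : IsB4 a1 a2 a3) : IsB4 a1.perm a2.perm a3.perm where
  h12 := congrArg W.perm h.h12
  h23 := congrArg W.perm h.h23
  h13 := congrArg W.perm h.h13

theorem inv_of {e : X → R} {g : Perm X} (h : ∀ x, e (g x) = e x) (x : X) :
    e (g⁻¹ x) = e x := by
  have := h (g⁻¹ x)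
  rw [← this]; simp

/-- **The second order relation.** -/
theorem relation (C : Coc4 X K) (ρ : Red R K) (e : X → R)
    (he1 : ∀ x, e (C.a1.perm x) = e x) (he2 : ∀ x, e (C.a2.perm x) = e x)
    (he3 : ∀ x, e (C.a3.perm x) = e x)
    {A B : Z X R}
    (hA1 : ∀ x, ρ.π (A.1 x) = (bP C.a1 C.a2 C.a3).val x)
    (hA2 : ∀ x, ρ.π (A.2 x) = (bQ C.a1 C.a3).val x)
    (hB1 : ∀ x, ρ.π (B.1 x) = (bP C.b1 C.b2 C.b3).val x)
    (hB2 : ∀ x, ρ.π (B.2 x) = (bQ C.b1 C.b3).val x)
    {r1 r2 : X → R}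
    (hr1 : ∀ x, r1 (C.a1.perm x) = r1 x) (hr1' : ∀ x, r1 (C.a2.perm x) = r1 x)
    (hr2 : ∀ x, r2 (C.a1.perm x) = r2 x) (hr2' : ∀ x, r2 (C.a2.perm x) = r2 x)
    (er1 : ∀ x, ρ.π (r1 x) = (cm C.a1 C.a2 C.a3).val x)
    (er2 : ∀ x, ρ.π (r2 x) = (cm C.b1 C.b2 C.b3).val x)
    {h1 h2 : X → R}
    (hh1 : ∀ x, ρ.π (h1 x) = C.a1.val x) (hh2 : ∀ x, ρ.π (h2 x) = C.b1.val x)
    (hi : ∀ x, h1 ((cm C.a1 C.a2 C.a3).perm x) = h1 x)
    {α β : R} (hα : ρ.π α = C.α) (hβ : ρ.π β = C.β) :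
    ρ.p ^ 2 ∣ (S e (fun x => (r1 x + α) * (r2 x + β)) - α * β * S e (fun _ => 1))
      - 12 * locq e (bP C.a1 C.a2 C.a3).perm (bQ C.a1 C.a3).perm C.a1.perm A B r1 r2 h1 h2 := by
  set P : Perm X := (bP C.a1 C.a2 C.a3).perm with hP
  set Q : Perm X := (bQ C.a1 C.a3).perm with hQ
  have hP' : P = (bP C.b1 C.b2 C.b3).perm := by
    rw [hP, bP_perm, bP_perm, C.p1, C.p2, C.p3]
  have hQ' : Q = (bQ C.b1 C.b3).perm := by
    rw [hQ, bQ_perm, bQ_perm, C.p1, C.p3]
  have hpr := C.ha.perm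
  have heP : ∀ x, e (P x) = e x := by
    intro x
    rw [hP, bP_perm]
    change e (C.a2.perm (C.a1.perm (C.a3.perm⁻¹ (C.a2.perm⁻¹ x)))) = e x
    rw [he2, he1, inv_of he3, inv_of he2]
  have heQ : ∀ x, e (Q x) = e x := by
    intro x
    rw [hQ, bQ_perm]
    change e (C.a3.perm (C.a1.perm⁻¹ x)) = e x
    rw [he3, inv_of he1]
  -- the defects of `r1`, `r2`
  have hn1 : ∀ x, ∃ n, ev P Q A gc x = r1 x + ρ.p * n := fun x =>
    ρ.sub_dvd (by rw [map_ev_cm ρ hP hQ hA1 hA2, sub_cm, er1])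
  have hn2 : ∀ x, ∃ n, ev P Q B gc x = r2 x + ρ.p * n := fun x =>
    ρ.sub_dvd (by rw [map_ev_cm ρ hP' hQ' hB1 hB2, sub_cm, er2])
  choose n1 hn1 using hn1
  choose n2 hn2 using hn2
  let D : Dat X R := ⟨e, P, Q, ρ.p, A, B, r1, r2, n1, n2, heP, heQ, hn1, hn2⟩
  have hDc : D.c = (cm C.a1 C.a2 C.a3).perm := by
    change rep P Q gc = _
    rw [← sub_cm, sub_perm]
  have htwc : (tw C.a1 C.a2).perm = D.c := by rw [hDc]; exact tw_perm C.ha C.hα
  -- lifts at the second generator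
  have hinv2 : ∀ x, C.a2.val (D.c x) = C.a2.val x := by
    intro x
    rw [← htwc]
    exact val_inv (tw_comm2 C.ha.h12) C.ia2 x
  let σ : K → R := Function.surjInv ρ.surj
  have hσ : ∀ k, ρ.π (σ k) = k := Function.surjInv_eq ρ.surj
  -- first generator
  obtain ⟨k1, hk1⟩ := lift_rule ρ hP hQ hA1 hA2 (nat1 C.ha) hh1
  have hnb1 : ∀ w, C.b1 * sub (bP C.b1 C.b2 C.b3) (bQ C.b1 C.b3) w
      = sub (bP C.b1 C.b2 C.b3) (bQ C.b1 C.b3) (th1 w) * C.b1 := nat1 C.hb
  obtain ⟨k2, hk2⟩ := lift_rule ρ hP' hQ' hB1 hB2 hnb1 hh2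
  obtain ⟨l1, hl1⟩ := lift_rule ρ hP hQ hA1 hA2 (nat2 C.ha) (h := fun x => σ (C.a2.val x))
    (fun x => hσ _)
  obtain ⟨l2, hl2⟩ := lift_rule ρ hP' hQ' hB1 hB2 (nat2 C.hb) (h := fun x => σ (C.b2.val x))
    (fun x => hσ _)
  rw [C.p1] at hk2
  rw [C.p2] at hl2
  let s : El (X := X) (R := R) := ⟨th1, C.a1.perm, h1, h2, k1, k2⟩
  let t : El (X := X) (R := R) :=
    ⟨th2, C.a2.perm, fun x => σ (C.a2.val x), fun x => σ (C.b2.val x), l1, l2⟩
  have hsP : C.a1.perm * P = P * Q * C.a1.perm := hpr.s1P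
  have hsQ : C.a1.perm * Q = Q * C.a1.perm := hpr.s1Q
  have htP : C.a2.perm * P = P * Q * P * C.a2.perm := hpr.s2P
  have htQ : C.a2.perm * Q = P⁻¹ * C.a2.perm := hpr.s2Q
  have hs : Good D s :=
    { compat := compat1 hsP hsQ
      fix := th1_c
      he := he1
      hr1 := hr1
      hr2 := hr2
      hom := om_th1 heP heQ he1 hsP hsQ
      e1 := hk1
      e2 := hk2
      inv1 := by intro x; rw [hDc]; exact hi x }
  have ht : Good D t :=
    { compat := compat2 htP htQ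
      fix := th2_c
      he := he2
      hr1 := hr1'
      hr2 := hr2'
      hom := om_th2 heP heQ he2 htP htQ
      e1 := hl1
      e2 := hl2
      inv1 := by
        intro x
        change σ (C.a2.val (D.c x)) = σ (C.a2.val x)
        rw [hinv2] }
  have hbr : Braid D s t :=
    { hs := hs
      ht := ht
      ths := rfl
      tht := rfl
      perm := hpr.h12
      full := by
        rw [← htwc]; rfl
      b1 := by
        have h : ∀ x, ρ.π ((hd D s t).h1 x) = ρ.π ((hd D t s).h1 x) := by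
          intro x
          have h3 := congrArg (fun a : W X K => a.val x) C.ha.h12
          simp only [mul_val] at h3
          change ρ.π (h1 (C.a2.perm (C.a1.perm x)) + σ (C.a2.val (C.a1.perm x)) + h1 x)
            = ρ.π (σ (C.a2.val (C.a1.perm (C.a2.perm x))) + h1 (C.a2.perm x) + σ (C.a2.val x))
          simp only [map_add, hσ, hh1]
          exact h3
        choose m hm using fun x => ρ.sub_dvd (h x)
        exact ⟨m, hm⟩
      b2 := by
        have h : ∀ x, ρ.π ((hd D s t).h2 x) = ρ.π ((hd D t s).h2 x) := by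
          intro x
          have h3 := congrArg (fun a : W X K => a.val x) C.hb.h12
          simp only [mul_val, C.p1, C.p2] at h3
          change ρ.π (h2 (C.a2.perm (C.a1.perm x)) + σ (C.b2.val (C.a1.perm x)) + h2 x)
            = ρ.π (σ (C.b2.val (C.a1.perm (C.a2.perm x))) + h2 (C.a2.perm x) + σ (C.b2.val x))
          simp only [map_add, hσ, hh2]
          exact h3
        choose m hm using fun x => ρ.sub_dvd (h x)
        exact ⟨m, hm⟩ }
  have f1 : ∀ x, ρ.π ((ft D s t).h1 x) = ρ.π (r1 x + α) := by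
    intro x
    rw [map_add, er1, hα, ← tw_val C.ha C.hα]
    have key : ∀ y, ρ.π ((hd D s t).h1 y) = (C.a1 * C.a2 * C.a1).val y := by
      intro y
      change ρ.π (h1 (C.a2.perm (C.a1.perm y)) + σ (C.a2.val (C.a1.perm y)) + h1 y) = _
      simp only [map_add, hσ, hh1, mul_val]
    change ρ.π ((hd D s t).h1 ((hd D s t).g ((hd D s t).g ((hd D s t).g x)))
        + (hd D s t).h1 ((hd D s t).g ((hd D s t).g x))
        + ((hd D s t).h1 ((hd D s t).g x) + (hd D s t).h1 x)) = _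
    simp only [map_add, key]
    rfl
  have f2 : ∀ x, ρ.π ((ft D s t).h2 x) = ρ.π (r2 x + β) := by
    intro x
    rw [map_add, er2, hβ, ← tw_val C.hb C.hβ]
    have key : ∀ y, ρ.π ((hd D s t).h2 y) = (C.b1 * C.b2 * C.b1).val y := by
      intro y
      change ρ.π (h2 (C.a2.perm (C.a1.perm y)) + σ (C.b2.val (C.a1.perm y)) + h2 y) = _
      simp only [map_add, hσ, hh2, mul_val, C.p1, C.p2]
    have hg : (hd D s t).g = (C.b1 * C.b2 * C.b1).perm := by
      change C.a1.perm * C.a2.perm * C.a1.perm = C.b1.perm * C.b2.perm * C.b1.perm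
      rw [C.p1, C.p2]
    change ρ.π ((hd D s t).h2 ((hd D s t).g ((hd D s t).g ((hd D s t).g x)))
        + (hd D s t).h2 ((hd D s t).g ((hd D s t).g x))
        + ((hd D s t).h2 ((hd D s t).g x) + (hd D s t).h2 x)) = _
    simp only [map_add, key, hg]
    rfl
  choose m1 hm1 using fun x => ρ.sub_dvd (f1 x)
  choose m2 hm2 using fun x => ρ.sub_dvd (f2 x)
  have main := hbr.relation hm1 hm2
  have hloc : qq D s = locq e P Q C.a1.perm A B r1 r2 h1 h2 := by
    unfold qq locq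
    have e1 : S D.e (fun x => h1 x * (ev P Q B gc (C.a1.perm x) - r2 x))
        = ρ.p * S D.e (fun x => h1 x * n2 (C.a1.perm x)) := by
      rw [← S_smul]
      refine S_congr D.e fun x => ?_
      simp only [Pi.smul_apply, smul_eq_mul]
      rw [hn2, hr2]; ring
    have e2 : S D.e (fun x => (ev P Q A gc x - r1 x) * h2 x)
        = ρ.p * S D.e (fun x => n1 x * h2 x) := by
      rw [← S_smul]
      refine S_congr D.e fun x => ?_
      simp only [Pi.smul_apply, smul_eq_mul]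
      rw [hn1]; ring
    change om e P Q A (LL P Q th1 C.a1.perm B - B) - ρ.p * (S D.e (fun x => h1 x * n2 (C.a1.perm x))
      + S D.e (fun x => n1 x * h2 x)) = _ - S D.e _ - S D.e _
    rw [e1, e2]; ring
  rw [hloc] at main
  exact main

end P179H300
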