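import Vale.Agent.P179.H843.AutoSep

/-!
# Module SEPrel of REL: separability is automatic, relative form

`Γ` is a finite group with a normal subgroup `D1` and a supplement `N`.  The relative Higman
form of `id - ι ρ` is over `D1 × D1`, with `θ` right linear over `N`, and `B` is projective
over `A` on the right.  If every central element of `B` is a unit or nilpotent then `A → B` is a
separable extension.
-/

namespace Vale.P179.H300.SepR

open Module Vale.P179.H445 Vale.P179.Sgn Vale.Agent.P179.H843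
open scoped TensorProduct BigOperators

section Dual

variable {K B A Γ : Type} [Field K] [Ring B] [Algebra K B] [Ring A] [Algebra K A]
  [Group Γ] [Fintype Γ] {γ : Γ →* A} {ι : A →ₐ[K] B} {ρ : B →ₗ[K] A}

/-- the relative dual basis from projectivity on the right -/
theorem exists_dual_proj [FiniteDimensional K B]
    (hr : ∀ h b, ρ (b * ι h) = ρ b * h)
    (hspan : Submodule.span K (Set.range γ) = ⊤) (τ : B →ₗ[K] K)
    (tc : ∀ a b, τ (a * b) = τ (b * a)) (nd : ∀ x, (∀ y, τ (x * y) = 0) → x = 0)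
    (tρ : ∀ b, τ (ι (ρ b)) = τ b)
    (η : B →ₗ[K] B) (hη : ∀ b, ∑ g : Γ, η (b * ι (γ g)) * ι (γ g⁻¹) = b) :
    ∃ (n : ℕ) (X Y : Fin n → B), ∀ b, b = ∑ l, X l * ι (ρ (Y l * b)) := by
  obtain ⟨n, a, c, hs⟩ := exists_shape τ nd η
  set u : A := ∑ y : Γ, τ (ι (γ y)) • γ y⁻¹ with hu
  refine ⟨n, fun i => a i * ι u, c, fun b => ?_⟩
  have h2 : ∀ g : Γ, η (b * ι (γ g)) * ι (γ g⁻¹)
      = ∑ i, a i * (τ (ι (γ g * ρ (c i * b))) • ι (γ g⁻¹)) := by
    intro g
    rw [hs, Finset.sum_mul]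
    refine Finset.sum_congr rfl fun i _ => ?_
    have h3 : τ (c i * (b * ι (γ g))) = τ (ι (γ g * ρ (c i * b))) := by
      rw [← mul_assoc, ← tρ, hr, map_mul, tc, ← map_mul]
    rw [h3, mul_smul_comm, smul_mul_assoc]
  conv_lhs => rw [← hη b]
  rw [Finset.sum_congr rfl fun g _ => h2 g, Finset.sum_comm]
  refine Finset.sum_congr rfl fun i _ => ?_
  rw [← Finset.mul_sum]
  have h4 : ∑ y : Γ, τ (ι (γ y * ρ (c i * b))) • ι (γ y⁻¹) = ι (u * ρ (c i * b)) := by
    rw [hu, ← theta_sum τ tc hspan, map_sum]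
    refine Finset.sum_congr rfl fun y _ => ?_
    rw [map_smul]
  rw [h4, map_mul ι, mul_assoc (a i)]

/-- a right `A`-linear map slides along the Casimir element -/
theorem slide {L : Type} [Fintype L] (X Y : L → B)
    (h : ∀ b, b = ∑ l, X l * ι (ρ (Y l * b))) (h' : ∀ b, b = ∑ l, ι (ρ (b * X l)) * Y l)
    (G : B →ₗ[K] B) (hG : ∀ b a, G (b * ι a) = G b * ι a) (b : B) :
    ∑ l, G (b * X l) * Y l = ∑ l, G (X l) * (Y l * b) := by
  have e1 : ∑ l, G (b * X l) * Y l = ∑ m, ∑ l, G (X m) * (ι (ρ (Y m * b * X l)) * Y l) := by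
    rw [Finset.sum_comm]
    refine Finset.sum_congr rfl fun l _ => ?_
    conv_lhs => rw [h (b * X l)]
    rw [map_sum, Finset.sum_mul]
    exact Finset.sum_congr rfl fun m _ => by rw [hG, mul_assoc, mul_assoc (Y m)]
  rw [e1]
  refine Finset.sum_congr rfl fun m _ => ?_
  rw [← Finset.mul_sum]
  congr 1
  exact (h' (Y m * b)).symm

/-- the last step: if the product of the dual bases is a unit, the extension is separable -/
theorem sep_of_unit {L : Type} [Fintype L] (X Y : L → B)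
    (hX : ∀ b, b = ∑ l, X l * ι (ρ (Y l * b))) (hY : ∀ b, b = ∑ l, ι (ρ (b * X l)) * Y l)
    (hu : IsUnit (∑ l, X l * Y l)) :
    ∃ (m : ℕ) (s t : Fin m → B), ∑ i, s i * t i = 1 ∧
      ∀ b : B, (∑ i, (b * s i) ⊗ₜ[K] t i) - (∑ i, s i ⊗ₜ[K] (t i * b)) ∈
        Submodule.span K {z : B ⊗[K] B | ∃ (x y : B) (h : A),
          z = (x * ι h) ⊗ₜ[K] y - x ⊗ₜ[K] (ι h * y)} := by
  classical
  set z : B := ∑ l, X l * Y l with hz
  have hcen : ∀ b, z * b = b * z := casimir_central X Y hX hY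
  obtain ⟨w, hw⟩ := hu
  have hwc : ∀ b, (↑w⁻¹ : B) * b = b * ↑w⁻¹ := by
    intro b
    have := hcen b
    rw [← hw] at this
    rw [Units.inv_mul_eq_iff_eq_mul, ← mul_assoc, this, mul_assoc, Units.mul_inv, mul_one]
  let eq : L ≃ Fin (Fintype.card L) := Fintype.equivFin L
  refine ⟨Fintype.card L, fun i => X (eq.symm i) * ↑w⁻¹, fun i => Y (eq.symm i), ?_, fun b => ?_⟩
  · rw [Equiv.sum_comp eq.symm fun l => X l * ↑w⁻¹ * Y l]
    have : ∑ l, X l * ↑w⁻¹ * Y l = z * ↑w⁻¹ := by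
      rw [hz, Finset.sum_mul]
      exact Finset.sum_congr rfl fun l _ => by rw [mul_assoc, hwc, mul_assoc]
    rw [this, ← hw, Units.mul_inv]
  · rw [Equiv.sum_comp eq.symm fun l => (b * (X l * ↑w⁻¹)) ⊗ₜ[K] Y l,
      Equiv.sum_comp eq.symm fun l => (X l * ↑w⁻¹) ⊗ₜ[K] (Y l * b)]
    have h1 := casimir_sep (ι := ι) X Y hX hY (↑w⁻¹ * b)
    have h2 := balS_mul (ι := ι) b (casimir_sep (ι := ι) X Y hX hY ↑w⁻¹)
    have e3 : ∑ l, (b * (X l * ↑w⁻¹)) ⊗ₜ[K] Y l = ∑ l, ((↑w⁻¹ * b) * X l) ⊗ₜ[K] Y l :=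
      Finset.sum_congr rfl fun l _ => by rw [← hwc (X l), ← mul_assoc, ← hwc b]
    have e4 : (∑ l, (↑w⁻¹ * X l) ⊗ₜ[K] Y l - ∑ l, X l ⊗ₜ[K] (Y l * ↑w⁻¹)) * (1 ⊗ₜ[K] b)
        = ∑ l, (X l * ↑w⁻¹) ⊗ₜ[K] (Y l * b) - ∑ l, X l ⊗ₜ[K] (Y l * (↑w⁻¹ * b)) := by
      rw [sub_mul, Finset.sum_mul, Finset.sum_mul]
      congr 1
      · refine Finset.sum_congr rfl fun l _ => ?_
        rw [Algebra.TensorProduct.tmul_mul_tmul, mul_one, hwc]
      · refine Finset.sum_congr rfl fun l _ => ?_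
        rw [Algebra.TensorProduct.tmul_mul_tmul, mul_one, mul_assoc]
    rw [e4] at h2
    rw [e3]
    have h3 := Submodule.sub_mem _ h1 h2
    rw [sub_sub_sub_cancel_right] at h3
    exact h3

end Dual

section Main

variable {K B A Γ : Type} [Field K] [Ring B] [Algebra K B] [Ring A] [Algebra K A]
  [Group Γ] [Fintype Γ] {γ : Γ →* A} {ι : A →ₐ[K] B} {ρ : B →ₗ[K] A} {θ : B →ₗ[K] B}
  {D1 : Subgroup Γ} [Fintype D1]

/-- `b ↦ ∑_{y ∈ D1} θ(b y) y⁻¹` -/
noncomputable def tr1 (γ : Γ →* A) (ι : A →ₐ[K] B) (θ : B →ₗ[K] B) (D1 : Subgroup Γ)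
    [Fintype D1] : B →ₗ[K] B :=
  ∑ y : D1, (LinearMap.mulRight K (ι (γ (y : Γ)⁻¹))) ∘ₗ θ ∘ₗ
    (LinearMap.mulRight K (ι (γ (y : Γ))))

omit [Fintype Γ] in
theorem tr1_apply (b : B) :
    tr1 γ ι θ D1 b = ∑ y : D1, θ (b * ι (γ (y : Γ))) * ι (γ (y : Γ)⁻¹) := by
  rw [tr1, LinearMap.sum_apply]
  rfl

/-- it is right `A`-linear -/
theorem tr1_right (hspan : Submodule.span K (Set.range γ) = ⊤) (hn : D1.Normal)
    (N : Subgroup Γ) (hsup : D1 ⊔ N = ⊤)
    (hθ : ∀ x ∈ N, ∀ b, θ (b * ι (γ x)) = θ b * ι (γ x)) (b : B) (a : A) :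
    tr1 γ ι θ D1 (b * ι a) = tr1 γ ι θ D1 b * ι a := by
  let S : Subgroup Γ :=
    { carrier := {g | ∀ b, tr1 γ ι θ D1 (b * ι (γ g)) = tr1 γ ι θ D1 b * ι (γ g)}
      one_mem' := fun b => by rw [map_one, map_one, mul_one, mul_one]
      mul_mem' := fun {g h} hg hh b => by
        rw [map_mul γ, map_mul ι, ← mul_assoc, hh, hg, mul_assoc]
      inv_mem' := fun {g} hg b => by
        have h1 := hg (b * ι (γ g⁻¹))
        rw [mul_assoc, ← map_mul ι, ← map_mul γ, inv_mul_cancel, map_one, map_one, mul_one] at h1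
        rw [h1, mul_assoc, ← map_mul ι, ← map_mul γ, mul_inv_cancel, map_one, map_one, mul_one] }
  have h1 : D1 ≤ S := by
    intro g hg b
    rw [tr1_apply, tr1_apply, Finset.sum_mul,
      ← Equiv.sum_comp (Equiv.mulLeft (⟨g, hg⟩ : D1)) fun y =>
        θ (b * ι (γ (y : Γ))) * ι (γ (y : Γ)⁻¹) * ι (γ g)]
    refine Finset.sum_congr rfl fun y _ => ?_
    rw [Equiv.coe_mulLeft]
    have e1 : (((⟨g, hg⟩ : D1) * y : D1) : Γ) = g * y := rfl
    rw [e1, mul_assoc b, ← map_mul ι, ← map_mul γ, mul_assoc (θ _), ← map_mul ι, ← map_mul γ,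
      mul_inv_rev, inv_mul_cancel_right]
  have h2 : N ≤ S := by
    intro n hnN b
    rw [tr1_apply, tr1_apply, Finset.sum_mul]
    let e : D1 ≃ D1 :=
      { toFun := fun y => ⟨n * y * n⁻¹, hn.conj_mem _ y.2 n⟩
        invFun := fun y => ⟨n⁻¹ * y * n, by
          have := hn.conj_mem _ y.2 n⁻¹
          rwa [inv_inv] at this⟩
        left_inv := fun y => Subtype.ext (by simp [mul_assoc])
        right_inv := fun y => Subtype.ext (by simp [mul_assoc]) }
    rw [← Equiv.sum_comp e fun y => θ (b * ι (γ (y : Γ))) * ι (γ (y : Γ)⁻¹) * ι (γ n)]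
    refine Finset.sum_congr rfl fun y _ => ?_
    have e1 : ((e y : D1) : Γ) = n * y * n⁻¹ := rfl
    have e2 : b * ι (γ n) * ι (γ (y : Γ)) = b * ι (γ (n * y * n⁻¹)) * ι (γ n) := by
      rw [mul_assoc, mul_assoc, ← map_mul ι, ← map_mul ι, ← map_mul γ, ← map_mul γ,
        inv_mul_cancel_right]
    have e3 : ι (γ n) * ι (γ (y : Γ)⁻¹) = ι (γ (n * y * n⁻¹)⁻¹) * ι (γ n) := by
      rw [← map_mul ι, ← map_mul ι, ← map_mul γ, ← map_mul γ]
      congr 2
      group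
    rw [e1, e2, hθ n hnN, mul_assoc _ (ι (γ n)), e3, ← mul_assoc]
  have h3 : ∀ g, g ∈ S := by
    intro g
    have : (⊤ : Subgroup Γ) ≤ S := hsup ▸ sup_le h1 h2
    exact this trivial
  have ha : a ∈ Submodule.span K (Set.range γ) := by rw [hspan]; trivial
  induction ha using Submodule.span_induction with
  | mem x hx =>
    obtain ⟨g, rfl⟩ := hx
    exact h3 g b
  | zero => simp
  | add x y _ _ hx hy => rw [map_add, mul_add, mul_add, map_add, hx, hy]
  | smul c x _ hx => rw [map_smul, mul_smul_comm, mul_smul_comm, map_smul, hx]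

/-- **Separability is automatic, relative form.** -/
theorem autosep_rel [FiniteDimensional K B] (D : Rel (γ.comp D1.subtype) ι ρ θ) (aug : A →ₐ[K] K)
    (hspan : Submodule.span K (Set.range γ) = ⊤) (hn : D1.Normal)
    (N : Subgroup Γ) (hsup : D1 ⊔ N = ⊤)
    (hθ : ∀ x ∈ N, ∀ b, θ (b * ι (γ x)) = θ b * ι (γ x))
    (hproj : ∃ η : B →ₗ[K] B, ∀ b, ∑ g : Γ, η (b * ι (γ g)) * ι (γ g⁻¹) = b)
    (hcard : (Fintype.card D1 : K) = 0) (τ : B →ₗ[K] K)
    (tc : ∀ a b, τ (a * b) = τ (b * a)) (nd : ∀ x, (∀ y, τ (x * y) = 0) → x = 0)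
    (tρ : ∀ b, τ (ι (ρ b)) = τ b) (hZ : ZLoc B) :
    ∃ (m : ℕ) (s t : Fin m → B), ∑ i, s i * t i = 1 ∧
      ∀ b : B, (∑ i, (b * s i) ⊗ₜ[K] t i) - (∑ i, s i ⊗ₜ[K] (t i * b)) ∈
        Submodule.span K {z : B ⊗[K] B | ∃ (x y : B) (h : A),
          z = (x * ι h) ⊗ₜ[K] y - x ⊗ₜ[K] (ι h * y)} := by
  classical
  obtain ⟨η, hη⟩ := hproj
  obtain ⟨n, X, Y, hX⟩ := exists_dual_proj D.right hspan τ tc nd tρ η hη
  have hY := dual_other (K := K) D.left D.right τ nd tρ X Y hX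
  refine sep_of_unit X Y hX hY ?_
  set z : B := ∑ l, X l * Y l with hz
  have hcen : ∀ b, z * b = b * z := casimir_central X Y hX hY
  set F := tr1 γ ι θ D1 with hF
  have hFr : ∀ b a, F (b * ι a) = F b * ι a := tr1_right hspan hn N hsup hθ
  set W : B := ∑ l, F (X l) * Y l with hW
  have hb : ∀ b, b = ι (ρ b) + ∑ x : D1, ι (γ (x : Γ)) * F (ι (γ (x : Γ)⁻¹) * b) := by
    intro b
    have h1 := D.hig b
    have h2 : ∑ x : D1, ∑ y : D1, ι ((γ.comp D1.subtype) x) *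
        θ (ι ((γ.comp D1.subtype) x⁻¹) * b * ι ((γ.comp D1.subtype) y)) *
          ι ((γ.comp D1.subtype) y⁻¹)
        = ∑ x : D1, ι (γ (x : Γ)) * F (ι (γ (x : Γ)⁻¹) * b) := by
      refine Finset.sum_congr rfl fun x _ => ?_
      rw [hF, tr1_apply, Finset.mul_sum]
      refine Finset.sum_congr rfl fun y _ => ?_
      rw [mul_assoc (ι ((γ.comp D1.subtype) x))]
      rfl
    rw [h2] at h1
    rw [h1]
    abel
  have hzW : z = 1 + ∑ x : D1, ι (γ (x : Γ)) * W * ι (γ (x : Γ)⁻¹) := by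
    have e1 : ∀ l, X l * Y l = ι (ρ (X l)) * Y l
        + ∑ x : D1, ι (γ (x : Γ)) * (F (ι (γ (x : Γ)⁻¹) * X l) * Y l) := by
      intro l
      conv_lhs => rw [hb (X l)]
      rw [add_mul, Finset.sum_mul]
      congr 1
      exact Finset.sum_congr rfl fun x _ => mul_assoc _ _ _
    have e2 : ∑ l, ι (ρ (X l)) * Y l = 1 := by
      have := hY 1
      simp only [one_mul] at this
      exact this.symm
    have e3 : ∀ x : D1, ∑ l, ι (γ (x : Γ)) * (F (ι (γ (x : Γ)⁻¹) * X l) * Y l)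
        = ι (γ (x : Γ)) * W * ι (γ (x : Γ)⁻¹) := by
      intro x
      rw [← Finset.mul_sum, slide X Y hX hY F hFr, hW, mul_assoc, Finset.sum_mul]
      congr 1
      exact Finset.sum_congr rfl fun l _ => (mul_assoc _ _ _).symm
    rw [hz, Finset.sum_congr rfl fun l _ => e1 l, Finset.sum_add_distrib, e2, Finset.sum_comm]
    congr 1
    exact Finset.sum_congr rfl fun x _ => e3 x
  have haug : aug (ρ z) = 1 := by
    have e1 : ρ z = 1 + ∑ x : D1, γ (x : Γ) * ρ W * γ (x : Γ)⁻¹ := by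
      rw [hzW, map_add, map_sum]
      congr 1
      · rw [← map_one ι, D.ret]
      · exact Finset.sum_congr rfl fun x _ => by rw [D.right, D.left]
    have e2 : ∀ (x : D1) (w : A), aug (γ (x : Γ) * w * γ (x : Γ)⁻¹) = aug w := by
      intro x w
      have h1 : aug (γ (x : Γ)) * aug (γ (x : Γ)⁻¹) = 1 := by
        rw [← map_mul, ← map_mul, mul_inv_cancel, map_one, map_one]
      rw [map_mul, map_mul, mul_right_comm, h1, one_mul]
    rw [e1, map_add, map_one, map_sum]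
    simp only [e2]
    rw [Finset.sum_const, Finset.card_univ, nsmul_eq_mul, hcard, zero_mul, add_zero]
  refine (hZ z hcen).resolve_right fun hn => ?_
  rw [D.aug_eq_zero aug hcard hcen hn] at haug
  exact zero_ne_one haug

end Main

end Vale.P179.H300.SepR
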