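import Mathlib

/-!
# Lifted permutations and cocycles on a free group of rank two

`W X R` is the group of pairs `(g, v)`, `g` a permutation of `X`, `v : X → R`, with
`(g, v) (h, w) = (g h, v ∘ h + w)`.
-/

namespace P179H300

/-- Pairs (permutation, function). -/
@[ext] structure W (X R : Type*) where
  /-- the permutation -/
  perm : Equiv.Perm X
  /-- the function -/
  val : X → R

section group

variable {X R : Type*} [AddCommGroup R]

instance : Mul (W X R) := ⟨fun a b => ⟨a.perm * b.perm, fun x => a.val (b.perm x) + b.val x⟩⟩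
instance : One (W X R) := ⟨⟨1, fun _ => 0⟩⟩
instance : Inv (W X R) := ⟨fun a => ⟨a.perm⁻¹, fun x => - a.val (a.perm⁻¹ x)⟩⟩

@[simp] theorem mul_perm (a b : W X R) : (a * b).perm = a.perm * b.perm := rfl
@[simp] theorem mul_val (a b : W X R) (x : X) : (a * b).val x = a.val (b.perm x) + b.val x := rfl
@[simp] theorem one_perm : (1 : W X R).perm = 1 := rfl
@[simp] theorem one_val (x : X) : (1 : W X R).val x = 0 := rfl
@[simp] theorem inv_perm (a : W X R) : (a⁻¹).perm = a.perm⁻¹ := rfl
@[simp] theorem inv_val (a : W X R) (x : X) : (a⁻¹).val x = - a.val (a.perm⁻¹ x) := rfl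

instance : Group (W X R) where
  mul_assoc a b c := by
    apply W.ext
    · simp [mul_assoc]
    · funext x; simp [add_assoc]
  one_mul a := by
    apply W.ext
    · simp
    · funext x; simp
  mul_one a := by
    apply W.ext
    · simp
    · funext x; simp
  inv_mul_cancel a := by
    apply W.ext
    · simp
    · funext x; simp

/-- The projection to permutations. -/
def permHom : W X R →* Equiv.Perm X where
  toFun := W.perm
  map_one' := rfl
  map_mul' _ _ := rfl

@[simp] theorem permHom_apply (a : W X R) : permHom a = a.perm := rfl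

end group

/-! ### the free group on `P, Q` -/

/-- The free group of rank two. -/
abbrev F2 := FreeGroup Bool

/-- First generator. -/
def gP : F2 := FreeGroup.of true
/-- Second generator. -/
def gQ : F2 := FreeGroup.of false
/-- The commutator. -/
def gc : F2 := gP * gQ * gP⁻¹ * gQ⁻¹

/-- Substitution. -/
def sub {G : Type*} [Group G] (a b : G) : F2 →* G := FreeGroup.lift (fun t => if t then a else b)

@[simp] theorem sub_P {G : Type*} [Group G] (a b : G) : sub a b gP = a := by simp [sub, gP]
@[simp] theorem sub_Q {G : Type*} [Group G] (a b : G) : sub a b gQ = b := by simp [sub, gQ]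

theorem hom_ext {G : Type*} [Group G] {f g : F2 →* G} (hP : f gP = g gP) (hQ : f gQ = g gQ) :
    f = g := by
  apply FreeGroup.ext_hom
  intro t
  cases t
  · exact hQ
  · exact hP

/-- The automorphism of the first braid generator. -/
def th1 : F2 →* F2 := sub (gP * gQ) gQ
/-- The automorphism of the second braid generator. -/
def th2 : F2 →* F2 := sub (gP * gQ * gP) gP⁻¹

@[simp] theorem th1_P : th1 gP = gP * gQ := by simp [th1]
@[simp] theorem th1_Q : th1 gQ = gQ := by simp [th1]
@[simp] theorem th2_P : th2 gP = gP * gQ * gP := by simp [th2]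
@[simp] theorem th2_Q : th2 gQ = gP⁻¹ := by simp [th2]

theorem th1_c : th1 gc = gc := by
  simp only [gc, map_mul, map_inv, th1_P, th1_Q]; group

theorem th2_c : th2 gc = gc := by
  simp only [gc, map_mul, map_inv, th2_P, th2_Q]; group

theorem th_braid : (th1.comp th2).comp th1 = (th2.comp th1).comp th2 := by
  apply hom_ext
  · simp only [MonoidHom.comp_apply, map_mul, map_inv, th1_P, th1_Q, th2_P, th2_Q]; group
  · simp only [MonoidHom.comp_apply, map_mul, map_inv, th1_P, th1_Q, th2_P, th2_Q]; group

/-- The half twist. -/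
def thd : F2 →* F2 := (th1.comp th2).comp th1

theorem thd_P : thd gP = gP * gQ * gQ := by
  simp only [thd, MonoidHom.comp_apply, map_mul, map_inv, th1_P, th1_Q, th2_P, th2_Q]; group

theorem thd_Q : thd gQ = gQ⁻¹ * gP⁻¹ := by
  simp only [thd, MonoidHom.comp_apply, map_mul, map_inv, th1_P, th1_Q, th2_P, th2_Q]; group

theorem thd2_P : thd (thd gP) = gc * gP⁻¹ := by
  simp only [thd_P, thd_Q, map_mul, gc]; group

theorem thd2_Q : thd (thd gQ) = gP * gQ⁻¹ * gP⁻¹ := by
  simp only [thd_P, thd_Q, map_mul, map_inv]; group

theorem thd_c : thd gc = gc := by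
  simp only [thd, MonoidHom.comp_apply, th1_c, th2_c]

theorem thd4_P : thd (thd (thd (thd gP))) = gc * gP * gc⁻¹ := by
  rw [thd2_P, map_mul, map_inv, thd_c, map_mul, map_inv, thd_c, thd2_P]; group

theorem thd4_Q : thd (thd (thd (thd gQ))) = gc * gQ * gc⁻¹ := by
  rw [thd2_Q]
  simp only [map_mul, map_inv, thd2_P, thd2_Q]
  simp only [gc]; group

end P179H300
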